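import Vale.Agent.P366Z.Grad

/-!
# P366D: barriers, the gradient estimate for systems, the inequality of Harnack
-/

open Metric Filter Topology Set
open Vale.Agent.P366.Stmt Vale.Agent.P366Z Vale.Agent.P366Z.Grad

noncomputable section

namespace Vale.Agent.P366D

variable {n : ℕ} {a : E n → Fin n → Fin n → ℝ} {u v w : E n → ℝ} {x y x₀ : E n} {Λ β R M S : ℝ}

/-- the operator of second order with the coefficients `a` -/
def Lu (a : E n → Fin n → Fin n → ℝ) (u : E n → ℝ) (y : E n) : ℝ :=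
  pr (a y) fun i j => pd i (pd j u) y

/-- the coefficients are elliptic and bounded with one derivative at `x` -/
structure Gp (Λ : ℝ) (a : E n → Fin n → Fin n → ℝ) (x : E n) : Prop where
  sy : ∀ i j, a x i j = a x j i
  lo : ∀ ξ, ∑ i, ξ i ^ 2 ≤ Λ * qf (a x) ξ
  hi : ∀ i j, |a x i j| ≤ Λ
  df : ∀ i j, DifferentiableAt ℝ (fun y => a y i j) x ∧ ‖fderiv ℝ (fun y => a y i j) x‖ ≤ Λ

theorem Gp.nn (h : Gp Λ a x) (hΛ : 0 < Λ) (ξ : Fin n → ℝ) : 0 ≤ qf (a x) ξ :=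
  nonneg_of_mul_nonneg_right ((Finset.sum_nonneg fun _ _ => sq_nonneg _).trans (h.lo ξ)) hΛ

theorem Gp.tr (h : Gp Λ a x) : |∑ i, a x i i| ≤ n * Λ :=
  (Finset.abs_sum_le_sum_abs _ _).trans ((Finset.sum_le_card_nsmul _ _ Λ fun i _ =>
    h.hi i i).trans (by simp))

theorem exists_proj (x₀ : E n) (hR : 0 ≤ R) : ∃ π : E n → E n, (∀ y, π y ∈ closedBall x₀ R) ∧
    (∀ y ∈ closedBall x₀ R, π y = y) ∧ ∀ y z, ‖π y - π z‖ ≤ ‖y - z‖ := by
  choose π h1 h2 using exists_norm_eq_iInf_of_complete_convex (nonempty_closedBall.2 hR)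
    (isClosed_closedBall (x := x₀)).isComplete (convex_closedBall x₀ R)
  have h3 := fun y => (norm_eq_iInf_iff_real_inner_le_zero (convex_closedBall x₀ R) (h1 y)).1 (h2 y)
  refine ⟨π, h1, fun y hy => (sub_eq_zero.1 (real_inner_self_nonpos.1 (h3 y y hy))).symm,
    fun y z => ?_⟩
  have a1 := h3 y _ (h1 z)
  have a2 := h3 z _ (h1 y)
  rw [← neg_sub (π y) (π z), inner_neg_right] at a1
  have a3 : inner ℝ (π y - π z) (π y - π z) = inner ℝ (y - z) (π y - π z) +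
      (inner ℝ (z - π z) (π y - π z) - inner ℝ (y - π y) (π y - π z)) := by
    rw [← inner_sub_left, ← inner_add_left]
    congr 1
    abel
  rw [real_inner_self_eq_norm_sq] at a3
  have a4 := real_inner_le_norm (y - z) (π y - π z)
  by_contra k
  nlinarith [norm_nonneg (y - z), not_le.1 k]

/-- the gradient estimate -/
theorem est_loc (hn : 1 ≤ n) (hΛ : 1 ≤ Λ) (hβ : 0 ≤ β) (hR : 0 < R) (hS : 0 ≤ S)
    (ha : ∀ y ∈ closedBall x₀ R, Gp Λ a y) (sm : (3 * n ^ 2 * Λ + 2 * β) * Λ * R ≤ 1 / 2)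
    (hu : ∀ y ∈ closedBall x₀ R, ContDiffAt ℝ 2 u y ∧ |u y| ≤ M ∧
      |Lu a u y| ≤ S + β * ‖fderiv ℝ u y‖) :
    ‖fderiv ℝ u x₀‖ ≤ 16 * Λ * (2 * n * Λ + 1) * M / R + 4 * Λ * R * S := by
  obtain ⟨π, h1, h2, h3⟩ := exists_proj x₀ hR.le
  refine est (a := fun y => a (π y)) hn hΛ hβ hR hS (fun y => (ha _ (h1 y)).sy)
    (fun y => (ha _ (h1 y)).lo) (fun y => (ha _ (h1 y)).hi) (fun y z i j => ?_) sm
    fun y hy => by simpa only [h2 y hy, Lu] using hu y hy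
  exact ((convex_closedBall x₀ R).norm_image_sub_le_of_norm_fderiv_le (𝕜 := ℝ)
    (f := fun y => a y i j) (fun p hp => ((ha p hp).df i j).1) (fun p hp => ((ha p hp).df i j).2)
    (h1 z) (h1 y)).trans (mul_le_mul_of_nonneg_left (h3 y z) (by linarith))

/-- contact from below -/
theorem touch (sy : ∀ i j, a y i j = a y j i) (nn : ∀ ξ, 0 ≤ qf (a y) ξ) (hw : ContDiffAt ℝ 2 w y)
    (hv : ContDiffAt ℝ 2 v y) (h : IsLocalMin (fun z => w z - v z) y) :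
    fderiv ℝ w y = fderiv ℝ v y ∧ Lu a v y ≤ Lu a w y := by
  have t := fun ξ : E n => test (ξ := ξ) (η := ξ) (α := 0) (β := 0) hv hw (by
    have c : Tendsto (fun t : ℝ => y + t • ξ) (𝓝 0) (𝓝 y) :=
      (show Continuous fun t : ℝ => y + t • ξ by fun_prop).tendsto' 0 y (by simp)
    filter_upwards [c.eventually h] with t k
    linarith)
  refine ⟨ContinuousLinearMap.ext fun ξ => by linarith [(t ξ).1], ?_⟩
  have := pr_le (H := fun i j => pd i (pd j v) y - pd i (pd j w) y) sy nn fun ξ => by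
    have := (t (WithLp.toLp 2 ξ)).2
    rw [d2_eq hv, d2_eq hw] at this
    simp only [qf, sub_mul, Finset.sum_sub_distrib] at this ⊢
    linarith
  simp only [pr, mul_sub, Finset.sum_sub_distrib] at this
  simp only [Lu, pr]
  linarith

/-- contact with a radial function -/
theorem rad {φ φ' : ℝ → ℝ} {d : ℝ} {c : E n} (sy : ∀ i j, a y i j = a y j i)
    (nn : ∀ ξ, 0 ≤ qf (a y) ξ) (hw : ContDiffAt ℝ 2 w y) (h0 : ContDiffAt ℝ 2 φ (‖y - c‖ ^ 2))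
    (h1 : ∀ᶠ s in 𝓝 (‖y - c‖ ^ 2), HasDerivAt φ (φ' s) s) (h2 : HasDerivAt φ' d (‖y - c‖ ^ 2))
    (h : IsLocalMin (fun z => w z - φ (‖z - c‖ ^ 2)) y) :
    ‖fderiv ℝ w y‖ = 2 * |φ' (‖y - c‖ ^ 2)| * ‖y - c‖ ∧
      4 * d * qf (a y) (y - c : E n) + 2 * φ' (‖y - c‖ ^ 2) * ∑ i, a y i i ≤ Lu a w y := by
  have q : ContDiff ℝ 2 fun z : E n => ‖z - c‖ ^ 2 := (contDiff_id.sub contDiff_const).norm_sq ℝ
  have q1 := q.differentiable (by norm_num)
  have q2 : ∀ z i, pd i (fun z : E n => ‖z - c‖ ^ 2) z = 2 * (z i - c i) := fun z i => by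
    rw [pd_translate (f := fun z => ‖z‖ ^ 2), pd_normSq]; rfl
  have hv : ContDiffAt ℝ 2 (fun z : E n => φ (‖z - c‖ ^ 2)) y := h0.comp y q.contDiffAt
  obtain ⟨k1, k2⟩ := touch sy nn hw hv h
  have e1 : ∀ j, pd j (fun z : E n => φ (‖z - c‖ ^ 2)) =ᶠ[𝓝 y]
      fun z => φ' (‖z - c‖ ^ 2) * (2 * (z j - c j)) := fun j =>
    (q.continuous.continuousAt.eventually h1).mono fun z hz => by rw [pd_comp hz (q1 z), q2]
  constructor
  · refine (pow_left_inj₀ (norm_nonneg _) (by positivity) two_ne_zero).1 ?_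
    rw [k1, norm_fderiv_sq (diff2 hv), mul_pow, mul_pow, sq_abs]
    simp only [fun j => (e1 j).self_of_nhds]
    generalize φ' (‖y - c‖ ^ 2) = t
    rw [norm_sq_eq, Finset.mul_sum]
    exact Finset.sum_congr rfl fun j _ => by rw [PiLp.sub_apply]; ring
  · refine le_trans (le_of_eq ?_) k2
    have e2 : ∀ i j, pd i (pd j fun z : E n => φ (‖z - c‖ ^ 2)) y =
        4 * d * ((y i - c i) * (y j - c j)) + 2 * φ' (‖y - c‖ ^ 2) * if i = j then 1 else 0 :=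
      fun i j => by
        rw [pd_congr (e1 j), pd_mul (f := fun z => φ' (‖z - c‖ ^ 2))
          (h2.differentiableAt.comp y (q1 y)) (by fun_prop),
          pd_comp h2 (q1 y), q2, pd_const_mul, pd_sub_const, pd_coord]
        ring
    simp only [Lu, pr, qf, e2, mul_add, Finset.sum_add_distrib, mul_ite, mul_one, mul_zero,
      Finset.sum_ite_eq, Finset.mem_univ, if_true, Finset.mul_sum, PiLp.sub_apply]
    congr 1
    · exact Finset.sum_congr rfl fun i _ => Finset.sum_congr rfl fun j _ => by ring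
    · exact Finset.sum_congr rfl fun i _ => by ring

/-- contact with a power of the distance -/
theorem rad_pow {κ q e : ℝ} {c : E n} (sy : ∀ i j, a y i j = a y j i)
    (nn : ∀ ξ, 0 ≤ qf (a y) ξ) (hw : ContDiffAt ℝ 2 w y) (hy : y ≠ c)
    (h : IsLocalMin (fun z => w z - (κ * ‖z - c‖ ^ q + e)) y) :
    ‖fderiv ℝ w y‖ * ‖y - c‖ = |κ * q| * ‖y - c‖ ^ q ∧
      κ * q * ‖y - c‖ ^ q * ((q - 2) * qf (a y) (y - c : E n) + ‖y - c‖ ^ 2 * ∑ i, a y i i) ≤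
        ‖y - c‖ ^ 4 * Lu a w y := by
  have r0 : 0 < ‖y - c‖ := norm_pos_iff.2 (sub_ne_zero.2 hy)
  have t0 : 0 < ‖y - c‖ ^ 2 := by positivity
  have e0 : ∀ z : E n, (‖z - c‖ ^ 2) ^ (q / 2) = ‖z - c‖ ^ q := fun z => by
    rw [← Real.rpow_natCast, ← Real.rpow_mul (norm_nonneg _)]
    congr 1
    push_cast
    ring
  obtain ⟨k1, k2⟩ := rad (φ := fun t => κ * t ^ (q / 2) + e)
    (φ' := fun t => κ * (q / 2 * t ^ (q / 2 - 1)))
    (d := κ * (q / 2 * ((q / 2 - 1) * (‖y - c‖ ^ 2) ^ (q / 2 - 1 - 1)))) sy nn hw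
    ((contDiffAt_const.mul (Real.contDiffAt_rpow_const_of_ne t0.ne')).add contDiffAt_const)
    ((eventually_ne_nhds t0.ne').mono fun s hs =>
      ((Real.hasDerivAt_rpow_const (Or.inl hs)).const_mul κ).add_const e)
    (((Real.hasDerivAt_rpow_const (Or.inl t0.ne')).const_mul _).const_mul κ)
    (by simpa only [e0] using h)
  simp only [Real.rpow_sub_one t0.ne', e0] at k1 k2
  have p : 0 < ‖y - c‖ ^ q := Real.rpow_pos_of_pos r0 q
  constructor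
  · rw [k1, ← mul_assoc κ, abs_mul (κ * (q / 2)), abs_of_pos (div_pos p t0), ← mul_div_assoc κ,
      abs_div, abs_two]
    field_simp
  · refine le_trans (le_of_eq ?_) (mul_le_mul_of_nonneg_left k2 (by positivity))
    field_simp
    ring

/-- the minimum over a compact set is attained on the boundary or it is a local minimum -/
theorem exists_neg_min {K B : Set (E n)} (hK : IsCompact K) (hu : ContinuousOn u K)
    (hB : ∀ z ∈ K, z ∉ B → K ∈ 𝓝 z) (h0 : ∀ z ∈ K, z ∈ B → 0 ≤ u z) (hx : x ∈ K) (h : u x < 0) :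
    ∃ y ∈ K, y ∉ B ∧ u y < 0 ∧ IsLocalMin u y := by
  obtain ⟨y, hy, hm⟩ := hK.exists_isMinOn ⟨x, hx⟩ hu
  have h1 : u y < 0 := (hm hx).trans_lt h
  have h2 : y ∉ B := fun k => (h0 y hy k).not_gt h1
  exact ⟨y, hy, h2, h1, hm.isLocalMin (hB y hy h2)⟩

/-- the choice of a point -/
theorem pick (p : ℕ) (hp : p ≠ 0) (hR : 0 < R) (hu : ContinuousOn u (closedBall x₀ R))
    (h0 : ∀ y ∈ closedBall x₀ R, 0 ≤ u y) (h1 : 0 < u x₀) : ∃ y d, 0 < d ∧ d + ‖y - x₀‖ = R ∧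
      (∀ z, ‖z - x₀‖ ≤ R → (R - ‖z - x₀‖) ^ p * u z ≤ d ^ p * u y) ∧
      ∀ z ∈ closedBall y (d / 2), ‖z - x₀‖ ≤ R ∧ u z ≤ 2 ^ p * u y := by
  obtain ⟨y, hy, hm⟩ := (isCompact_closedBall x₀ R).exists_isMaxOn ⟨x₀, mem_closedBall_self hR.le⟩
    (f := fun z => (R - ‖z - x₀‖) ^ p * u z) (ContinuousOn.mul (by fun_prop) hu)
  have h2 : ∀ z, ‖z - x₀‖ ≤ R → (R - ‖z - x₀‖) ^ p * u z ≤ (R - ‖y - x₀‖) ^ p * u y :=
    fun z hz => hm (mem_closedBall_iff_norm.2 hz)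
  have d0 : 0 < R - ‖y - x₀‖ := by
    refine (sub_nonneg.2 (mem_closedBall_iff_norm.1 hy)).lt_of_ne' fun k => ?_
    have := h2 x₀ (by simpa using hR.le)
    rw [k, zero_pow hp, zero_mul, sub_self, norm_zero, sub_zero] at this
    exact this.not_gt (by positivity)
  refine ⟨y, _, d0, by ring, h2, fun z hz => ?_⟩
  have h3 := norm_sub_le_norm_sub_add_norm_sub z y x₀
  have h4 := mem_closedBall_iff_norm.1 hz
  have h5 : ‖z - x₀‖ ≤ R := by linarith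
  refine ⟨h5, le_of_mul_le_mul_left ?_ (pow_pos (half_pos d0) p)⟩
  rw [← mul_assoc, ← mul_pow, div_mul_cancel₀ _ two_ne_zero]
  exact (mul_le_mul_of_nonneg_right (pow_le_pow_left₀ (half_pos d0).le (by linarith) p)
    (h0 z (mem_closedBall_iff_norm.2 h5))).trans (h2 z h5)

/-- **the gradient estimate for systems** -/
theorem gsys (κ : Type) [Fintype κ] (hn : 1 ≤ n) (hΛ : 1 ≤ Λ) (hβ : 0 ≤ β) :
    ∃ R₀ > (0 : ℝ), ∃ C ≥ (0 : ℝ), ∀ (a : E n → Fin n → Fin n → ℝ) (w : κ → E n → ℝ) (x₀ : E n)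
      (R M S : ℝ), 0 < R → R ≤ R₀ → 0 ≤ M → 0 ≤ S → (∀ y ∈ closedBall x₀ R, Gp Λ a y ∧ ∀ α,
        ContDiffAt ℝ 2 (w α) y ∧ |w α y| ≤ M ∧ |Lu a (w α) y| ≤ S + β * ∑ γ, ‖fderiv ℝ (w γ) y‖) →
      ∑ γ, ‖fderiv ℝ (w γ) x₀‖ ≤ C * (M / R + S) := by
  obtain ⟨N, hN⟩ : ∃ N : ℝ, N = Fintype.card κ := ⟨_, rfl⟩
  have N0 : 0 ≤ N := by rw [hN]; positivity
  obtain ⟨A, hA⟩ : ∃ A, A = 16 * Λ * (2 * n * Λ + 1) := ⟨_, rfl⟩
  have A0 : 0 ≤ A := by rw [hA]; positivity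
  obtain ⟨T, hT⟩ : ∃ T, T = 1 + 8 * N * Λ * β + 3 * n ^ 2 * Λ * Λ := ⟨_, rfl⟩
  have T1 : 0 ≤ 8 * N * Λ * β := by positivity
  have T2 : 0 ≤ 3 * n ^ 2 * Λ * Λ := by positivity
  have T0 : 0 < T := by linarith
  refine ⟨1 / T, by positivity, 4 * N * (A + Λ), by positivity, fun a w x₀ R M S hR hR' hM hS h => ?_⟩
  rw [le_div_iff₀ T0, hT] at hR'
  rcases (show 0 ≤ ∑ γ, ‖fderiv ℝ (w γ) x₀‖ by positivity).eq_or_lt with k | k
  · rw [← k]; positivity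
  obtain ⟨y, d, d0, d1, h1, h2⟩ := pick (u := fun z => ∑ γ, ‖fderiv ℝ (w γ) z‖) 1 one_ne_zero hR
    (continuousOn_finsetSum _ fun γ _ z hz => ((((h z hz).2 γ).1.fderiv_right (m := 1)
      (by norm_num)).continuousAt.norm).continuousWithinAt) (fun _ _ => by positivity) k
  obtain ⟨Q, hQ⟩ : ∃ Q, Q = ∑ γ, ‖fderiv ℝ (w γ) y‖ := ⟨_, rfl⟩
  have Q0 : 0 ≤ Q := by rw [hQ]; positivity
  have dR : d ≤ R := by linarith [norm_nonneg (y - x₀)]
  have h3 := h1 x₀ (by simpa using hR.le)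
  simp only [pow_one, ← hQ, sub_self, norm_zero, sub_zero] at h2 h3
  have h4 : Q ≤ N * (A * M / (d / 2) + 4 * Λ * (d / 2) * (S + β * (2 * Q))) := by
    rw [hQ, hN, ← nsmul_eq_mul]
    refine Finset.sum_le_card_nsmul _ _ _ fun α _ => ?_
    rw [hA, ← hQ]
    refine est_loc (β := 0) hn hΛ le_rfl (half_pos d0) (by positivity)
      (fun z hz => (h z (mem_closedBall_iff_norm.2 (h2 z hz).1)).1) (by nlinarith) fun z hz => ?_
    obtain ⟨k1, k2, k3⟩ := (h z (mem_closedBall_iff_norm.2 (h2 z hz).1)).2 α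
    exact ⟨k1, k2, by linarith [mul_le_mul_of_nonneg_left (h2 z hz).2 hβ]⟩
  have h5 := mul_le_mul_of_nonneg_left h4 d0.le
  have e : d * (N * (A * M / (d / 2) + 4 * Λ * (d / 2) * (S + β * (2 * Q)))) =
      2 * N * A * M + 2 * N * Λ * S * (d * d) + 8 * N * Λ * β * d * (d * Q) / 2 := by
    field_simp; ring
  have h6 : 8 * N * Λ * β * d * (d * Q) ≤ 1 * (d * Q) :=
    mul_le_mul_of_nonneg_right (by nlinarith) (by positivity)
  have h7 : 2 * N * Λ * S * (d * d) ≤ 2 * N * Λ * S * (R * 1) :=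
    mul_le_mul_of_nonneg_left (mul_le_mul dR (by nlinarith) d0.le hR.le) (by positivity)
  refine le_of_mul_le_mul_left ?_ hR
  have e' : R * (4 * N * (A + Λ) * (M / R + S)) = 4 * N * (A + Λ) * (M + R * S) := by field_simp
  have p1 : 0 ≤ N * Λ * M := by positivity
  have p2 : 0 ≤ N * A * (R * S) := by positivity
  rw [e'] at *
  nlinarith

/-- a comparison on an annulus -/
theorem annulus {c : E n} {ρ T κ q e : ℝ} (ρ0 : 0 < ρ)
    (hw : ∀ y, ρ ≤ ‖y - c‖ → ‖y - c‖ ≤ T → ContinuousAt w y)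
    (h1 : ∀ y, ‖y - c‖ = ρ → κ * ρ ^ q + e ≤ w y) (h2 : ∀ y, ‖y - c‖ = T → κ * T ^ q + e ≤ w y)
    (h3 : ∀ y, ρ ≤ ‖y - c‖ → ‖y - c‖ ≤ T → w y < κ * ‖y - c‖ ^ q + e →
      ¬IsLocalMin (fun z => w z - (κ * ‖z - c‖ ^ q + e)) y)
    (hy : ρ ≤ ‖y - c‖) (hy' : ‖y - c‖ ≤ T) : κ * ‖y - c‖ ^ q + e ≤ w y := by
  have s2 : ∀ r ∈ closedBall c T \ ball c ρ, ρ ≤ ‖r - c‖ ∧ ‖r - c‖ ≤ T := fun r hr =>
    ⟨not_lt.1 fun k => hr.2 (mem_ball_iff_norm.2 k), mem_closedBall_iff_norm.1 hr.1⟩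
  by_contra k
  obtain ⟨r, hr, -, k2, k3⟩ := exists_neg_min (B := {r | ‖r - c‖ = ρ ∨ ‖r - c‖ = T})
    (u := fun z => w z - (κ * ‖z - c‖ ^ q + e)) ((isCompact_closedBall c T).diff isOpen_ball)
    (fun r hr => ((hw r (s2 r hr).1 (s2 r hr).2).sub ((continuousAt_const.mul
      (ContinuousAt.rpow_const (f := fun z : E n => ‖z - c‖) (by fun_prop)
        (Or.inl (ρ0.trans_le (s2 r hr).1).ne'))).add continuousAt_const)).continuousWithinAt)
    (fun r hr k1 => inter_mem (closedBall_mem_nhds_of_mem (mem_ball_iff_norm.2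
      ((s2 r hr).2.lt_of_ne fun k2 => k1 (Or.inr k2)))) (mem_of_superset
      (isClosed_closedBall.isOpen_compl.mem_nhds fun k2 => k1 (Or.inl
        ((mem_closedBall_iff_norm.1 k2).antisymm (s2 r hr).1)))
      (compl_subset_compl.2 ball_subset_closedBall)))
    (fun r _ k1 => sub_nonneg.2 (k1.elim (fun k1 => k1.symm ▸ h1 r k1) fun k1 => k1.symm ▸ h2 r k1))
    ⟨mem_closedBall_iff_norm.2 hy', fun l => (mem_ball_iff_norm.1 l).not_ge hy⟩
    (sub_neg.2 (not_le.1 k))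
  exact h3 r (s2 r hr).1 (s2 r hr).2 (sub_neg.1 k2) k3

/-- the barrier of Hopf and Serrin -/
theorem hopf (hΛ : 1 ≤ Λ) {p : ℕ} (p1 : Λ * (n * Λ + 1) ≤ p) {c : E n} {ρ T m : ℝ} (ρ0 : 0 < ρ)
    (m0 : 0 < m) (hT : Λ * T ≤ 1 / 2) (h : ∀ y, ‖y - c‖ ≤ T → Gp Λ a y ∧ ContDiffAt ℝ 2 w y ∧
      0 < w y ∧ |Lu a w y| ≤ Λ * (w y + ‖fderiv ℝ w y‖)) (hm : ∀ y, ‖y - c‖ = ρ → m ≤ w y)
    (hy : ρ ≤ ‖y - c‖) (hy' : ‖y - c‖ ≤ T) :
    m * ρ ^ p * (‖y - c‖ ^ p)⁻¹ - m * ρ ^ p * (T ^ p)⁻¹ ≤ w y := by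
  have T0 := ρ0.trans_le (hy.trans hy')
  have p2 : (1 : ℝ) ≤ p := by nlinarith [show 0 ≤ Λ * (n * Λ) by positivity]
  have e0 : ∀ t : ℝ, 0 ≤ t → t ^ (-p : ℝ) = (t ^ p)⁻¹ := fun t ht => by
    rw [Real.rpow_neg ht, Real.rpow_natCast]
  have e1 : 0 < m * ρ ^ p * (T ^ p)⁻¹ := by positivity
  rw [← e0 _ (norm_nonneg _), sub_eq_add_neg]
  refine annulus ρ0 (fun r _ k => (h r k).2.1.continuousAt) (fun r k => ?_) (fun r k => ?_)
    (fun r k5 k6 k2 k3 => ?_) hy hy'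
  · rw [e0 _ ρ0.le, mul_assoc m, mul_inv_cancel₀ (by positivity)]
    linarith [hm r k]
  · rw [e0 _ T0.le]
    linarith [(h r k.le).2.2.1]
  obtain ⟨ha, hw, -, k7⟩ := h r k6
  have r0 := ρ0.trans_le k5
  obtain ⟨b1, b2⟩ := rad_pow ha.sy (ha.nn (by linarith)) hw (sub_ne_zero.1 (norm_pos_iff.1 r0)) k3
  have b3 := ha.lo (r - c : E n)
  have b4 := (abs_le.1 ha.tr).2
  rw [← norm_sq_eq] at b3
  rw [mul_neg, abs_neg, abs_of_pos (by positivity), mul_right_comm] at b1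
  have P0 : 0 < m * ρ ^ p * ‖r - c‖ ^ (-p : ℝ) := by positivity
  rw [mul_right_comm (m * ρ ^ p)] at b2
  generalize m * ρ ^ p * ‖r - c‖ ^ (-p : ℝ) = P at *
  generalize ‖r - c‖ = t at *
  have q0 := ha.nn (by linarith) (r - c : E n)
  generalize qf (a r) (r - c : E n) = Q at *
  have c1 : t ^ 2 ≤ (p + 2) * Q - t ^ 2 * ∑ i, a r i i := by
    have := mul_le_mul_of_nonneg_right p1 q0
    have := mul_le_mul_of_nonneg_left b3 (show 0 ≤ n * Λ + 1 by positivity)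
    have := mul_le_mul_of_nonneg_left b4 (sq_nonneg t)
    linarith
  have c2 := mul_le_mul_of_nonneg_left c1 (show 0 ≤ P * p by positivity)
  have c4 : t ^ 4 * Lu a w r < t ^ 4 * (Λ * (P + ‖fderiv ℝ w r‖)) :=
    mul_lt_mul_of_pos_left ((le_abs_self _).trans_lt (k7.trans_lt
      (mul_lt_mul_of_pos_left (by linarith) (by linarith)))) (pow_pos r0 4)
  have c5 : t ^ 4 * (Λ * (P + ‖fderiv ℝ w r‖)) = P * t ^ 2 * (Λ * t * (t + p)) := by
    have : t ^ 4 * (Λ * ‖fderiv ℝ w r‖) = t ^ 3 * Λ * (‖fderiv ℝ w r‖ * t) := by ring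
    rw [mul_add Λ, mul_add, this, b1]
    ring
  have c6 : Λ * t ≤ 1 / 2 := (mul_le_mul_of_nonneg_left k6 (by linarith)).trans hT
  have c7 : Λ * t * (t + p) ≤ p := by nlinarith
  have c8 := mul_le_mul_of_nonneg_left c7 (show 0 ≤ P * t ^ 2 by positivity)
  linarith

/-- **the inequality of Harnack** -/
theorem harn (hn : 1 ≤ n) (hΛ : 1 ≤ Λ) : ∃ R₀ > (0 : ℝ), ∃ C > (0 : ℝ),
    ∀ (a : E n → Fin n → Fin n → ℝ) (w : E n → ℝ) (x₀ : E n) (R : ℝ), 0 < R → R ≤ R₀ →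
      (∀ y ∈ closedBall x₀ (6 * R), Gp Λ a y ∧ ContDiffAt ℝ 2 w y ∧ 0 < w y ∧
        |Lu a w y| ≤ Λ * (w y + ‖fderiv ℝ w y‖)) →
      ∀ y ∈ closedBall x₀ R, ∀ z ∈ closedBall x₀ R, w y ≤ C * w z := by
  obtain ⟨p, p0, p1⟩ : ∃ p : ℕ, p ≠ 0 ∧ Λ * (n * Λ + 1) ≤ p :=
    ⟨⌈Λ * (n * Λ + 1)⌉₊ + 1, by omega, by push_cast; linarith [Nat.le_ceil (Λ * (n * Λ + 1))]⟩
  obtain ⟨A, hA⟩ : ∃ A, A = 16 * Λ * (2 * n * Λ + 1) := ⟨_, rfl⟩
  have A1 : 1 ≤ A := by nlinarith [show 0 ≤ Λ * (n * Λ) by positivity]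
  obtain ⟨B, hB⟩ : ∃ B, B = (4 * A + Λ ^ 2) * 2 ^ p := ⟨_, rfl⟩
  have B2 : 2 ≤ B := by nlinarith [one_le_pow₀ (one_le_two (α := ℝ)) (n := p), sq_nonneg Λ]
  obtain ⟨τ, hτ⟩ : ∃ τ : ℝ, τ = (3 ^ p)⁻¹ - (4 ^ p)⁻¹ := ⟨_, rfl⟩
  have τ0 : 0 < τ := by
    rw [hτ, sub_pos]
    exact inv_strictAnti₀ (by positivity) (pow_lt_pow_left₀ (by norm_num) (by norm_num) p0)
  obtain ⟨T, hT⟩ : ∃ T, T = (3 * n ^ 2 * Λ + 2 * Λ) * Λ := ⟨_, rfl⟩
  have T1 : 0 ≤ T := by rw [hT]; positivity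
  refine ⟨1 / (T + 8 * Λ), by positivity, 2 * 2 ^ p + 2 * (2 * B) ^ p / τ,
    by positivity, fun a w x₀ R hR hR' h y hy z hz => ?_⟩
  rw [le_div_iff₀ (by positivity)] at hR'
  have R1 : Λ * (4 * R) ≤ 1 / 2 := by linarith [mul_nonneg hR.le T1]
  have R2 : 4 * R ≤ 1 / 2 := (le_mul_of_one_le_left (by linarith) hΛ).trans R1
  have s0 : ∀ {q}, ‖q - x₀‖ ≤ 6 * R → q ∈ closedBall x₀ (6 * R) := mem_closedBall_iff_norm.2
  have s1 : ∀ {q}, ‖q - x₀‖ ≤ 2 * R → q ∈ closedBall x₀ (6 * R) := fun k => s0 (by linarith)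
  obtain ⟨c, d, d0, d1, h1, h2⟩ := pick (u := w) (x₀ := x₀) (R := 2 * R) p p0 (by linarith)
    (fun q hq => (h q (s1 (mem_closedBall_iff_norm.1 hq))).2.1.continuousAt.continuousWithinAt)
    (fun q hq => (h q (s1 (mem_closedBall_iff_norm.1 hq))).2.2.1.le)
    (h _ (mem_closedBall_self (by linarith))).2.2.1
  have dR : d ≤ 2 * R := by linarith [norm_nonneg (c - x₀)]
  have w0 : 0 < w c := (h c (s1 (by linarith))).2.2.1
  have g1 : ∀ q ∈ closedBall c (d / 4), DifferentiableAt ℝ w q ∧ ‖fderiv ℝ w q‖ ≤ B * w c / d :=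
    fun q hq => by
      have s2 : closedBall q (d / 4) ⊆ closedBall c (d / 2) :=
        closedBall_subset_closedBall' (by linarith [mem_closedBall.1 hq])
      refine ⟨diff2 (h q (s1 (h2 q (s2 (mem_closedBall_self (by linarith)))).1)).2.1,
        (est_loc (M := 2 ^ p * w c) (S := Λ * (2 ^ p * w c)) (β := Λ) (R := d / 4) hn hΛ
        (by linarith) (by linarith) (by positivity) (fun r hr => (h r (s1 (h2 r (s2 hr)).1)).1)
        (by rw [← hT]; nlinarith) fun r hr => ?_).trans ?_⟩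
      · obtain ⟨-, k1, k2, k3⟩ := h r (s1 (h2 r (s2 hr)).1)
        exact ⟨k1, (abs_of_pos k2).trans_le (h2 r (s2 hr)).2, by
          linarith [mul_le_mul_of_nonneg_left (h2 r (s2 hr)).2 (show 0 ≤ Λ by linarith)]⟩
      · rw [← hA, hB, le_div_iff₀ d0]
        have e : (A * (2 ^ p * w c) / (d / 4) + 4 * Λ * (d / 4) * (Λ * (2 ^ p * w c))) * d =
            4 * A * (2 ^ p * w c) + Λ ^ 2 * (2 ^ p * w c) * (d * d) := by field_simp
        have := mul_le_mul_of_nonneg_left (mul_le_one₀ (show d ≤ 1 by linarith) d0.le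
          (show d ≤ 1 by linarith)) (show 0 ≤ Λ ^ 2 * (2 ^ p * w c) by positivity)
        linarith
  obtain ⟨ρ, hρ⟩ : ∃ ρ, ρ = d / (2 * B) := ⟨_, rfl⟩
  have ρ0 : 0 < ρ := by rw [hρ]; positivity
  have ρ1 : ρ ≤ d / 4 := hρ ▸ div_le_div_of_nonneg_left d0.le (by norm_num) (by linarith)
  have g2 : ∀ q, ‖q - c‖ ≤ ρ → w c / 2 ≤ w q := fun q hq => by
    have k1 := ((convex_closedBall c (d / 4)).norm_image_sub_le_of_norm_fderiv_le
      (fun r hr => (g1 r hr).1) (fun r hr => (g1 r hr).2) (mem_closedBall_self (by linarith))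
      (mem_closedBall_iff_norm.2 (hq.trans ρ1))).trans
      (mul_le_mul_of_nonneg_left hq (by positivity))
    rw [hρ, show B * w c / d * (d / (2 * B)) = w c / 2 by field_simp] at k1
    linarith [(abs_le.1 k1).1]
  have hy' := mem_closedBall_iff_norm.1 hy
  have hz' := mem_closedBall_iff_norm.1 hz
  have wy := (h y (s1 (by linarith))).2.2.1
  have wz := (h z (s1 (by linarith))).2.2.1
  have f1 : R ^ p * w y ≤ d ^ p * w c := (mul_le_mul_of_nonneg_right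
    (pow_le_pow_left₀ hR.le (by linarith) p) wy.le).trans (h1 y (by linarith))
  refine le_of_mul_le_mul_left (f1.trans ?_) (pow_pos hR p)
  have f2 : 0 ≤ R ^ p * (2 * (2 * B) ^ p / τ * w z) := by positivity
  have f3 : 0 ≤ R ^ p * (2 * 2 ^ p * w z) := by positivity
  rcases le_total ‖z - c‖ ρ with k | k
  · have := mul_le_mul (pow_le_pow_left₀ d0.le dR p) (show w c ≤ 2 * w z by linarith [g2 z k])
      w0.le (by positivity)
    rw [mul_pow] at this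
    linarith
  · have k1 : ‖z - c‖ ≤ 3 * R := by
      linarith [norm_sub_le_norm_sub_add_norm_sub z x₀ c, norm_sub_rev x₀ c]
    have k2 := hopf hΛ p1 ρ0 (half_pos w0) R1 (fun r hr => h r (s0 (by
      linarith [norm_sub_le_norm_sub_add_norm_sub r c x₀]))) (fun r hr => g2 r hr.le) k (by linarith)
    have k3 := mul_le_mul_of_nonneg_left (inv_anti₀ (pow_pos (ρ0.trans_le k) p)
      (pow_le_pow_left₀ (norm_nonneg _) k1 p)) (show 0 ≤ w c / 2 * ρ ^ p by positivity)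
    have k4 := mul_le_mul_of_nonneg_left (show w c / 2 * ρ ^ p * (((3 * R) ^ p)⁻¹ -
      ((4 * R) ^ p)⁻¹) ≤ w z by linarith) (show 0 ≤ R ^ p * (2 * (2 * B) ^ p / τ) by positivity)
    have e : R ^ p * (2 * (2 * B) ^ p / τ) * (w c / 2 * ρ ^ p * (((3 * R) ^ p)⁻¹ -
        ((4 * R) ^ p)⁻¹)) = d ^ p * w c := by
      rw [mul_pow 3, mul_pow 4, mul_inv, mul_inv, ← sub_mul, ← hτ, hρ, div_pow]
      field_simp
    linarith

end Vale.Agent.P366D
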