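import Vale.Agent.P366D.Map
import Vale.Agent.P366N.Mk0

/-!
# P366D: admissible charts; sets with local parametrisations are manifolds
-/

open MeasureTheory Metric Filter Topology Set Matrix
open scoped ContDiff
open Vale.Agent.P366 Vale.Agent.P366.Stmt Vale.Agent.P366M Vale.Agent.P366N

noncomputable section

namespace Vale.Agent.P366D

section Adm

variable {k n : ℕ} {M : Type} [Mf0 n M] {Z : Type} [Mf0 k Z]

/-- the atlas of the preferred charts -/
def atl (M : Type) [Mf0 n M] : Atl M (E n) where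
  s := range ch
  cov p := ⟨_, ⟨p, rfl⟩, mem_ch p⟩
  cp := by
    rintro _ ⟨x, rfl⟩ _ ⟨x', rfl⟩ y - h
    exact tm_cd (ch_mem x) (ch_mem x') h

theorem mem_At_iff {e : Ch n M} : e ∈ At M ↔ (atl M).Mx e ∧ e.target = univ := by
  constructor
  · intro h
    refine ⟨?_, h.1⟩
    rintro _ ⟨x, rfl⟩
    exact ⟨fun y _ k => (h.2 x).1 y k, fun y _ k => (h.2 x).2 y k⟩
  · rintro ⟨h, h'⟩
    exact ⟨h', fun x => ⟨fun y k => (h _ ⟨x, rfl⟩).1 y (h' ▸ mem_univ y) k,
      fun y k => (h _ ⟨x, rfl⟩).2 y (mem_tgt (ch_mem x) y) k⟩⟩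

theorem mx_of_At {e : Ch n M} (he : e ∈ At M) : (atl M).Mx e := (mem_At_iff.1 he).1

theorem smP_mx {b : Ch n M} (hb : (atl M).Mx b) {y : E n} (hy : y ∈ b.target) : SmP b.symm y :=
  ⟨b.continuousAt_symm hy, (hb _ ⟨_, rfl⟩).1 y hy (mem_ch _)⟩

theorem cAt_mx {b : Ch n M} (hb : (atl M).Mx b) {x : M} (hx : x ∈ b.source) : CAt ∞ b x :=
  (hb _ ⟨x, rfl⟩).2 _ (mem_tgt (ch_mem x) _) (by rwa [symm_pt])

theorem smM_of_mx {Φ : Z → M} {b : Ch k Z} (hb : (atl Z).Mx b) {x : Z} (hx : x ∈ b.source)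
    (h : SmP (fun y => Φ (b.symm y)) (b x)) : SmM Φ x :=
  (SmP.comp (σ := loc (ch x) b) (by rwa [loc_pt]) (cAt_mx hb hx)).congr
    ((ev_pt.1 (b.open_source.mem_nhds hx)).mono fun z hz => by simp only [loc, b.left_inv hz])

theorem cAt_of_mx {V : Type} [NormedAddCommGroup V] [NormedSpace ℝ V] {u : M → V} {m : WithTop ℕ∞}
    (hm : m ≤ ∞) {b : Ch n M} (hb : (atl M).Mx b) {x : M} (hx : x ∈ b.source)
    (h : ContDiffAt ℝ m (fun y => u (b.symm y)) (b x)) : CAt m u x :=
  hb.at (mx_of_At (ch_mem x)) hm hx (mem_ch x) h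

/-- a chart of the atlas which agrees with an admissible chart on a ball -/
theorem exists_At {b : Ch n M} (hb : (atl M).Mx b) {y : E n} {r : ℝ} (hr : 0 < r)
    (h : ball y (2 * r) ⊆ b.target) : ∃ e ∈ At M, (∀ z ∈ ball y r, e.symm z = b.symm z) ∧
      ∀ z, ∃ w ∈ ball y (2 * r), e.symm z = b.symm w := by
  obtain ⟨θ, t1, t2, t3, t4⟩ := exists_ball y (show 0 < 2 * r by linarith)
  have k : ∀ z, θ.symm z ∈ ball y (2 * r) := fun z => t1 ▸ θ.map_target (t2 ▸ mem_univ z)
  refine ⟨b.trans θ, mem_At_iff.2 ⟨hb.trans t3, eq_univ_of_forall fun z =>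
    ⟨t2 ▸ mem_univ z, h (k z)⟩⟩, fun z hz => ?_, fun z => ⟨_, k z, rfl⟩⟩
  show b.symm (θ.symm z) = _
  have : θ z = z := t4 z (by rwa [mul_div_cancel_left₀ r two_ne_zero])
  rw [← this, θ.left_inv (t1 ▸ ball_subset_ball (by linarith) hz), this]

theorem exists_equiv {τ : E n → E n} {y : E n} (h : ContDiffAt ℝ ∞ τ y)
    (hd : IsUnit (jac τ y).det) :
    ∃ L : E n ≃L[ℝ] E n, HasFDerivAt τ (L : E n →L[ℝ] E n) y := by
  have h1 := h.differentiableAt (by simp)
  refine ⟨(fderiv ℝ τ y).toContinuousLinearEquivOfDetNeZero (det_fderiv h1 ▸ hd.ne_zero), ?_⟩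
  rw [ContinuousLinearMap.coe_toContinuousLinearEquivOfDetNeZero]
  exact h1.hasFDerivAt

/-- a local diffeomorphism from a Euclidean space -/
structure LP (Y : E n → M) (y : E n) : Prop where
  sm : SmP Y y
  det : IsUnit (jac (fun z => ch (Y y) (Y z)) y).det

theorem Iso.lp {Y : E n → M} {g : Fld n M} {G : Field n} {y : E n} (h : Iso Y g G y) : LP Y y :=
  ⟨h.sm, h.det⟩

theorem LP.det' {Y : E n → M} {y : E n} (h : LP Y y) {e : Ch n M} (he : e ∈ At M)
    (hs : Y y ∈ e.source) : IsUnit (jac (fun z => e (Y z)) y).det := by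
  have h1 : (ch (Y y)).symm (ch (Y y) (Y y)) ∈ e.source := by
    rwa [(ch (Y y)).left_inv (mem_ch _)]
  rw [jac_congr (τ' := fun z => tm (ch (Y y)) e (ch (Y y) (Y z)))
    ((ev_source h.sm.ct (mem_ch _)).mono fun z hz => by simp only [tm, (ch (Y y)).left_inv hz]),
    jac_comp (σ := fun z => ch (Y y) (Y z)) (tm_diff (ch_mem _) he h1)
      (h.sm.sm.differentiableAt (by simp)), Matrix.det_mul]
  exact (jac_unit (ch_mem _) he h1).mul h.det

theorem lp_of {Y : E n → M} {y : E n} (h : SmP Y y) {G : M → E n} (hG : DAt G (Y y))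
    (e : ∀ᶠ z in 𝓝 y, G (Y z) = z) : LP Y y := by
  refine ⟨h, Matrix.isUnit_det_of_left_inverse (B := jac (loc (ch (Y y)) G) (pt (Y y))) ?_⟩
  rw [← jac_id y, pt, ← jac_comp (σ := fun z => ch (Y y) (Y z)) hG
    (h.sm.differentiableAt (by simp))]
  refine jac_congr ?_
  filter_upwards [e, ev_source h.ct (mem_ch _)] with z h1 h2
  rw [loc, (ch (Y y)).left_inv h2, h1]

theorem LP.map_nhds {Y : E n → M} {y : E n} (h : LP Y y) : map Y (𝓝 y) = 𝓝 (Y y) := by
  obtain ⟨L, hL⟩ := exists_equiv h.sm.sm h.det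
  have h1 := ((h.sm.sm.hasStrictFDerivAt' hL (by simp)).map_nhds_eq_of_equiv)
  have h2 := map_symm (ch_mem (Y y)) (ch (Y y) (Y y))
  rw [(ch (Y y)).left_inv (mem_ch _), ← h1, Filter.map_map] at h2
  rw [← h2]
  exact map_congr ((ev_source h.sm.ct (mem_ch _)).mono fun z hz => ((ch (Y y)).left_inv hz).symm)

/-- an injective local diffeomorphism is the inverse of an admissible chart -/
theorem exists_mx {Y : E n → M} {U : Set (E n)} (hU : IsOpen U) (h : ∀ y ∈ U, LP Y y)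
    (hi : InjOn Y U) : ∃ b : Ch n M, (atl M).Mx b ∧ b.target = U ∧ ∀ y, b.symm y = Y y := by
  let b := OpenPartialHomeomorph.ofContinuousOpenRestrict (hi.toPartialEquiv Y U)
    (fun y hy => (h y hy).sm.ct.continuousWithinAt) (isOpenMap_iff_nhds_le.2 fun a => by
      have : map (U.domRestrict Y) (𝓝 a) = map Y (𝓝 a.1) := by
        rw [← (hU.isOpenEmbedding_subtypeVal).map_nhds_eq a, Filter.map_map]
        rfl
      exact ((h a a.2).map_nhds.symm.trans this.symm).le) hU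
  refine ⟨b.symm, ?_, rfl, fun _ => rfl⟩
  rintro _ ⟨x, rfl⟩
  refine ⟨fun y hy k => (h y hy).sm.cd (ch_mem x) k, fun w hw k => ?_⟩
  have hw' : w ∈ (b.trans (ch x)).target := ⟨hw, k⟩
  have h1 := (b.trans (ch x)).map_target hw'
  obtain ⟨L, hL⟩ := exists_equiv ((h _ h1.1).sm.cd (ch_mem x) h1.2) ((h _ h1.1).det' (ch_mem x) h1.2)
  exact (b.trans (ch x)).contDiffAt_symm (f₀' := L) hw' hL ((h _ h1.1).sm.cd (ch_mem x) h1.2)

theorem exists_At_of_lp {Y : E n → M} {y : E n} {r : ℝ} (hr : 0 < r)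
    (h : ∀ z ∈ ball y (2 * r), LP Y z) (hi : InjOn Y (ball y (2 * r))) :
    ∃ e ∈ At M, ∀ z ∈ ball y r, e.symm z = Y z := by
  obtain ⟨b, b1, b2, b3⟩ := exists_mx isOpen_ball h hi
  obtain ⟨e, e1, e2, -⟩ := exists_At b1 hr b2.ge
  exact ⟨e, e1, fun z hz => (e2 z hz).trans (b3 z)⟩

/-- maps into an embedded manifold -/
theorem Sub.lift {ι : Z → M} {B : Set M} (h : Sub ι B) {j : ℕ} {ψ : E j → Z} {y : E j}
    (hψ : SmP (fun z => ι (ψ z)) y) : SmP ψ y := by
  have hc : ContinuousAt ψ y := h.emb.isInducing.continuousAt_iff.2 hψ.ct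
  obtain ⟨G, g1, g2⟩ := h.ext (ψ y)
  exact ⟨hc, (ContDiffAt.comp (f := fun z => ch (ι (ψ y)) (ι (ψ z))) y g1
    hψ.sm).congr_of_eventuallyEq (hc.eventually g2)⟩

theorem Sub.liftM {ι : Z → M} {B : Set M} (h : Sub ι B) {j : ℕ} {W : Type} [Mf0 j W] {ψ : W → Z}
    {w : W} (hψ : SmM (fun z => ι (ψ z)) w) : SmM ψ w := h.lift (ψ := loc (ch w) ψ) hψ

end Adm

section Par

variable {k : ℕ} {X : Type} [Mf0 (k + 1) X] {B : Set X}

/-- the good charts of a subset -/
structure Gd (c : OpenPartialHomeomorph B (E k)) : Prop where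
  fst : ∀ y ∈ c.target, SmP (fun z => (c.symm z).1) y
  ext : ∀ q ∈ c.source, ∃ G : X → E k, CAt ∞ G q.1 ∧ ∀ᶠ q' in 𝓝 q, c q' = G q'.1

theorem Gd.cp {c c' : OpenPartialHomeomorph B (E k)} (h : Gd c) (h' : Gd c') : Cp c c' := by
  intro y hy hs
  obtain ⟨G, h2, h3⟩ := h'.ext _ hs
  exact ((h.fst y hy).cAt le_rfl h2).congr_of_eventuallyEq ((c.continuousAt_symm hy).eventually h3)

variable {e : Ch (k + 1) X} {φ : E k → E (k + 1)} {π : E (k + 1) →L[ℝ] E k} {y₀ : E k}

theorem Par.mem0 (h : Par B e φ π y₀) : e.symm (φ y₀) ∈ B :=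
  h.loc.self_of_nhds.2 (by rw [h.inv])

open Classical in
theorem Par.exists_gd (h : Par B e φ π y₀) : ∃ c : OpenPartialHomeomorph B (E k), Gd c ∧
    y₀ ∈ c.target ∧ ∀ y ∈ c.target, (c.symm y).1 = e.symm (φ y) := by
  obtain ⟨V, v1, v2, v3⟩ := _root_.eventually_nhds_iff.1 h.loc
  have he := h.mem
  have hm : ∀ y, φ y ∈ V → e.symm (φ y) ∈ B := fun y hy => (v1 _ hy).2 (by rw [h.inv])
  have hq : ∀ q : B, q.1 ∈ e.source → e q.1 ∈ V → φ (π (e q.1)) = e q.1 := fun q h1 h2 =>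
    ((v1 _ h2).1 (by rw [e.left_inv h1]; exact q.2)).symm
  have hc : Continuous fun y => e.symm (φ y) := (cont_symm he).comp h.sm.continuous
  let c : OpenPartialHomeomorph B (E k) :=
    { toFun := fun q => π (e q.1)
      invFun := fun y => if k : φ y ∈ V then ⟨e.symm (φ y), hm y k⟩ else ⟨_, h.mem0⟩
      source := Subtype.val ⁻¹' (e.source ∩ e ⁻¹' V)
      target := φ ⁻¹' V
      map_source' := fun q k => by
        show φ (π (e q.1)) ∈ V
        rw [hq q k.1 k.2]
        exact k.2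
      map_target' := fun y hy => by
        have hy' : φ y ∈ V := hy
        simp only [hy', dif_pos, mem_preimage, mem_inter_iff, right_inv he, and_true]
        exact symm_mem he _
      left_inv' := fun q k => by
        have k2 : e q.1 ∈ V := k.2
        simp only [hq q k.1 k.2, k2, dif_pos, e.left_inv k.1]
      right_inv' := fun y hy => by
        have hy' : φ y ∈ V := hy
        simp only [hy', dif_pos, right_inv he, h.inv]
      open_source := (e.isOpen_inter_preimage v2).preimage continuous_subtype_val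
      open_target := v2.preimage h.sm.continuous
      continuousOn_toFun := π.continuous.comp_continuousOn
        (e.continuousOn.comp continuous_subtype_val.continuousOn fun _ k => k.1)
      continuousOn_invFun := by
        rw [Topology.IsInducing.subtypeVal.continuousOn_iff]
        refine hc.continuousOn.congr fun y hy => ?_
        have hy' : φ y ∈ V := hy
        simp only [Function.comp, hy', dif_pos] }
  have hs : ∀ y ∈ c.target, (c.symm y).1 = e.symm (φ y) := fun y hy => by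
    have hy' : φ y ∈ V := hy
    show (c.invFun y).1 = _
    simp only [c, hy', dif_pos]
  refine ⟨c, ⟨fun y hy => ?_, fun q k => ⟨fun x => π (e x), ?_, .of_forall fun _ => rfl⟩⟩, v3, hs⟩
  · exact ((smP_symm he _).comp h.sm.contDiffAt).congr
      (eventually_of_mem (c.open_target.mem_nhds hy) hs)
  · exact π.contDiff.contDiffAt.compM (cAt_mx (mx_of_At he) k.1)

/-- **PARM** -/
theorem parm : PARM := by
  intro k X _ B hne hB
  have : Nonempty B := hne.to_subtype
  let A : Atl B (E k) :=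
    { s := {c | Gd c}
      cov := fun p => by
        obtain ⟨e, φ, π, y₀, h, h'⟩ := hB p.1 p.2
        obtain ⟨c, c1, c2, c3⟩ := h.exists_gd
        refine ⟨c, c1, ?_⟩
        rw [← show c.symm y₀ = p from Subtype.ext ((c3 _ c2).trans h')]
        exact c.map_target c2
      cp := fun _ h _ h' => Gd.cp h h' }
  choose c c1 c2 c3 using A.pref
  let m : Mf0 k B := A.mf0 c fun x => ⟨c1 x, c2 x, c3 x⟩
  have hx : ∀ b ∈ A.s, (atl B).Mx b := fun b hb => by
    rintro _ ⟨x, rfl⟩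
    exact (c1 x b hb).symm
  refine ⟨B, m, Subtype.val, ⟨.subtypeVal, Subtype.range_coe, fun z => ?_, fun z => ?_⟩,
    fun e φ π y₀ h => ?_⟩
  · obtain ⟨b, hb, hz⟩ := A.cov z
    exact smM_of_mx (hx b hb) hz (hb.fst _ (b.map_source hz))
  · obtain ⟨b, hb, hz⟩ := A.cov z
    obtain ⟨G, g1, g2⟩ := hb.ext z hz
    have g3 : G z.1 = b z := g2.self_of_nhds.symm
    refine ⟨fun w => ch z (b.symm (loc (ch z.1) G w)), ?_, ?_⟩
    · refine ContDiffAt.comp (g := fun w => ch z (b.symm w)) _ ?_ g1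
      rw [loc_pt, g3]
      exact (hx b hb _ ⟨z, rfl⟩).1 _ (b.map_source hz) (by rw [b.left_inv hz]; exact mem_ch z)
    · filter_upwards [g2, b.open_source.mem_nhds hz, continuous_subtype_val.continuousAt.eventually
        ((ch z.1).open_source.mem_nhds (mem_ch z.1))] with w w1 w2 w3
      rw [loc, (ch z.1).left_inv w3, ← w1, b.left_inv w2]
  · obtain ⟨b, b1, b2, b3⟩ := h.exists_gd
    obtain ⟨r, hr, h2⟩ := Metric.mem_nhds_iff.1 (b.open_target.mem_nhds b2)
    obtain ⟨e', e1, e2, -⟩ := exists_At (hx b b1) (half_pos hr) (y := y₀)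
      (by rwa [mul_div_cancel₀ r two_ne_zero])
    refine ⟨e', e1, ?_⟩
    filter_upwards [ball_mem_nhds y₀ (half_pos hr), b.open_target.mem_nhds b2] with y k1 k2
    rw [e2 y k1, b3 y k2]

end Par

end Vale.Agent.P366D
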