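import Vale.Agent.P366D.Parm

/-!
# P366D: the lattice, periodic charts
-/

open MeasureTheory Metric Filter Topology Set
open scoped ContDiff
open Vale.Agent.P366 Vale.Agent.P366.Stmt Vale.Agent.P366M

noncomputable section

namespace Vale.Agent.P366D

variable {k : ℕ} {η η' : ℝ} {u u' : E k → ℝ} {y : E k}

@[simp] theorem lat_apply (z : Fin k → ℤ) (i : Fin k) : lat z i = z i := rfl

theorem lat_zero : lat (0 : Fin k → ℤ) = 0 := by ext i; simp

theorem lat_add (z z' : Fin k → ℤ) : lat (z + z') = lat z + lat z' := by ext i; simp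

theorem lat_neg (z : Fin k → ℤ) : lat (-z) = -lat z := by ext i; simp

theorem lat_sub (z z' : Fin k → ℤ) : lat (z - z') = lat z - lat z' := by ext i; simp

theorem lat_eq_zero {z : Fin k → ℤ} (h : ‖lat z‖ < 1) : z = 0 := funext fun i => by
  have h1 := (PiLp.norm_apply_le (lat z) i).trans_lt h
  rw [lat_apply, Real.norm_eq_abs, ← Int.cast_abs] at h1
  exact Int.abs_lt_one_iff.1 (by exact_mod_cast h1)

theorem isClosed_lat : IsClosed (range (lat (k := k))) := by
  have : range (lat (k := k)) = ⋂ i, (fun y : E k => y i) ⁻¹' range ((↑) : ℤ → ℝ) := by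
    ext y
    simp only [mem_iInter, mem_preimage]
    refine ⟨fun ⟨z, hz⟩ i => ⟨z i, hz ▸ rfl⟩, fun h => ?_⟩
    choose z hz using h
    exact ⟨z, by ext i; exact hz i⟩
  rw [this]
  exact isClosed_iInter fun i => Int.isClosedEmbedding_coe_real.isClosed_range.preimage (by fun_prop)

theorem mem_Uo : y ∈ Uo k η ↔ η < infDist y (range lat) := by
  obtain ⟨_, ⟨z, rfl⟩, h⟩ := isClosed_lat.exists_infDist_eq_dist (range_nonempty _) y
  refine ⟨fun k => by rw [h, dist_eq_norm]; exact k z, fun k z => k.trans_le ?_⟩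
  rw [← dist_eq_norm]
  exact infDist_le_dist_of_mem (mem_range_self z)

theorem isOpen_Uo : IsOpen (Uo k η) := by
  rw [show Uo k η = {y | η < infDist y (range lat)} from Set.ext fun _ => mem_Uo]
  exact isOpen_lt continuous_const (continuous_infDist_pt _)

theorem Uo_mono (h : η' ≤ η) : Uo k η ⊆ Uo k η' := fun _ hy z => h.trans_lt (hy z)

theorem Uo_add (hy : y ∈ Uo k η) (z : Fin k → ℤ) : y + lat z ∈ Uo k η := fun z' => by
  have := hy (z' - z)
  rwa [lat_sub, ← sub_add, sub_add_eq_add_sub] at this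

theorem exists_red (y : E k) : ∃ y₀ z, ‖y₀‖ ≤ k ∧ y = y₀ + lat z := by
  refine ⟨y - lat fun i => ⌊y i⌋, fun i => ⌊y i⌋, ?_, (sub_add_cancel _ _).symm⟩
  rw [EuclideanSpace.norm_eq, Real.sqrt_le_left (by positivity)]
  refine (Finset.sum_le_card_nsmul _ _ 1 fun i _ => ?_).trans ?_
  · have := Int.fract_lt_one (y i)
    have := Int.fract_nonneg (y i)
    show ‖Int.fract (y i)‖ ^ 2 ≤ 1
    rw [Real.norm_eq_abs, sq_abs]
    nlinarith
  · simp only [Finset.card_univ, Fintype.card_fin, nsmul_eq_mul, mul_one]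
    exact_mod_cast Nat.le_self_pow two_ne_zero k

/-- a compact set which represents all the points of `Uo k η` -/
theorem exists_cell (h : η' < η) : ∃ C : Set (E k), IsCompact C ∧ C ⊆ Uo k η' ∧
    ∀ y ∈ Uo k η, ∃ y₀ ∈ C, ∃ z, y = y₀ + lat z := by
  refine ⟨closedBall 0 k ∩ {y | η ≤ infDist y (range lat)}, (isCompact_closedBall _ _).inter_right
    (isClosed_le continuous_const (continuous_infDist_pt _)),
    fun y hy => mem_Uo.2 (h.trans_le hy.2), fun y hy => ?_⟩
  obtain ⟨y₀, z, h1, rfl⟩ := exists_red y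
  have := Uo_add hy (-z)
  rw [lat_neg, add_neg_cancel_right] at this
  exact ⟨y₀, ⟨by simpa using h1, (mem_Uo.1 this).le⟩, z, rfl⟩

theorem Sml.mono (h : Sml η' u) (h' : η' ≤ η) : Sml η u := fun m hm y hy =>
  (h m ((mul_le_mul_of_nonneg_left h' m.cast_nonneg).trans hm) y (Uo_mono h' hy)).trans h'

theorem Sml.congr (h : Sml η u) (e : ∀ y ∈ Uo k η, u' y = u y) : Sml η u' := fun m hm y hy => by
  rw [(EventuallyEq.iteratedFDeriv ℝ (f₁ := u') (f₂ := u)
    (eventually_of_mem (isOpen_Uo.mem_nhds hy) e) m).self_of_nhds]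
  exact h m hm y hy

theorem Sml.add (h : Sml (η / 2) u) (h' : Sml (η / 2) u') (h0 : 0 ≤ η)
    (hu : ∀ y ∈ Uo k η, ContDiffAt ℝ ∞ u y) (hu' : ∀ y ∈ Uo k η, ContDiffAt ℝ ∞ u' y) :
    Sml η fun y => u y + u' y := fun m hm y hy => by
  have h1 : (m : ℝ) * (η / 2) ≤ 1 := by nlinarith [(m.cast_nonneg : (0 : ℝ) ≤ m)]
  have h2 := Uo_mono (half_le_self h0) hy
  rw [fun_iteratedFDeriv_add_apply ((hu y hy).of_le (by exact_mod_cast le_top))
    ((hu' y hy).of_le (by exact_mod_cast le_top))]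
  exact (norm_add_le _ _).trans (by linarith [h m h1 y h2, h' m h1 y h2])

@[simp] theorem snc_cast (y : E k) (s : ℝ) (i : Fin k) : snc y s i.castSucc = y i := by simp [snc]

@[simp] theorem snc_last (y : E k) (s : ℝ) : snc y s (Fin.last k) = s := by simp [snc]

@[simp] theorem ini_apply (x : E (k + 1)) (i : Fin k) : ini x i = x i.castSucc := rfl

@[simp] theorem ini_snc (y : E k) (s : ℝ) : ini (snc y s) = y := by ext i; simp

theorem snc_add_lat (y : E k) (s : ℝ) (z : Fin k → ℤ) :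
    snc (y + lat z) s = snc y s + lat (Fin.snoc (α := fun _ => ℤ) z 0) := by
  ext i
  induction i using Fin.lastCases <;> simp

theorem cd_snc {m : WithTop ℕ∞} {V : Type} [NormedAddCommGroup V] [NormedSpace ℝ V] {a : V → E k}
    {s : V → ℝ} {x : V} (ha : ContDiffAt ℝ m a x) (hs : ContDiffAt ℝ m s x) :
    ContDiffAt ℝ m (fun x => snc (a x) (s x)) x := contDiffAt_euclidean.2 fun i => by
  induction i using Fin.lastCases with
  | last => simpa using hs
  | cast i => simpa using contDiffAt_euclidean.1 ha i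

theorem cd_ini {m : WithTop ℕ∞} : ContDiff ℝ m (ini : E (k + 1) → E k) :=
  contDiff_euclidean.2 fun _ => P366Z.contDiff_coord _

variable {M : Type} [Mf0 k M] {Y : E k → M} {g : Fld k M} {f : M → ℝ}

theorem Per.mono (h : Per Y η') (h' : η' ≤ η) : Per Y η :=
  ⟨h.per, fun y hy y' hy' => h.inj y (Uo_mono h' hy) y' (Uo_mono h' hy'),
    fun y r hr hs => h.cht y r hr (hs.trans (Uo_mono h'))⟩

theorem Nr.mono (h : Nr g f Y η') (h' : η' ≤ η) : Nr g f Y η :=
  ⟨h.met, h.smf, h.per.mono h', fun i j => (h.gs i j).mono h', h.fs.mono h'⟩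

theorem Per.exists_chart (h : Per Y η) (hy : y ∈ Uo k η) : ∃ e ∈ At M, Y =ᶠ[𝓝 y] e.symm := by
  obtain ⟨r, hr, h1⟩ := Metric.isOpen_iff.1 isOpen_Uo y hy
  obtain ⟨e, he, h2⟩ := h.cht y (min (r / 2) (1 / 4)) (min_le_right _ _)
    ((ball_subset_ball (by linarith [min_le_left (r / 2) (1 / 4)])).trans h1)
  exact ⟨e, he, eventually_of_mem (ball_mem_nhds y (by positivity)) fun z hz => (h2 z hz).symm⟩

theorem Per.smP (h : Per Y η) (hy : y ∈ Uo k η) : SmP Y y := by
  obtain ⟨e, he, h1⟩ := h.exists_chart hy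
  exact (smP_symm he y).congr h1

theorem per_of (h1 : ∀ y z, Y (y + lat z) = Y y)
    (h2 : ∀ y ∈ Uo k η, ∀ y' ∈ Uo k η, Y y = Y y' → ∃ z, y' = y + lat z)
    (h3 : ∀ y ∈ Uo k η, LP Y y) : Per Y η := by
  refine ⟨h1, h2, fun y r hr hs => ?_⟩
  rcases le_or_gt r 0 with h0 | h0
  · exact ⟨_, ch_mem (Y y), by simp [ball_eq_empty.2 h0]⟩
  refine exists_At_of_lp h0 (fun z hz => h3 z (hs hz)) fun a ha b hb e => ?_
  obtain ⟨z, rfl⟩ := h2 a (hs ha) b (hs hb) e
  have := dist_triangle_right (a + lat z) a y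
  rw [dist_eq_norm, add_sub_cancel_left] at this
  rw [lat_eq_zero (z := z) (by linarith [mem_ball.1 ha, mem_ball.1 hb]), lat_zero, add_zero]

end Vale.Agent.P366D
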