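import Vale.Agent.P366D.Defs
import Vale.Agent.P366M.Vol
import Vale.Agent.P366P.Pull

/-!
# P366D: smooth maps, pull-backs, naturality
-/

open MeasureTheory Metric Filter Topology Set Matrix
open scoped ContDiff
open Vale.Agent.P366 Vale.Agent.P366.Stmt Vale.Agent.P366M

noncomputable section

namespace Vale.Agent.P366D

section Euc

variable {j k n : ℕ} {φ φ' : E k → E n} {σ : E j → E k} {G G' : Field n} {y : E k}

theorem sumR (A B : Matrix (Fin n) (Fin k) ℝ) (T : Matrix (Fin n) (Fin n) ℝ) (i l : Fin k) :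
    ∑ a, ∑ b, A a i * B b l * T a b = (Aᵀ * T * B) i l := by
  simp only [Matrix.mul_apply, Matrix.transpose_apply, Finset.sum_mul]
  rw [Finset.sum_comm]
  exact Finset.sum_congr rfl fun a _ => Finset.sum_congr rfl fun b _ => by ring

theorem mat_pb (φ : E k → E n) (G : Field n) (y : E k) :
    Stmt.mat (pb φ G) y = (jac φ y)ᵀ * Stmt.mat G (φ y) * jac φ y := by
  ext i l; exact sumR _ _ _ i l

theorem pb_congr (h : φ =ᶠ[𝓝 y] φ') (hG : G (φ y) = G' (φ y)) : pb φ G y = pb φ' G' y := by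
  unfold pb
  rw [jac_congr h, hG, h.self_of_nhds]

theorem pb_comp {z : E j} (hφ : DifferentiableAt ℝ φ (σ z)) (hσ : DifferentiableAt ℝ σ z) :
    pb (fun w => φ (σ w)) G z = pb σ (pb φ G) z := by
  have : Stmt.mat (pb (fun w => φ (σ w)) G) z = Stmt.mat (pb σ (pb φ G)) z := by
    rw [mat_pb, mat_pb, mat_pb, jac_comp hφ hσ, Matrix.transpose_mul]
    simp only [Matrix.mul_assoc]
  exact this

theorem cd_pb (hφ : ContDiffAt ℝ ∞ φ y) (hG : ∀ a b, ContDiffAt ℝ ∞ (fun x => G x a b) (φ y))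
    (i l : Fin k) : ContDiffAt ℝ ∞ (fun z => pb φ G z i l) y :=
  ContDiffAt.sum (s := Finset.univ) fun a _ => ContDiffAt.sum (s := Finset.univ) fun b _ =>
    ((cd_jac hφ a i).mul (cd_jac hφ b l)).mul ((hG a b).comp y hφ)

theorem pb_sy (h : ∀ a b, G (φ y) a b = G (φ y) b a) (i l : Fin k) :
    pb φ G y i l = pb φ G y l i := by
  unfold pb
  rw [Finset.sum_comm]
  exact Finset.sum_congr rfl fun a _ => Finset.sum_congr rfl fun b _ => by rw [h]; ring

theorem posDef_conj {A : Matrix (Fin n) (Fin k) ℝ} {T : Matrix (Fin n) (Fin n) ℝ} (hT : T.PosDef)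
    {B : Matrix (Fin k) (Fin n) ℝ} (h : B * A = 1) : (Aᵀ * T * A).PosDef :=
  hT.conjTranspose_mul_mul_same (B := A) fun v w e => by
    have := congrArg (B.mulVec) e
    rwa [Matrix.mulVec_mulVec, Matrix.mulVec_mulVec, h, Matrix.one_mulVec, Matrix.one_mulVec]
      at this

theorem met_pb (hG : P366Z.Met G) (hφ : ContDiff ℝ ∞ φ) {π : E n → E k}
    (hπ : Differentiable ℝ π) (h : ∀ y, π (φ y) = y) : P366Z.Met (pb φ G) where
  sm i l := contDiff_iff_contDiffAt.2 fun _ =>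
    cd_pb hφ.contDiffAt (fun a b => (hG.sm a b).contDiffAt) i l
  sy y := pb_sy (hG.sy _)
  pos y := by
    rw [mat_pb]
    refine posDef_conj (hG.pos _) (B := jac π (φ y)) ?_
    rw [← jac_comp (hπ _) (hφ.differentiable (by simp) y), ← jac_id y]
    exact congrArg (fun t => jac t y) (funext h)

end Euc

section Mf

variable {j k n : ℕ} {M : Type} [Mf0 n M] {Y Y' : E k → M} {y : E k} {e : Ch n M}
  {T S g : Fld n M} {f : M → ℝ}

theorem rep_eq_pl (e : Ch n M) (T : Fld n M) : rep e T = pl e.symm T := rfl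

theorem mat_pl (Y : E k → M) (T : Fld n M) (y : E k) : Stmt.mat (pl Y T) y =
    (jac (fun z => ch (Y y) (Y z)) y)ᵀ * mat T (Y y) * jac (fun z => ch (Y y) (Y z)) y := by
  ext i l; exact sumR _ _ _ i l

theorem ev_source (h : ContinuousAt Y y) (hs : Y y ∈ e.source) : ∀ᶠ z in 𝓝 y, Y z ∈ e.source :=
  h.eventually (e.open_source.mem_nhds hs)

theorem cda_chart {m : WithTop ℕ∞} (hm : m ≤ ∞) {e' : Ch n M} (he : e ∈ At M) (he' : e' ∈ At M)
    (h : ContinuousAt Y y) (hs : Y y ∈ e.source) (hs' : Y y ∈ e'.source)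
    (hd : ContDiffAt ℝ m (fun z => e (Y z)) y) : ContDiffAt ℝ m (fun z => e' (Y z)) y := by
  refine (((tm_cd he he' (by rwa [e.left_inv hs])).of_le hm).comp y hd).congr_of_eventuallyEq ?_
  filter_upwards [ev_source h hs] with z hz
  simp only [Function.comp, tm, e.left_inv hz]

theorem SmP.cd (h : SmP Y y) (he : e ∈ At M) (hs : Y y ∈ e.source) :
    ContDiffAt ℝ ∞ (fun z => e (Y z)) y :=
  cda_chart le_rfl (ch_mem _) he h.ct (mem_ch _) hs h.sm

theorem smP_of (h : ContinuousAt Y y) (he : e ∈ At M) (hs : Y y ∈ e.source)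
    (hd : ContDiffAt ℝ ∞ (fun z => e (Y z)) y) : SmP Y y :=
  ⟨h, cda_chart le_rfl he (ch_mem _) h hs (mem_ch _) hd⟩

theorem smP_symm (he : e ∈ At M) (y : E n) : SmP e.symm y :=
  ⟨(cont_symm he).continuousAt, tm_cd he (ch_mem _) (mem_ch _)⟩

theorem SmP.congr (h : SmP Y y) (e : Y' =ᶠ[𝓝 y] Y) : SmP Y' y :=
  ⟨h.ct.congr e.symm, by
    rw [e.self_of_nhds]
    exact h.sm.congr_of_eventuallyEq (e.mono fun z hz => by simp only [hz])⟩

theorem SmP.comp {σ : E j → E k} {z : E j} (h : SmP Y (σ z)) (hσ : ContDiffAt ℝ ∞ σ z) :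
    SmP (fun w => Y (σ w)) z := ⟨h.ct.comp hσ.continuousAt, h.sm.comp z hσ⟩

theorem SmP.cAt {V : Type} [NormedAddCommGroup V] [NormedSpace ℝ V] {u : M → V} {m : WithTop ℕ∞}
    (h : SmP Y y) (hm : m ≤ ∞) (hu : CAt m u (Y y)) : ContDiffAt ℝ m (fun z => u (Y z)) y := by
  refine (ContDiffAt.comp (g := loc (ch (Y y)) u) (f := fun z => ch (Y y) (Y z)) y hu
    (h.sm.of_le hm)).congr_of_eventuallyEq ?_
  filter_upwards [ev_source h.ct (mem_ch _)] with z hz
  simp only [Function.comp, loc, (ch (Y y)).left_inv hz]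

theorem SmP.dAt {V : Type} [NormedAddCommGroup V] [NormedSpace ℝ V] {u : M → V}
    (h : SmP Y y) (hu : DAt u (Y y)) : DifferentiableAt ℝ (fun z => u (Y z)) y := by
  refine (DifferentiableAt.comp (g := loc (ch (Y y)) u) (f := fun z => ch (Y y) (Y z)) y hu
    (h.sm.differentiableAt (by simp))).congr_of_eventuallyEq ?_
  filter_upwards [ev_source h.ct (mem_ch _)] with z hz
  simp only [Function.comp, loc, (ch (Y y)).left_inv hz]

theorem pl_congr (h : Y =ᶠ[𝓝 y] Y') (hT : T (Y y) = S (Y y)) : pl Y T y = pl Y' S y := by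
  unfold pl
  rw [hT, ← h.self_of_nhds, jac_congr (τ' := fun z => ch (Y y) (Y' z))
    (h.mono fun z hz => by simp only [hz])]

theorem pl_congr_ev (h : Y =ᶠ[𝓝 y] Y') (T : Fld n M) : pl Y T =ᶠ[𝓝 y] pl Y' T :=
  h.eventuallyEq_nhds.mono fun _ hz => pl_congr hz rfl

theorem pl_eq (he : e ∈ At M) (hs : Y y ∈ e.source) (h : ContinuousAt Y y)
    (hd : DifferentiableAt ℝ (fun z => e (Y z)) y) (T : Fld n M) :
    pl Y T y = pb (fun z => e (Y z)) (rep e T) y := by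
  have h1 : jac (fun z => ch (Y y) (Y z)) y = J e (e (Y y)) * jac (fun z => e (Y z)) y := by
    unfold J
    rw [e.left_inv hs, ← jac_comp (σ := fun z => e (Y z))
      (tm_diff he (ch_mem _) (by rw [e.left_inv hs]; exact mem_ch _)) hd]
    refine jac_congr ?_
    filter_upwards [ev_source h hs] with z hz
    simp only [tm, e.left_inv hz]
  have : Stmt.mat (pl Y T) y = Stmt.mat (pb (fun z => e (Y z)) (rep e T)) y := by
    rw [mat_pl, mat_pb, mat_rep, h1, e.left_inv hs, Matrix.transpose_mul]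
    simp only [Matrix.mul_assoc]
  exact this

/-- the open part of `SmP` -/
theorem SmP.ev (h : SmP Y y) (he : e ∈ At M) (hs : Y y ∈ e.source) : ∀ᶠ z in 𝓝 y,
    Y z ∈ e.source ∧ ContinuousAt Y z ∧ ContDiffAt ℝ 1 (fun z => e (Y z)) z := by
  have h1 := ((h.cd he hs).of_le one_le_oo).eventually (by simp)
  filter_upwards [h1, (ev_source h.ct hs).eventually_nhds] with z k1 k2
  refine ⟨k2.self_of_nhds, ((cont_symm he).continuousAt.comp k1.continuousAt).congr ?_, k1⟩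
  exact k2.mono fun w hw => e.left_inv hw

theorem SmP.pl_ev (h : SmP Y y) (he : e ∈ At M) (hs : Y y ∈ e.source) (T : Fld n M) :
    pl Y T =ᶠ[𝓝 y] pb (fun z => e (Y z)) (rep e T) :=
  (h.ev he hs).mono fun _ hz => pl_eq he hz.1 hz.2.1 (hz.2.2.differentiableAt one_ne_zero) T

theorem SmP.cd_pl (h : SmP Y y) (hT : SmT T) (i l : Fin k) :
    ContDiffAt ℝ ∞ (fun z => pl Y T z i l) y :=
  (cd_pb (G := rep (ch (Y y)) T) h.sm (fun a b => (hT _ (ch_mem _) a b).contDiffAt)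
    i l).congr_of_eventuallyEq
    ((h.pl_ev (ch_mem _) (mem_ch _) T).mono fun _ hz => by simp only [hz])

theorem SmP.pl_comp {σ : E j → E k} {z : E j} (h : SmP Y (σ z)) (hσ : DifferentiableAt ℝ σ z)
    (T : Fld n M) : pl (fun w => Y (σ w)) T z = pb σ (pl Y T) z := by
  have : Stmt.mat (pl (fun w => Y (σ w)) T) z = Stmt.mat (pb σ (pl Y T)) z := by
    rw [mat_pl, mat_pb, mat_pl, jac_comp (τ := fun w => ch (Y (σ z)) (Y w))
      (h.sm.differentiableAt (by simp)) hσ, Matrix.transpose_mul]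
    simp only [Matrix.mul_assoc]
  exact this

theorem SmP.pd (h : SmP Y y) (hf : DAt f (Y y)) (i : Fin k) :
    Stmt.pd i (fun z => f (Y z)) y = ∑ a, jac (fun z => ch (Y y) (Y z)) y a i * pd a f (Y y) := by
  rw [P366Z.pd_congr (h := fun z => loc (ch (Y y)) f (ch (Y y) (Y z)))
    ((ev_source h.ct (mem_ch _)).mono fun z hz => by simp only [loc, (ch (Y y)).left_inv hz])]
  exact pd_chain (τ := fun z => ch (Y y) (Y z)) hf (h.sm.differentiableAt (by simp)) i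

theorem pl_add (Y : E k → M) (T S : Fld n M) : pl Y (fun x a b => T x a b + S x a b) =
    fun y i l => pl Y T y i l + pl Y S y i l := by
  funext y i l; simp only [pl, mul_add, Finset.sum_add_distrib]

theorem pl_smul (Y : E k → M) (f : M → ℝ) (T : Fld n M) : pl Y (fun x a b => f x * T x a b) =
    fun y i l => f (Y y) * pl Y T y i l := by
  funext y i l; simp only [pl, Finset.mul_sum, mul_left_comm]

theorem SmP.pl_dd {u : M → ℝ} (h : SmP Y y) (hf : DAt f (Y y)) (hu : DAt u (Y y)) (i l : Fin k) :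
    pl Y (fun x a b => P366M.pd a f x * P366M.pd b u x) y i l =
      Stmt.pd i (fun z => f (Y z)) y * Stmt.pd l (fun z => u (Y z)) y := by
  rw [h.pd hf, h.pd hu, Finset.sum_mul_sum]
  exact Finset.sum_congr rfl fun a _ => Finset.sum_congr rfl fun b _ => by ring

/-! ### maps of manifolds -/

variable {Z : Type} [Mf0 k Z] {Φ Ψ : Z → M} {x : Z} {c : Ch k Z}

theorem SmM.ct (h : SmM Φ x) : ContinuousAt Φ x := contAt_of_loc (SmP.ct h)

theorem SmM.after {ψ : E j → Z} {w : E j} (h : SmM Φ (ψ w)) (hψ : SmP ψ w) :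
    SmP (fun z => Φ (ψ z)) w :=
  (SmP.comp (σ := fun z => ch (ψ w) (ψ z)) h hψ.sm).congr
    ((ev_source hψ.ct (mem_ch _)).mono fun z hz => by simp only [loc, (ch (ψ w)).left_inv hz])

theorem SmM.smP (hc : c ∈ At Z) (h : SmM Φ (c.symm y)) : SmP (loc c Φ) y := h.after (smP_symm hc y)

theorem smM_of (hc : c ∈ At Z) (hx : x ∈ c.source) (h : SmP (loc c Φ) (c x)) : SmM Φ x :=
  (SmP.comp (σ := tm (ch x) c) (by rwa [tm, symm_pt]) (tm_cd (ch_mem x) hc (by rwa [symm_pt]))).congr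
    (loc_tm Φ (ch_mem x) (by rwa [symm_pt]))

theorem SmM.congr (h : SmM Φ x) (e : Ψ =ᶠ[𝓝 x] Φ) : SmM Ψ x := SmP.congr h (loc_congr e)

theorem SmM.comp {W : Type} [Mf0 j W] {ψ : W → Z} {w : W} (h : SmM Φ (ψ w)) (hψ : SmM ψ w) :
    SmM (fun z => Φ (ψ z)) w := SmM.after (ψ := loc (ch w) ψ) (by rwa [loc_pt]) hψ

theorem smM_id (x : M) : SmM (fun z => z) x := smP_symm (ch_mem x) _

theorem SmM.cAt {V : Type} [NormedAddCommGroup V] [NormedSpace ℝ V] {u : M → V} {m : WithTop ℕ∞}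
    (h : SmM Φ x) (hm : m ≤ ∞) (hu : CAt m u (Φ x)) : CAt m (fun z => u (Φ z)) x :=
  SmP.cAt (Y := loc (ch x) Φ) (u := u) h hm (by rwa [loc_pt])

theorem SmM.dAt {V : Type} [NormedAddCommGroup V] [NormedSpace ℝ V] {u : M → V}
    (h : SmM Φ x) (hu : DAt u (Φ x)) : DAt (fun z => u (Φ z)) x := 
  SmP.dAt (Y := loc (ch x) Φ) (u := u) h (by rwa [loc_pt])

theorem cd_comp {V : Type} [NormedAddCommGroup V] [NormedSpace ℝ V] {u : M → V} {m : WithTop ℕ∞}
    (h : ∀ x, SmM Φ x) (hm : m ≤ ∞) (hu : CD m u) : CD m fun z => u (Φ z) :=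
  cd_of_cAt hm fun x => (h x).cAt hm hu.contDiffAt

theorem smooth_comp (h : ∀ x, SmM Φ x) (hf : P366M.Smooth f) : P366M.Smooth fun z => f (Φ z) :=
  cd_comp h le_rfl hf

theorem mat_pull (Φ : Z → M) (T : Fld n M) (x : Z) :
    mat (pull Φ T) x = (jm Φ x)ᵀ * mat T (Φ x) * jm Φ x := by
  have := mat_pl (loc (ch x) Φ) T (pt x)
  rw [loc_pt] at this
  exact this

theorem pull_apply (Φ : Z → M) (T : Fld n M) (x : Z) (i l : Fin k) :
    pull Φ T x i l = ∑ a, ∑ b, jm Φ x a i * jm Φ x b l * T (Φ x) a b :=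
  (congrFun (congrFun (mat_pull Φ T x) i) l).trans (sumR _ _ _ i l).symm

theorem SmM.pd (h : SmM Φ x) (hf : DAt f (Φ x)) (i : Fin k) :
    pd i (fun z => f (Φ z)) x = ∑ a, jm Φ x a i * pd a f (Φ x) := by
  have := SmP.pd h (f := f) (by rwa [loc_pt]) i
  rw [loc_pt] at this
  exact this

theorem pl_pull {ψ : E j → Z} {w : E j} (h : SmM Φ (ψ w)) (hψ : SmP ψ w) (T : Fld n M) :
    pl ψ (pull Φ T) w = pl (fun z => Φ (ψ z)) T w := by
  rw [pl_congr (Y := fun z => Φ (ψ z)) (Y' := fun z => loc (ch (ψ w)) Φ (ch (ψ w) (ψ z))) (S := T)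
    ((ev_source hψ.ct (mem_ch _)).mono fun z hz => by simp only [loc, (ch (ψ w)).left_inv hz]) rfl,
    SmP.pl_comp (σ := fun z => ch (ψ w) (ψ z)) h (hψ.sm.differentiableAt (by simp))]
  rfl

theorem rep_pull (hc : c ∈ At Z) (h : SmM Φ (c.symm y)) (T : Fld n M) :
    rep c (pull Φ T) y = pl (loc c Φ) T y := pl_pull h (smP_symm hc y) T

theorem pull_pull {W : Type} [Mf0 j W] {ψ : W → Z} {w : W} (h : SmM Φ (ψ w)) (hψ : SmM ψ w)
    (T : Fld n M) : pull ψ (pull Φ T) w = pull (fun z => Φ (ψ z)) T w :=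
  pl_pull (ψ := loc (ch w) ψ) (by rwa [loc_pt]) hψ T

theorem pull_congr (h : Φ =ᶠ[𝓝 x] Ψ) (hT : T (Φ x) = S (Φ x)) : pull Φ T x = pull Ψ S x :=
  pl_congr (loc_congr h) (by rwa [loc_pt])

theorem pull_id (T : Fld n M) : pull (fun z => z) T = T := funext fun x => rep_pt T x

/-- smoothness of the components of a pull-back -/
theorem cd_rep_pull (hc : c ∈ At Z) (h : ∀ᶠ z in 𝓝 (c.symm y), SmM Φ z) (hT : SmT T)
    (i l : Fin k) : ContDiffAt ℝ ∞ (fun z => rep c (pull Φ T) z i l) y :=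
  ((h.self_of_nhds.smP hc).cd_pl hT i l).congr_of_eventuallyEq
    (((ev_iff hc).1 h).mono fun z hz => by simp only [rep_pull hc hz])

theorem smT_pull (h : ∀ x, SmM Φ x) (hT : SmT T) : SmT (pull Φ T) := fun _ hc i l =>
  contDiff_iff_contDiffAt.2 fun _ => cd_rep_pull hc (.of_forall h) hT i l

theorem pull_sy (h : ∀ a b, T (Φ x) a b = T (Φ x) b a) (i l : Fin k) :
    pull Φ T x i l = pull Φ T x l i := by
  rw [pull_apply, pull_apply, Finset.sum_comm]
  exact Finset.sum_congr rfl fun a _ => Finset.sum_congr rfl fun b _ => by rw [h]; ring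

theorem pull_add (Φ : Z → M) (T S : Fld n M) : pull Φ (fun x a b => T x a b + S x a b) =
    fun x i l => pull Φ T x i l + pull Φ S x i l := by
  funext x i l; simp only [pull_apply, mul_add, Finset.sum_add_distrib]

theorem pull_smul (Φ : Z → M) (f : M → ℝ) (T : Fld n M) : pull Φ (fun x a b => f x * T x a b) =
    fun x i l => f (Φ x) * pull Φ T x i l := by
  funext x i l; simp only [pull_apply, Finset.mul_sum, mul_left_comm]

theorem SmM.pull_dd {u : M → ℝ} (h : SmM Φ x) (hf : DAt f (Φ x)) (hu : DAt u (Φ x)) (i l : Fin k) :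
    pull Φ (fun x a b => P366M.pd a f x * P366M.pd b u x) x i l =
      P366M.pd i (fun z => f (Φ z)) x * P366M.pd l (fun z => u (Φ z)) x :=
  SmP.pl_dd h (by rwa [loc_pt]) (by rwa [loc_pt]) i l

theorem Sub.left_inv {B : Set M} (h : Sub Φ B) (x : Z) :
    ∃ C : Matrix (Fin k) (Fin n) ℝ, C * jm Φ x = 1 := by
  obtain ⟨G, h1, h2⟩ := h.ext x
  have h3 := (h.sm x).sm.differentiableAt (by simp)
  rw [loc_pt] at h3
  refine ⟨jac G (pt (Φ x)), ?_⟩
  have h4 : pt (Φ x) = ch (Φ x) (Φ ((ch x).symm (pt x))) := by rw [symm_pt]; rfl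
  rw [h4, jm, ← jac_comp (σ := fun z => ch (Φ x) (Φ ((ch x).symm z)))
    (h4 ▸ h1.differentiableAt (by simp)) h3, ← jac_id (pt x)]
  refine jac_congr ((ev_pt.1 h2).mono fun z hz => ?_)
  simp only [← hz, right_inv (ch_mem x)]

theorem Sub.met {B : Set M} (h : Sub Φ B) (hg : Met g) : Met (pull Φ g) where
  sm := smT_pull h.sm hg.sm
  sy _ := pull_sy (hg.sy _)
  pos x := by
    obtain ⟨C, hC⟩ := h.left_inv x
    rw [mat_pull]
    exact posDef_conj (hg.pos _) hC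

end Mf

/-! ### naturality -/

section Nat

variable {n : ℕ} {M : Type} [Mf0 n M] {Y : E n → M} {y : E n} {g : Fld n M} {G : Field n}
  {u v : M → ℝ} {u' v' : E n → ℝ}

/-- `Y` is a local isometry at `y` from the metric `G` to the metric `g` -/
structure Iso (Y : E n → M) (g : Fld n M) (G : Field n) (y : E n) : Prop where
  sm : SmP Y y
  m : Met g
  m' : P366Z.Met G
  eq : G =ᶠ[𝓝 y] pl Y g

theorem Iso.det (h : Iso Y g G y) : IsUnit (jac (fun z => ch (Y y) (Y z)) y).det := by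
  have h1 := (h.m'.pos y).det_pos
  have h2 : Stmt.mat G y = Stmt.mat (pl Y g) y := h.eq.self_of_nhds
  rw [h2, mat_pl, Matrix.det_mul] at h1
  exact isUnit_iff_ne_zero.2 fun k => by simp [k] at h1

theorem Iso.ctx (h : Iso Y g G y) :
    P366P.Ctx (fun z => ch (Y y) (Y z)) (rep (ch (Y y)) g) G y :=
  P366P.Chg.ctx ⟨h.sm.sm, h.det⟩ (h.m.loc' _) h.m'
    ((h.eq.trans (h.sm.pl_ev (ch_mem _) (mem_ch _) g)).mono fun _ hz i j => by rw [hz]; rfl)

theorem SmP.pf (h : SmP Y y) (e : u' =ᶠ[𝓝 y] fun z => u (Y z)) :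
    P366P.PF (fun z => ch (Y y) (Y z)) (loc (ch (Y y)) u) u' y :=
  e.trans ((ev_source h.ct (mem_ch _)).mono fun z hz => by simp only [loc, (ch (Y y)).left_inv hz])

theorem Iso.scal (h : Iso Y g G y) : Stmt.scal G y = scal g (Y y) := h.ctx.scal_law

theorem Iso.lap (h : Iso Y g G y) (hu : CAt 2 u (Y y)) (e : u' =ᶠ[𝓝 y] fun z => u (Y z)) :
    P366Z.lap G u' y = lap g u (Y y) := h.ctx.lap_law hu (h.sm.pf e)

theorem Iso.ip (h : Iso Y g G y) (hu : DAt u (Y y)) (hv : DAt v (Y y))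
    (e : u' =ᶠ[𝓝 y] fun z => u (Y z)) (e' : v' =ᶠ[𝓝 y] fun z => v (Y z)) :
    P366Z.ip G u' v' y = ip g u v (Y y) :=
  (h.ctx.ip_law hu hv (h.sm.pf e) (h.sm.pf e')).trans (ip_pt g u v _)

theorem Iso.gn (h : Iso Y g G y) (hu : DAt u (Y y)) (e : u' =ᶠ[𝓝 y] fun z => u (Y z)) :
    P366Z.gn G u' y = gn g u (Y y) := congrArg Real.sqrt (h.ip hu hu e e)

theorem Iso.Rf (h : Iso Y g G y) (hu : CAt 2 u (Y y)) (e : u' =ᶠ[𝓝 y] fun z => u (Y z)) :
    RfE G u' y = Rf g u (Y y) := by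
  unfold RfE P366D.Rf
  rw [h.scal, h.lap hu e, h.ip (diff2 hu) (diff2 hu) e e]

theorem Iso.dens (h : Iso Y g G y) {e : Ch n M} (he : e ∈ At M) (hs : Y y ∈ e.source) :
    P366Z.dens G y = |(jac (fun z => e (Y z)) y).det| * P366Z.dens (rep e g) (e (Y y)) := by
  have h2 : Stmt.mat G y = Stmt.mat (pb (fun z => e (Y z)) (rep e g)) y :=
    (h.eq.trans (h.sm.pl_ev he hs g)).self_of_nhds
  unfold P366Z.dens
  rw [h2, mat_pb, Matrix.det_mul, Matrix.det_mul, Matrix.det_transpose, ← Real.sqrt_sq_eq_abs,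
    ← Real.sqrt_mul (sq_nonneg _)]
  congr 1
  ring

theorem iso_chart {e : Ch n M} (he : e ∈ At M) (hg : Met g) (y : E n) : Iso e.symm g (rep e g) y :=
  ⟨smP_symm he y, hg, hg.rep he, .rfl⟩

theorem Rf_rep {e : Ch n M} (he : e ∈ At M) (hg : Met g) (hu : CAt 2 u (e.symm y)) :
    RfE (rep e g) (loc e u) y = Rf g u (e.symm y) := (iso_chart he hg y).Rf hu .rfl

theorem Rf_pt (g : Fld n M) (u : M → ℝ) (x : M) :
    RfE (rep (ch x) g) (loc (ch x) u) (pt x) = Rf g u x := by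
  unfold RfE Rf
  rw [ip_pt]
  rfl

variable {Z : Type} [Mf0 n Z] {Φ : Z → M} {x : Z} {g' : Fld n Z} {w w' : Z → ℝ}

/-- `Φ` is a local isometry at `x` -/
structure IsoM (Φ : Z → M) (g : Fld n M) (g' : Fld n Z) (x : Z) : Prop where
  sm : ∀ᶠ z in 𝓝 x, SmM Φ z
  m : Met g
  m' : Met g'
  eq : g' =ᶠ[𝓝 x] pull Φ g

theorem IsoM.ev (h : IsoM Φ g g' x) : ∀ᶠ z in 𝓝 x, IsoM Φ g g' z := by
  filter_upwards [h.sm.eventually_nhds, h.eq.eventuallyEq_nhds] with z a b using ⟨a, h.m, h.m', b⟩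

theorem IsoM.iso {c : Ch n Z} (hc : c ∈ At Z) (h : IsoM Φ g g' (c.symm y)) :
    Iso (loc c Φ) g (rep c g') y :=
  ⟨h.sm.self_of_nhds.smP hc, h.m, h.m'.rep hc,
    (rep_congr hc h.eq).trans (((ev_iff hc).1 h.sm).mono fun _ hz => rep_pull hc hz g)⟩

theorem IsoM.iso_pt (h : IsoM Φ g g' x) : Iso (loc (ch x) Φ) g (rep (ch x) g') (pt x) :=
  IsoM.iso (ch_mem x) (by rwa [symm_pt])

theorem IsoM.scal (h : IsoM Φ g g' x) : scal g' x = scal g (Φ x) := by
  have := h.iso_pt.scal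
  rwa [loc_pt] at this

theorem IsoM.lap (h : IsoM Φ g g' x) (hu : CAt 2 u (Φ x)) (e : w =ᶠ[𝓝 x] fun z => u (Φ z)) :
    lap g' w x = lap g u (Φ x) := by
  have := h.iso_pt.lap (u := u) (by rwa [loc_pt]) (loc_congr e)
  rwa [loc_pt] at this

theorem IsoM.ip (h : IsoM Φ g g' x) (hu : DAt u (Φ x)) (hv : DAt v (Φ x))
    (e : w =ᶠ[𝓝 x] fun z => u (Φ z)) (e' : w' =ᶠ[𝓝 x] fun z => v (Φ z)) :
    ip g' w w' x = ip g u v (Φ x) := by
  have := h.iso_pt.ip (u := u) (v := v) (by rwa [loc_pt]) (by rwa [loc_pt]) (loc_congr e)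
    (loc_congr e')
  rwa [loc_pt, ip_pt] at this

theorem IsoM.gn (h : IsoM Φ g g' x) (hu : DAt u (Φ x)) (e : w =ᶠ[𝓝 x] fun z => u (Φ z)) :
    gn g' w x = gn g u (Φ x) := congrArg Real.sqrt (h.ip hu hu e e)

theorem IsoM.Rf (h : IsoM Φ g g' x) (hu : CAt 2 u (Φ x)) (e : w =ᶠ[𝓝 x] fun z => u (Φ z)) :
    Rf g' w x = Rf g u (Φ x) := by
  unfold P366D.Rf
  rw [h.scal, h.lap hu e, h.ip (diff2 hu) (diff2 hu) e e]

end Nat

end Vale.Agent.P366D
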