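import Vale.Agent.P366D.Res
import Vale.Agent.P366M.Map2
import Vale.Agent.P366M.Int

/-!
# P366D: a compact part of a manifold is a part of a closed manifold
-/

open MeasureTheory Metric Filter Topology Set Matrix
open scoped ContDiff
open Vale.Agent.P366 Vale.Agent.P366.Stmt Vale.Agent.P366M Vale.Agent.P366N

noncomputable section

namespace Vale.Agent.P366D

variable {k : ℕ} {Z : Type} [Mf0 k Z] {γ : Fld k Z}

theorem ker_zero {V : Type} [NormedAddCommGroup V] [NormedSpace ℝ V] {F : Z → V} {x : Z}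
    (hF : DAt F x) {H : V → E k} (hH : DifferentiableAt ℝ H (F x))
    (e : ∀ᶠ q in 𝓝 x, ch x q = H (F q)) {ξ : E k} (h0 : fd F x ξ = 0) : ξ = 0 := by
  have h1 : fd (fun q => ch x q) x = ContinuousLinearMap.id ℝ _ := by
    unfold fd
    rw [show loc (ch x) (fun q => ch x q) = fun z => z from funext (right_inv (ch_mem x))]
    exact fderiv_fun_id
  have h2 := DFunLike.congr_fun ((fd_congr e).trans (fd_comp hH hF)) ξ
  rwa [h1, ContinuousLinearMap.comp_apply, h0, map_zero] at h2

theorem pd_of_loc {e : Ch k Z} (he : e ∈ At Z) {u : Z → ℝ} {y : E k} (hu : DAt u (e.symm y))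
    (h : fderiv ℝ (loc e u) y = 0) (i : Fin k) : pd i u (e.symm y) = 0 := by
  have h0 : (ch (e.symm y)).symm (pt (e.symm y)) ∈ e.source := by
    rw [symm_pt]; exact symm_mem he y
  have h1 := hu.lc he
  unfold P366M.pd
  rw [P366Z.pd_congr (loc_tm u (ch_mem _) h0), pd_chain (by rwa [tm_ch he])
    (tm_diff (ch_mem _) he h0), tm_ch he]
  simp [P366Z.pd_eq h1, h]

/-- the sum of a pull-back and a multiple of `dt ⊗ dt` -/
theorem met_add {j : ℕ} {W : Type} [Mf0 j W] {π : W → Z} {t χ : W → ℝ} (hγ : Met γ)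
    (hπ : ∀ x, SmM π x) (ht : P366M.Smooth t) (hχ : P366M.Smooth χ) (h0 : ∀ x, 0 ≤ χ x)
    (h : ∀ x (ξ : Fin j → ℝ), jm π x *ᵥ ξ = 0 → χ x * (∑ i, ξ i * pd i t x) ^ 2 = 0 → ξ = 0) :
    Met fun x a b => pull π γ x a b + χ x * (pd a t x * pd b t x) where
  sm := (smT_pull hπ hγ.sm).add (SmT.smul hχ (smT_dd ht ht))
  sy x a b := by rw [pull_sy (hγ.sy _), mul_comm (pd a t x)]
  pos x := by
    refine Matrix.PosDef.of_dotProduct_mulVec_pos ?_ fun ξ hξ => ?_
    · ext a b
      show pull π γ x b a + χ x * (pd b t x * pd a t x) = _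
      rw [pull_sy (hγ.sy _), mul_comm (pd b t x)]
      rfl
    have e : star ξ ⬝ᵥ (mat (fun x a b => pull π γ x a b + χ x * (pd a t x * pd b t x)) x *ᵥ ξ) =
        (jm π x *ᵥ ξ) ⬝ᵥ (mat γ (π x) *ᵥ (jm π x *ᵥ ξ)) + χ x * (∑ i, ξ i * pd i t x) ^ 2 := by
      rw [dotProduct_comm (jm π x *ᵥ ξ), Matrix.dotProduct_mulVec (mat γ _ *ᵥ _),
        ← Matrix.mulVec_transpose, Matrix.mulVec_mulVec, Matrix.mulVec_mulVec, ← mat_pull,
        dotProduct_comm (_ *ᵥ ξ), sq, Finset.sum_mul_sum]
      simp only [star_trivial, dotProduct, mulVec, P366M.mat, Finset.mul_sum, add_mul, mul_add,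
        Finset.sum_add_distrib]
      congr 1
      exact Finset.sum_congr rfl fun a _ => Finset.sum_congr rfl fun b _ => by ring
    rw [e]
    have h1 := quad_nonneg (hγ.pos (π x)).posSemidef (jm π x *ᵥ ξ)
    have h2 : 0 ≤ χ x * (∑ i, ξ i * pd i t x) ^ 2 := mul_nonneg (h0 x) (sq_nonneg _)
    by_contra k
    refine hξ (h x ξ ?_ (by linarith))
    by_contra k'
    have := (hγ.pos (π x)).dotProduct_mulVec_pos k'
    rw [star_trivial] at this
    linarith

/-- `σ` is an isometric section of `π` over the open set `V` -/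
structure Sec {X : Type} [Mf0 k X] (π : X → Z) (σ : Z → X) (γ : Fld k Z) (g : Fld k X)
    (V : Set Z) : Prop where
  opn : IsOpen V
  sm : ∀ x, SmM π x
  rt : ∀ z ∈ V, π (σ z) = z
  sms : ∀ z ∈ V, SmM σ z
  iso : ∀ z ∈ V, IsoM π γ g (σ z)
  lf : ∀ z ∈ V, ∀ᶠ x in 𝓝 (σ z), σ (π x) = x

/-- **the double** -/
theorem dbl (hγ : Met γ) {w : Z → ℝ} (hw : P366M.Smooth w) {K K' : ℝ} (hK : K < K')
    (hc : IsCompact {z | w z ≤ K'}) (reg : ∀ z, w z = K' → ∃ i, pd i w z ≠ 0) {z₀ : Z}
    (h0 : w z₀ ≤ K') : ∃ (X : Type) (_ : Mf k X) (_ : CompactSpace X) (π : X → Z) (σ : Z → X),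
      Sec π σ γ bg {z | w z < K} := by
  classical
  have hf : P366M.Smooth fun z => K' - w z := cd_const.sub hw
  let D : Dbl Z (E k) :=
    { B := At Z
      f := fun z => K' - w z
      O := univ
      op := isOpen_univ
      cp := fun b hb b' hb' y _ h => tm_cd hb hb' h
      cov := fun z _ => ⟨_, ch_mem z, mem_ch z⟩
      sm := fun b hb y _ _ => (hf b hb).contDiffAt
      reg := fun b hb y _ h h' => by
        obtain ⟨i, hi⟩ := reg _ (sub_eq_zero.1 h).symm
        have := pd_of_loc hb (hf.diff _) h' i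
        rw [pd_sub (dAt_const _) (hw.diff _), pd_const] at this
        exact hi (by linarith) }
  let p₀ : D.S := ⟨(z₀, √(K' - w z₀)), Real.sq_sqrt (sub_nonneg.2 h0), trivial⟩
  have : Nonempty D.S := ⟨p₀⟩
  have cpt : CompactSpace D.S := by
    obtain ⟨R, hR⟩ := hc.exists_bound_of_continuousOn hf.cont.continuousOn
    refine isCompact_iff_compactSpace.1 ((hc.prod (isCompact_Icc (a := -(R + 1))
      (b := R + 1))).of_isClosed_subset ?_ fun p hp => ?_)
    · exact (isClosed_eq (continuous_snd.pow 2) (hf.cont.comp continuous_fst)).inter isClosed_univ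
    · have h1 : p.2 ^ 2 = K' - w p.1 := hp.1
      have h2 : w p.1 ≤ K' := by nlinarith
      have h3 := (le_abs_self _).trans (hR _ h2)
      exact ⟨h2, by constructor <;> nlinarith⟩
  choose c c1 c2 c3 using D.atl.pref
  let m : Mf0 k D.S := D.atl.mf0 c fun x => ⟨c1 x, c2 x, c3 x⟩
  have hx : ∀ b, D.Good b → (atl D.S).Mx b := fun b hb => by
    rintro _ ⟨x, rfl⟩
    exact (c1 x b hb).symm
  let π : D.S → Z := fun q => q.1.1
  let t : D.S → ℝ := fun q => q.1.2
  have cπ : Continuous π := continuous_fst.comp continuous_subtype_val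
  have hπ : ∀ x, SmM π x := fun x => by
    obtain ⟨b, hb, hz⟩ := D.atl.cov x
    have h1 := b.map_source hz
    have h2 : π (b.symm (b x)) ∈ (ch (π x)).source := by rw [b.left_inv hz]; exact mem_ch _
    exact smM_of_mx (hx b hb) hz (smP_of (cπ.continuousAt.comp (b.continuousAt_symm h1))
      (ch_mem _) h2 (hb.fst _ (ch_mem _) _ h1 h2))
  have ht : P366M.Smooth t := cd_of_cAt le_rfl fun x => by
    obtain ⟨b, hb, hz⟩ := D.atl.cov x
    exact cAt_of_mx le_rfl (hx b hb) hz (hb.snd _ (b.map_source hz) trivial)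
  have tt : ∀ x, t x ^ 2 = K' - w (π x) := fun x => x.2.1
  have t0 : 0 < √(K' - K) := Real.sqrt_pos.2 (sub_pos.2 hK)
  have hg := met_add (χ := fun x => expNegInvGlue (√(K' - K) - t x)) hγ hπ ht
    (expNegInvGlue.contDiff.compM (cd_const.sub ht)) (fun x => expNegInvGlue.nonneg _)
    fun x ξ h1 h2 => by
      have a1 : ∀ u : Z → ℝ, DAt u (π x) → ∑ i, ξ i * pd i (fun q => u (π q)) x = 0 :=
        fun u hu => by
          simp only [(hπ x).pd hu, Finset.mul_sum]
          rw [Finset.sum_comm]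
          refine Finset.sum_eq_zero fun a _ => ?_
          have := congrArg (· * pd a u (π x)) (congrFun h1 a)
          simp only [mulVec, dotProduct, Finset.sum_mul, Pi.zero_apply, zero_mul] at this
          rw [← this]
          exact Finset.sum_congr rfl fun i _ => by ring
      have a2 : ∑ i, ξ i * pd i t x = 0 := by
        by_cases h3 : t x = 0
        · exact pow_eq_zero_iff two_ne_zero |>.1 ((mul_eq_zero.1 h2).resolve_left
            (expNegInvGlue.pos_of_pos (by rwa [h3, sub_zero])).ne')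
        · have := a1 _ (hf.diff _)
          simp only [← tt, sq, pd_mul (ht.diff x) (ht.diff x)] at this
          refine (mul_eq_zero.1 (show 2 * t x * _ = 0 from ?_)).resolve_left (by positivity)
          rw [← this, Finset.mul_sum]
          exact Finset.sum_congr rfl fun i _ => by ring
      obtain ⟨b, hb, hz⟩ := D.atl.cov x
      obtain ⟨b', hb', hz', G, g1, g2⟩ := hb.ext x hz
      have a3 : CAt ∞ (fun q => b' (π q)) x := (hπ x).cAt le_rfl (cAt_mx (mx_of_At hb') hz')
      have a4 := a3.differentiableAt (by simp)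
      have g3 : G (b' (π x), t x) = b x := g2.self_of_nhds.symm
      have := ker_zero (F := fun q => (b' (π q), t q)) (x := x)
        ((a3.prodMk ht.contDiffAt).differentiableAt (by simp))
        (H := fun v => ch x (b.symm (G v))) (ξ := WithLp.toLp 2 ξ) ?_ ?_ ?_
      · exact congrArg WithLp.ofLp this
      · refine DifferentiableAt.comp (g := fun v => ch x (b.symm v)) _ ?_
          (g1.differentiableAt (by simp))
        rw [g3]
        exact ((smP_mx (hx b hb) (b.map_source hz)).cd (ch_mem x)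
          (by rw [b.left_inv hz]; exact mem_ch x)).differentiableAt (by simp)
      · filter_upwards [g2, b.open_source.mem_nhds hz] with q q1 q2
        rw [← q1, b.left_inv q2]
      · have a5 := DFunLike.congr_fun (a4.hasFDerivAt.prodMk (ht.diff x).hasFDerivAt).fderiv
          (WithLp.toLp 2 ξ)
        refine a5.trans (Prod.ext ?_ ((fderiv_eq_sum (ht.diff x) _).trans a2))
        ext a
        have a6 : DAt (fun z => b' z a) (π x) :=
          diff_coord ((cAt_mx (mx_of_At hb') hz').differentiableAt (by simp)) a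
        have a7 := ((EuclideanSpace.proj (𝕜 := ℝ) a).hasFDerivAt.comp _ a4.hasFDerivAt).fderiv
        have a8 := (fderiv_eq_sum ((hπ x).dAt a6) (WithLp.toLp 2 ξ)).trans (a1 _ a6)
        exact (DFunLike.congr_fun a7 _).symm.trans a8
  let σ : Z → D.S := fun z =>
    if h : 0 ≤ K' - w z then ⟨(z, √(K' - w z)), Real.sq_sqrt h, trivial⟩ else p₀
  have hσ : ∀ z, w z ≤ K' → (σ z).1 = (z, √(K' - w z)) := fun z hz => by
    simp only [σ, sub_nonneg.2 hz, dif_pos]
  have up : ∀ z, w z < K → ∀ᶠ x in 𝓝 (σ z), √(K' - K) < t x := fun z hz =>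
    ht.cont.continuousAt.eventually (lt_mem_nhds (by
      show _ < (σ z).1.2
      rw [hσ z (hz.trans hK).le]
      exact Real.sqrt_lt_sqrt (sub_nonneg.2 hK.le) (by linarith)))
  refine ⟨D.S, ⟨_, hg⟩, cpt, π, σ, isOpen_lt hw.cont continuous_const, hπ,
    fun z hz => congrArg Prod.fst (hσ z (hz.trans hK).le), fun z hz => ?_,
    fun z hz => ⟨.of_forall hπ, hγ, hg, (up z hz).mono fun x h => ?_⟩,
    fun z hz => (up z hz).mono fun x h => Subtype.ext ?_⟩
  · have h1 : pt z ∈ (Dbl.upper (D := D) (ch z) (ch_mem z) p₀).target :=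
      ⟨mem_tgt (ch_mem z) _, by rw [symm_pt]; exact sub_pos.2 (lt_trans hz hK), trivial⟩
    refine (smP_mx (hx _ (Dbl.upper_good (ch_mem z) p₀)) h1).congr ?_
    filter_upwards [(Dbl.upper (D := D) (ch z) (ch_mem z) p₀).open_target.mem_nhds h1] with y hy
    exact Subtype.ext ((hσ _ (sub_pos.1 hy.2.1).le).trans (Dbl.upper_symm _ p₀ hy).symm)
  · funext a b
    show pull π γ x a b + expNegInvGlue _ * _ = _
    rw [expNegInvGlue.zero_of_nonpos (by linarith), zero_mul, add_zero]
  · rw [hσ _ (by nlinarith [tt x]), ← tt, Real.sqrt_sq (t0.trans h).le]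

end Vale.Agent.P366D
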