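import Vale.Agent.P366D.Map
import Vale.Agent.P366M.Int

/-!
# P366D: the end of the descent
-/

open MeasureTheory Metric Filter Topology Set
open scoped ContDiff
open Vale.Agent.P366 Vale.Agent.P366.Stmt Vale.Agent.P366M

noncomputable section

namespace Vale.Agent.P366D

theorem Null.eq_empty {n : ℕ} {d : ℝ} {A : Set (E n)} (h : Null d A) (hd : d ≤ 0) : A = ∅ := by
  refine eq_empty_of_forall_notMem fun x hx => ?_
  obtain ⟨s, h1, h2, h3⟩ := h {x} isCompact_singleton (1 / 2) (by norm_num)
  obtain ⟨p, hp, -⟩ := mem_iUnion₂.1 (h2 ⟨hx, rfl⟩)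
  have h4 := Finset.single_le_sum (f := fun p : E n × ℝ => p.2 ^ d)
    (fun q hq => (Real.rpow_pos_of_pos (h1 q hq).1 _).le) hp
  have h5 := Real.one_le_rpow_of_pos_of_le_one_of_nonpos (h1 p hp).1
    ((h1 p hp).2.trans (by norm_num)) hd
  linarith

theorem scal_one {Z : Type} [Mf0 1 Z] (g : Fld 1 Z) (z : Z) : scal g z = 0 := by
  simp [P366M.scal, Stmt.scal]

theorem base : BASE := by
  intro X _ g f A S Z _ ι v Λ hg hf h
  have hS : S = ∅ := eq_empty_of_forall_notMem fun x hx => by
    have := (h.nul _ (ch_mem x)).eq_empty (by norm_num)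
    exact eq_empty_iff_forall_notMem.1 this (pt x) (by rwa [mem_preimage, symm_pt])
  have : CompactSpace Z := ⟨h.sub.emb.isInducing.isCompact_iff.2 (by
    rw [image_univ, h.sub.rng, hS, sdiff_empty]; exact h.cA)⟩
  have hγ := h.sub.met hg
  have hu := smooth_comp h.sub.sm hf
  set γ := pull ι g
  set u := fun z => f (ι z)
  have := hγ.locFin
  have := hγ.openPos
  have h0 : Stb γ u univ v := h.stb
  have h1 := h0 (fun z => Real.exp (-(1 / 2) * u z)) (CD.exp (cd_const.mul hu))
    (HasCompactSupport.of_compactSpace _) (subset_univ _)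
  have h2 : ∀ z, Real.exp (u z) * (2 * ip γ (fun z => Real.exp (-(1 / 2) * u z))
      (fun z => Real.exp (-(1 / 2) * u z)) z + (Rf γ u z - v) * Real.exp (-(1 / 2) * u z) ^ 2) =
      -2 * (1 * lap γ u z) - (ip γ u u z / 2 + v) := fun z => by
    have d : HasDerivAt (fun t => Real.exp (-(1 / 2) * t))
        (Real.exp (-(1 / 2) * u z) * (-(1 / 2) * 1)) (u z) :=
      ((hasDerivAt_id _).const_mul _).exp
    have e : Real.exp (u z) * Real.exp (-(1 / 2) * u z) ^ 2 = 1 := by
      rw [← Real.exp_nat_mul, ← Real.exp_add]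
      convert Real.exp_zero using 2
      push_cast; ring
    rw [ip_comp d d (hu.diff z) (hu.diff z), Rf, scal_one]
    linear_combination (-2 * lap γ u z - ip γ u u z / 2 - v) * e
  have c1 : Continuous fun z => -2 * (1 * lap γ u z) :=
    continuous_const.mul (continuous_const.mul (hγ.cont_lap hu.two))
  have c2 : Continuous fun z => ip γ u u z / 2 + v :=
    ((hγ.cont_ip hu.one hu.one).div_const _).add continuous_const
  simp only [h2] at h1
  rw [integral_sub (hγ.integrable_supp c1 (.of_compactSpace _))
    (hγ.integrable_supp c2 (.of_compactSpace _)), integral_const_mul,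
    hγ.ibp_lap' (llip_const 1) (.of_compactSpace _) hu.two] at h1
  simp only [ip_const_left, integral_zero] at h1
  have h3 := c2.integral_pos_of_hasCompactSupport_nonneg_nonzero (μ := vol γ) (.of_compactSpace _)
    (x := Classical.arbitrary Z) (fun z => by have := hγ.ip_nonneg u z; have := h.v0; positivity)
    (by have := hγ.ip_nonneg u (Classical.arbitrary Z); have := h.v0; positivity)
  linarith

end Vale.Agent.P366D
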