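import Vale.Agent.P366D.Defs

/-!
# P366D: the shield around the singular set (statement)
-/

open MeasureTheory Metric Filter Topology Set
open scoped ContDiff
open Vale.Agent.P366 Vale.Agent.P366.Stmt Vale.Agent.P366M

noncomputable section

namespace Vale.Agent.P366D

/-- the functions of the shield on `Z`, for the metric `γ` and the weight `u` -/
structure Shz {k : ℕ} {Z : Type} [Mf0 k Z] (γ : Fld k Z) (u : Z → ℝ) (C : Set Z) (θ ε : ℝ)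
    (W w h : Z → ℝ) (K₁ K₂ : ℝ) : Prop where
  lt : K₁ < K₂
  smW : P366M.Smooth W
  smw : P366M.Smooth w
  one : ∀ z, 1 ≤ W z
  cpt : IsCompact {z | w z ≤ K₂}
  out : ∀ z ∈ C, W z = 1 ∧ w z < K₁ ∧ h z = 0
  smh : ∀ z, w z < K₁ → CAt ∞ h z
  h0 : ∀ z, w z < K₁ → 0 ≤ h z
  sup : ∀ z, w z < K₁ → lap γ W z + ip γ u W z ≤ ε
  pos : ∀ z, w z < K₁ → -ε ≤ (gn γ W z / W z) ^ 2 / 2 + h z ^ 2 - 2 * gn γ h z
  cls : ∀ c, IsClosed {z | w z < K₁ ∧ h z ≤ c}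
  big : ∃ h₁, ∀ z, w z < K₁ → h₁ ≤ h z → gn γ h z ≤ θ * h z ^ 2

/-- **SHM**: the shield around the singular set of the limit hypersurface -/
def SHM : Prop := ∀ k : ℕ, 2 ≤ k → ∀ (X : Type) [Mf (k + 1) X] [CompactSpace X]
  (g : Fld (k + 1) X) (f : X → ℝ) (A S : Set X) (Z : Type) [Mf0 k Z] (ι : Z → X) (v Λ : ℝ)
  (C : Set Z) (θ ε : ℝ), Met g → P366M.Smooth f → Lim g f A S ι v Λ → IsCompact C → 0 < θ →
  0 < ε → ∃ W w h K₁ K₂, Shz (pull ι g) (fun z => f (ι z)) C θ ε W w h K₁ K₂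

end Vale.Agent.P366D
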