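import Vale.Agent.P366D.Dbl
import Vale.Agent.P366D.Lat
import Vale.Agent.P366D.Defs2
import Vale.Agent.P366H.Shield

/-!
# P366D: the data of the next level
-/

open MeasureTheory Metric Filter Topology Set
open scoped ContDiff
open Vale.Agent.P366 Vale.Agent.P366.Stmt Vale.Agent.P366M

noncomputable section

namespace Vale.Agent.P366D

section Stb

variable {k : ℕ} {Z : Type} [Mf0 k Z] {γ : Fld k Z} {u : Z → ℝ} {O V : Set Z} {v v' : ℝ}

theorem Met.sm_Rf (hγ : Met γ) (hu : P366M.Smooth u) : P366M.Smooth (Rf γ u) :=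
  (hγ.sm_scal.sub (cd_const.mul (hγ.sm_lap hu))).sub (hγ.sm_ip hu hu)

theorem stb_zero {ζ : Z → ℝ} {z : Z} (hz : z ∉ tsupport ζ) (a b : ℝ) :
    a * (2 * ip γ ζ ζ z + b * ζ z ^ 2) = 0 := by
  simp [ip, pd_zero_of_notMem hz, image_eq_zero_of_notMem_tsupport hz]

theorem stb_int (hγ : Met γ) (hu : P366M.Smooth u) {ζ : Z → ℝ} (h1 : P366M.Smooth ζ)
    (h2 : HasCompactSupport ζ) (v : ℝ) : Integrable
      (fun x => Real.exp (u x) * (2 * ip γ ζ ζ x + (Rf γ u x - v) * ζ x ^ 2)) (vol γ) :=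
  hγ.integrable_supp (hu.cont.rexp.mul ((continuous_const.mul (hγ.cont_ip h1.one h1.one)).add
    (((Met.sm_Rf hγ hu).cont.sub continuous_const).mul (h1.cont.pow 2))))
    (HasCompactSupport.intro h2 fun _ hz => stb_zero hz _ _)

theorem Stb.mono (h : Stb γ u O v) (hγ : Met γ) (hu : P366M.Smooth u) (hv : v' ≤ v) :
    Stb γ u O v' := fun ζ h1 h2 h3 => (h ζ h1 h2 h3).trans (integral_mono (stb_int hγ hu h1 h2 v)
      (stb_int hγ hu h1 h2 v') fun x => mul_le_mul_of_nonneg_left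
        (by nlinarith [sq_nonneg (ζ x)]) (Real.exp_pos _).le)

theorem Rf_add (hγ : Met γ) {l W : Z → ℝ} {x : Z} (hf : CAt 2 u x) (hl : CAt 2 l x)
    (hW : CAt 2 W x) (h1 : 1 ≤ W x) (hv : 0 ≤ v) (hL : lap γ W x + ip γ u W x ≤ v) :
    Rf γ (fun y => u y + l y) x - ip γ l l x - v + (gn γ W x / W x) ^ 2 / 2 ≤
      Rf γ (fun y => u y + l y + Real.log (W y) / 2) x := by
  have := P366H.Rf_add (hγ.loc' x) hf hl hW (by rwa [loc_pt]) hv (by
    unfold P366H.Lf; rw [ip_pt]; exact hL)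
  rw [ip_pt, gn_pt, loc_pt] at this
  rw [← Rf_pt, ← Rf_pt]
  exact this

variable {X : Type} [Mf0 k X] {π : X → Z} {σ : Z → X} {g : Fld k X}

theorem Sec.contOn (h : Sec π σ γ g V) : ContinuousOn σ V := fun z hz =>
  (h.sms z hz).ct.continuousWithinAt

theorem Sec.isOpen (h : Sec π σ γ g V) (hO : IsOpen O) (hs : O ⊆ V) : IsOpen (σ '' O) := by
  refine isOpen_iff_mem_nhds.2 ?_
  rintro _ ⟨z, hz, rfl⟩
  have h1 : ∀ᶠ x in 𝓝 (σ z), π x ∈ O :=
    (h.sm _).ct.eventually (hO.mem_nhds (by rwa [h.rt z (hs hz)]))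
  filter_upwards [h1, h.lf z (hs hz)] with x a b using ⟨_, a, b⟩

theorem Sec.stb (h : Sec π σ γ g V) (hu : P366M.Smooth u) (hs : Stb γ u univ v) :
    Stb g (fun x => u (π x)) (σ '' V) v := fun ζ h1 h2 h3 => by
  classical
  have cπ : Continuous π := continuous_iff_continuousAt.2 fun x => (h.sm x).ct
  have hV : π '' (σ '' V) = V := by
    rw [image_image, (image_congr h.rt).trans (image_id' V)]
  have b1 : Function.support (V.indicator fun z => ζ (σ z)) ⊆ π '' tsupport ζ := fun z hz => by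
    have hz' := support_indicator_subset hz
    rw [Function.mem_support, indicator_of_mem hz'] at hz
    exact ⟨σ z, subset_tsupport _ hz, h.rt z hz'⟩
  have b2 := closure_minimal b1 (h2.image cπ).isClosed
  have b3 : tsupport (V.indicator fun z => ζ (σ z)) ⊆ V :=
    b2.trans ((image_mono h3).trans hV.le)
  have b4 : P366M.Smooth (V.indicator fun z => ζ (σ z)) := cd_of_cAt le_rfl fun z => by
    by_cases hz : z ∈ V
    · exact ((h.sms z hz).cAt le_rfl h1.contDiffAt).congr_of_eventuallyEq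
        (eventually_of_mem (h.opn.mem_nhds hz) fun _ k => indicator_of_mem k _)
    · exact cAt_const.congr_of_eventuallyEq (notMem_tsupport_iff_eventuallyEq.1 fun k => hz (b3 k))
  have b5 := hs _ b4 ((h2.image cπ).of_isClosed_subset (isClosed_tsupport _) b2) (subset_univ _)
  have hU := h.isOpen h.opn subset_rfl
  rw [← setIntegral_eq_integral_of_forall_compl_eq_zero (s := π '' (σ '' V))
    (fun z hz => stb_zero (fun k => hz (hV.ge (b3 k))) _ _), integral_iso hU.measurableSet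
    (by rintro _ ⟨z, hz, rfl⟩; exact h.iso z hz) (by
      rintro _ ⟨z, hz, rfl⟩ _ ⟨z', hz', rfl⟩ e
      rw [h.rt z hz, h.rt z' hz'] at e
      rw [e])] at b5
  rw [← setIntegral_eq_integral_of_forall_compl_eq_zero (s := σ '' V)
    fun x hx => stb_zero (fun k => hx (h3 k)) _ _]
  refine b5.trans_eq (setIntegral_congr_fun hU.measurableSet ?_)
  rintro _ ⟨z, hz, rfl⟩
  have e : ζ =ᶠ[𝓝 (σ z)] fun x => V.indicator (fun z => ζ (σ z)) (π x) := by
    filter_upwards [h.lf z hz, (h.sm _).ct.eventually (h.opn.mem_nhds (by rwa [h.rt z hz]))]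
      with x a b
    rw [indicator_of_mem b, a]
  simp only
  rw [(h.iso z hz).ip (b4.diff _) (b4.diff _) e e, (h.iso z hz).Rf (hu.c2 _) .rfl, e.self_of_nhds]

end Stb

/-- **SARD**: regular values -/
def SARD : Prop := ∀ (k : ℕ) (Z : Type) [Mf0 k Z] (w : Z → ℝ) (a b : ℝ), P366M.Smooth w → a < b →
  ∃ t ∈ Ioo a b, ∀ z, w z = t → ∃ i, pd i w z ≠ 0

/-- **CLOSE** -/
theorem close_of (H₀ : SARD) (H₁ : LBAR) (H₂ : SHM) : CLOSE := by
  intro k hk θ θ0 η'' η0
  obtain ⟨a, a0, a1, HL⟩ := H₁ k hk (η'' / 2) (half_pos η0)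
  refine ⟨a / 2, half_pos a0, fun X _ _ g f Y η A S Z _ ι v Λ o hn hl hf => ?_⟩
  have hs := Uo_mono (k := k) (half_le_self a0.le)
  have hγ := hl.sub.met hn.met
  have hu := smooth_comp hl.sub.sm hn.smf
  -- the lift of the periodic chart
  let ψ : E k → X := fun y => Y (snc y (o y))
  let χ : E k → Z := fun y => Function.invFun ι (ψ y)
  have χ1 : ∀ y ∈ Uo k (a / 2), ι (χ y) = ψ y := fun y hy => Function.invFun_eq (by
    show ψ y ∈ range ι
    rw [hl.sub.rng]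
    exact ⟨(hf.gr y hy).self_of_nhds.2 (by rw [ini_snc]), (hf.mem y hy).2⟩)
  have χ2 : ∀ y ∈ Uo k (a / 2), (fun z => ι (χ z)) =ᶠ[𝓝 y] ψ := fun y hy =>
    eventually_of_mem (isOpen_Uo.mem_nhds hy) χ1
  have χ3 : ∀ y ∈ Uo k (a / 2), SmP χ y := fun y hy => hl.sub.lift
    (((hn.per.smP (hf.mem y hy).1).comp (cd_snc contDiffAt_id (hf.sm y hy))).congr (χ2 y hy))
  have χ4 : ∀ y z, χ (y + lat z) = χ y := fun y z => by
    simp only [χ, ψ, hf.per, snc_add_lat, hn.per.per]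
  obtain ⟨C, C1, C2, C3⟩ := exists_cell (k := k) (half_lt_self a0)
  have v0 : 0 < min v a := lt_min hl.v0 a0
  let z₀ : Z := Classical.arbitrary Z
  obtain ⟨W, w, h, K₁, K₂, z⟩ := H₂ k hk X g f A S Z ι v Λ (insert z₀ (χ '' C)) θ (min v a / 8)
    hn.met hn.smf hl ((C1.image_of_continuousOn fun y hy =>
      (χ3 y (C2 hy)).ct.continuousWithinAt).insert _) θ0 (by positivity)
  have out : ∀ y ∈ Uo k a, W (χ y) = 1 ∧ w (χ y) < K₁ ∧ h (χ y) = 0 := fun y hy => by
    obtain ⟨y₀, h1, c, rfl⟩ := C3 y hy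
    rw [χ4]
    exact z.out _ (Or.inr ⟨_, h1, rfl⟩)
  obtain ⟨K', ⟨K1, K2⟩, reg⟩ := H₀ k Z w K₁ K₂ z.smw z.lt
  have cp : ∀ {F : Set Z}, IsClosed F → (∀ p ∈ F, w p ≤ K') → IsCompact F := fun h1 h2 =>
    z.cpt.of_isClosed_subset h1 fun p hp => (h2 p hp).trans K2.le
  have cl : ∀ t, IsClosed {p | w p ≤ t} := fun t => isClosed_le z.smw.cont continuous_const
  have K3 : K₁ < (K₁ + K') / 2 := by linarith
  obtain ⟨X', _, _, π, σ, s⟩ := dbl hγ z.smw (show (K₁ + K') / 2 < K' by linarith)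
    (cp (cl _) fun _ hp => hp) reg ((z.out z₀ (Or.inl rfl)).2.1.trans K1).le
  have hg : Met (bg : Fld k X') := bg_met
  have o1 : ∀ y ∈ Uo k a, w (χ y) < (K₁ + K') / 2 := fun y hy => (out y hy).2.1.trans K3
  have o2 : ∀ y ∈ Uo k a, π (σ (χ y)) = χ y := fun y hy => s.rt _ (o1 y hy)
  have o3 : ∀ y ∈ Uo k a, SmP (fun y => σ (χ y)) y := fun y hy =>
    (s.sms _ (o1 y hy)).after (χ3 y (hs hy))
  have hu' := smooth_comp s.sm hu
  have nr : Nr bg (fun x => f (ι (π x))) (fun y => σ (χ y)) a := by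
    refine ⟨hg, hu', per_of (fun y c => by simp only [χ4]) (fun y hy y' hy' e => ?_)
      fun y hy => ?_, fun i j => ((hf.gs i j).mono (half_le_self a0.le)).congr fun y hy => ?_,
      (hf.fs.mono (half_le_self a0.le)).congr fun y hy => by rw [o2 y hy, χ1 y (hs hy)]⟩
    · have e1 := congrArg (fun x => ι (π x)) e
      simp only [o2 y hy, o2 y' hy', χ1 y (hs hy), χ1 y' (hs hy')] at e1
      obtain ⟨c, hc⟩ := hn.per.inj _ (hf.mem y (hs hy)).1 _ (hf.mem y' (hs hy')).1 e1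
      refine ⟨fun i => c i.castSucc, ?_⟩
      ext i
      simpa using congrArg (fun x : E (k + 1) => x i.castSucc) hc
    · obtain ⟨e, he, e1⟩ := hn.per.exists_chart (hf.mem y (hs hy)).1
      have e2 := (cd_snc contDiffAt_id (hf.sm y (hs hy))).continuousAt.eventually e1
      refine lp_of (o3 y hy) (G := fun x => ini (e (ι (π x)))) ?_ ?_
      · refine (cd_ini.contDiffAt.compM (((hl.sub.sm _).comp (s.sm _)).cAt le_rfl
          (cAt_mx (mx_of_At he) ?_))).differentiableAt (by simp)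
        rw [o2 y hy, χ1 y (hs hy), show ψ y = _ from e1.self_of_nhds]
        exact symm_mem he _
      · filter_upwards [e2, isOpen_Uo.mem_nhds hy] with p p1 p2
        rw [o2 p p2, χ1 p (hs p2), show ψ p = _ from p1, right_inv he, ini_snc]
        rfl
    · rw [pl_congr .rfl (s.iso _ (o1 y hy)).eq.self_of_nhds, pl_pull (s.sm _) (o3 y hy),
        pl_congr (Y' := χ) (eventually_of_mem (isOpen_Uo.mem_nhds hy) o2) rfl,
        pl_pull (hl.sub.sm _) (χ3 y (hs hy)), pl_congr (χ2 y (hs hy)) rfl]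
  obtain ⟨l, l1, l2, l3⟩ := HL X' bg _ _ _ (σ '' {p | w p ≤ K₁}) _ nr (s.isOpen s.opn subset_rfl)
    ((cp (cl _) fun _ hp => hp.trans K1.le).image_of_continuousOn
      (s.contOn.mono fun _ hp => lt_of_le_of_lt hp K3))
    (image_mono fun _ hp => lt_of_le_of_lt hp K3) (fun y hy => ⟨_, (out y hy).2.1.le, rfl⟩) v0
    (min_le_right _ _) (s.stb hu (hl.stb.mono hγ hu (min_le_left _ _)))
  have a2 : a ≤ η'' := a1.trans (half_le_self η0.le)
  have hW := smooth_comp s.sm z.smW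
  have W0 : ∀ x, W (π x) ≠ 0 := fun x => (one_pos.trans_le (z.one _)).ne'
  have sub : {p | w p < K₁} ⊆ {p | w p < (K₁ + K') / 2} := fun _ hp => lt_trans hp K3
  have gh : ∀ p, w p < K₁ → gn bg (fun x => h (π x)) (σ p) = gn (pull ι g) h p := fun p hp => by
    have := (s.iso p (sub hp)).gn (u := h) (by
      rw [s.rt p (sub hp)]; exact (z.smh p hp).differentiableAt (by simp)) .rfl
    rwa [s.rt p (sub hp)] at this
  refine ⟨X', inferInstance, inferInstance, bg,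
    fun x => f (ι (π x)) + l x + Real.log (W (π x)) / 2, σ '' {p | w p < K₁}, fun x => h (π x),
    fun y => σ (χ y), ⟨hg, (hu'.add l1).add ((CD.log hW W0).div_const 2), nr.per.mono a2,
      (nr.mono a2).gs, ((nr.fs.mono a1).add l3 η0.le (fun y hy => ?_) fun y hy => ?_).congr
        fun y hy => ?_⟩, ⟨s.isOpen (isOpen_lt z.smw.cont continuous_const) sub, ?_, ?_,
      fun c => ?_, ?_, z.big.imp fun h₁ k => ?_⟩, fun y hy => ?_⟩
  · exact (o3 y (Uo_mono a2 hy)).cAt le_rfl hu'.contDiffAt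
  · exact (o3 y (Uo_mono a2 hy)).cAt le_rfl l1.contDiffAt
  · simp only [o2 y (Uo_mono a2 hy), (out y (Uo_mono a2 hy)).1, Real.log_one, zero_div, add_zero]
  · rintro _ ⟨p, hp, rfl⟩
    exact (s.sm _).cAt le_rfl (by rw [s.rt p (sub hp)]; exact z.smh p hp)
  · rintro _ ⟨p, hp, rfl⟩
    rw [s.rt p (sub hp)]
    exact z.h0 p hp
  · convert ((cp (z.cls c) fun _ hp => (hp.1.trans K1).le).image_of_continuousOn
      (s.contOn.mono fun _ hp => sub hp.1)).isClosed using 1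
    ext x
    constructor
    · rintro ⟨⟨p, hp, rfl⟩, h1⟩
      exact ⟨p, ⟨hp, by rwa [s.rt p (sub hp)] at h1⟩, rfl⟩
    · rintro ⟨p, hp, rfl⟩
      exact ⟨⟨p, hp.1, rfl⟩, by rw [s.rt p (sub hp.1)]; exact hp.2⟩
  · rintro _ ⟨p, hp, rfl⟩
    have i := s.iso p (sub hp)
    have b1 := Rf_add hg (hu'.c2 (σ p)) (l1.c2 _) (hW.c2 _) (z.one _) (v := min v a / 8)
      (by positivity) (by
        rw [i.lap (z.smW.c2 _) .rfl, i.ip (hu.diff _) (z.smW.diff _) .rfl .rfl, s.rt p (sub hp)]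
        exact z.sup p hp)
    have b2 := l2 _ ⟨p, (le_of_lt hp : w p ≤ K₁), rfl⟩
    have b3 := z.pos p hp
    rw [i.gn (z.smW.diff _) .rfl, s.rt p (sub hp)] at b1
    rw [gh p hp, s.rt p (sub hp)]
    linarith
  · rintro _ ⟨p, hp, rfl⟩
    rw [gh p hp, s.rt p (sub hp)]
    exact k p hp
  · exact ⟨⟨_, (out y (Uo_mono a2 hy)).2.1, rfl⟩, by
      rw [o2 y (Uo_mono a2 hy), (out y (Uo_mono a2 hy)).2.2]⟩

end Vale.Agent.P366D
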