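import Vale.Agent.P366D.Jv
import Vale.Agent.P366D.Lat
import Mathlib.Analysis.Normed.Module.Connected

/-!
# P366D: positive periodic solutions on the complement of small balls are almost constant
-/

open Metric Filter Topology Set
open scoped ContDiff
open Vale.Agent.P366.Stmt Vale.Agent.P366Z Vale.Agent.P366Z.Grad

noncomputable section

namespace Vale.Agent.P366D

variable {k : ℕ} {I : Type} {l : Filter I} {η : I → ℝ} {a : I → E k → Fin k → Fin k → ℝ}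
  {b : Fin k → I → E k → ℝ} {c u : I → E k → ℝ}

theorem mem_Uo_near {y : E k} {z : Fin k → ℤ} {t : ℝ} (h1 : t < ‖y - lat z‖)
    (h2 : ‖y - lat z‖ ≤ 1 / 4) : y ∈ Uo k t := fun z' => by
  rcases eq_or_ne z' z with rfl | h
  · exact h1
  have h3 : 1 ≤ ‖lat (z' - z)‖ := not_lt.1 fun k => h (sub_eq_zero.1 (lat_eq_zero k))
  rw [lat_sub] at h3
  linarith [norm_sub_le_norm_sub_add_norm_sub (lat z') y (lat z), norm_sub_rev (lat z') y]

theorem Uo_ne (hk : 1 ≤ k) : (Uo k (1 / 5)).Nonempty := by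
  refine ⟨EuclideanSpace.single ⟨0, hk⟩ (1 / 4), mem_Uo_near (z := 0) ?_ ?_⟩ <;>
    rw [lat_zero, sub_zero, PiLp.norm_single] <;> norm_num

theorem conn_Uo (hk : 2 ≤ k) : IsPreconnected (Uo k 0) := by
  have e : Uo k 0 = (range lat)ᶜ := Set.ext fun y => ⟨fun h ⟨z, hz⟩ => by simpa [hz] using h z,
    fun h z => norm_pos_iff.2 (sub_ne_zero.2 fun e => h ⟨z, e.symm⟩)⟩
  rw [e]
  refine ((countable_range _).isConnected_compl_of_one_lt_rank ?_).2
  rw [← Module.finrank_eq_rank, finrank_euclideanSpace_fin]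
  exact_mod_cast hk

theorem ev_sub_Uo {K : Set (E k)} (hK : IsCompact K) (h : K ⊆ Uo k 0) :
    ∀ᶠ s in 𝓝 (0 : ℝ), K ⊆ Uo k s := by
  obtain ⟨t, t0, ht⟩ := hK.exists_forall_le' (continuous_infDist_pt (range lat)).continuousOn
    fun y hy => mem_Uo.1 (h hy)
  exact (gt_mem_nhds t0).mono fun s hs y hy => mem_Uo.2 (hs.trans_le (ht y hy))

theorem ball_Uo {y : E k} {r s t : ℝ} (hy : y ∈ Uo k t) (h : s + r ≤ t) :
    closedBall y r ⊆ Uo k s := fun x hx z => by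
  linarith [hy z, norm_sub_le_norm_sub_add_norm_sub y x (lat z), mem_closedBall_iff_norm'.1 hx]

/-- the functions to which the inequality of Harnack applies -/
def Ad (s : ℝ) (a : E k → Fin k → Fin k → ℝ) (w : E k → ℝ) : Prop := ∀ y ∈ Uo k s,
  Gp 2 a y ∧ ContDiffAt ℝ 2 w y ∧ 0 < w y ∧ |Lu a w y| ≤ 2 * (w y + ‖fderiv ℝ w y‖)

theorem harn_cpt (hk : 2 ≤ k) {K : Set (E k)} (hK : IsCompact K) (h : K ⊆ Uo k 0) :
    ∃ s > (0 : ℝ), ∃ C ≥ (0 : ℝ), K ⊆ Uo k s ∧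
      ∀ a w, Ad s a w → ∀ y ∈ K, ∀ z ∈ K, w y ≤ C * w z := by
  obtain ⟨R₀, R0, C₀, C0, h0⟩ := harn (n := k) (by omega) one_le_two
  let r : Set (E k) → Set (E k) → Prop := fun S T => ∃ C ≥ (0 : ℝ), ∀ᶠ s in 𝓝 (0 : ℝ),
    ∀ a w, Ad s a w → ∀ y ∈ S, ∀ z ∈ T, |w y| ≤ C * |w z|
  have tr : ∀ {S T x}, r S {x} → r {x} T → r S T := fun ⟨C, c0, h1⟩ ⟨D, d0, h2⟩ =>
    ⟨C * D, by positivity, (h1.and h2).mono fun s q a w hw y hy z hz => (q.1 a w hw y hy _ rfl).trans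
      ((mul_le_mul_of_nonneg_left (q.2 a w hw _ rfl z hz) c0).trans_eq (mul_assoc _ _ _).symm)⟩
  have mo : ∀ {S T S' T'}, r S T → S' ⊆ S → T' ⊆ T → r S' T' := fun ⟨C, c0, h1⟩ e e' =>
    ⟨C, c0, h1.mono fun s q a w hw y hy z hz => q a w hw y (e hy) z (e' hz)⟩
  have lc : ∀ x ∈ Uo k 0, ∃ N ∈ 𝓝 x, r N N := fun x hx => by
    obtain ⟨t, ht, t0⟩ := (((ev_sub_Uo isCompact_singleton (singleton_subset_iff.2 hx)).filter_mono
      nhdsWithin_le_nhds).and (self_mem_nhdsWithin (s := Ioi 0))).exists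
    have r0 : 0 < min R₀ (t / 12) := lt_min R0 (by positivity)
    refine ⟨_, closedBall_mem_nhds x r0, C₀, C0.le, (gt_mem_nhds (half_pos t0)).mono
      fun s hs a w hw y hy z hz => ?_⟩
    have s1 : closedBall x (6 * min R₀ (t / 12)) ⊆ Uo k s :=
      ball_Uo (ht rfl) (by linarith [min_le_right R₀ (t / 12)])
    have s2 := (closedBall_subset_closedBall (x := x) (show min R₀ (t / 12) ≤ _ by linarith)).trans s1
    rw [abs_of_pos (hw y (s2 hy)).2.2.1, abs_of_pos (hw z (s2 hz)).2.2.1]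
    exact h0 a w x _ r0 (min_le_left _ _) (fun q hq => hw q (s1 hq)) y hy z hz
  have al : ∀ x ∈ Uo k 0, ∀ y ∈ Uo k 0, r {x} {y} := fun x hx y hy =>
    (conn_Uo hk).induction₂' (fun x y => r {x} {y}) (fun x hx => by
      obtain ⟨N, h1, h2⟩ := lc x hx
      have h3 := singleton_subset_iff.2 (mem_of_mem_nhds h1)
      exact mem_nhdsWithin_of_mem_nhds (mem_of_superset h1 fun y hy =>
        ⟨mo h2 h3 (singleton_subset_iff.2 hy), mo h2 (singleton_subset_iff.2 hy) h3⟩))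
      (fun _ _ _ _ _ _ => tr) hx hy
  obtain ⟨x₀, hx₀⟩ := (Uo_ne (k := k) (by omega)).mono (Uo_mono (show (0 : ℝ) ≤ _ by norm_num))
  obtain ⟨C, c0, hC⟩ : r K K := by
    suffices H : r K {x₀} ∧ r {x₀} K from tr H.1 H.2
    refine hK.induction_on (p := fun S => r S {x₀} ∧ r {x₀} S)
      ⟨⟨0, le_rfl, .of_forall (by simp)⟩, 0, le_rfl, .of_forall (by simp)⟩
      (fun _ _ e q => ⟨mo q.1 e subset_rfl, mo q.2 subset_rfl e⟩) ?_ fun x hx => ?_
    · rintro S T ⟨⟨C, c0, h1⟩, D, d0, h2⟩ ⟨⟨C', c1, h3⟩, D', d1, h4⟩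
      refine ⟨⟨C + C', by positivity, (h1.and h3).mono fun s q a w hw y hy z hz => ?_⟩, D + D',
        by positivity, (h2.and h4).mono fun s q a w hw y hy z hz => ?_⟩
      · rcases hy with hy | hy
        · nlinarith [q.1 a w hw y hy z hz, abs_nonneg (w z)]
        · nlinarith [q.2 a w hw y hy z hz, abs_nonneg (w z)]
      · rcases hz with hz | hz
        · nlinarith [q.1 a w hw y hy z hz, abs_nonneg (w z)]
        · nlinarith [q.2 a w hw y hy z hz, abs_nonneg (w z)]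
    · obtain ⟨N, h1, h2⟩ := lc x (h hx)
      have h3 := singleton_subset_iff.2 (mem_of_mem_nhds h1)
      exact ⟨N, mem_nhdsWithin_of_mem_nhds h1, tr (mo h2 subset_rfl h3) (al x (h hx) _ hx₀),
        tr (al _ hx₀ x (h hx)) (mo h2 h3 subset_rfl)⟩
  obtain ⟨s, ⟨h1, h2⟩, s0⟩ := (((hC.and (ev_sub_Uo hK h)).filter_mono
    nhdsWithin_le_nhds).and (self_mem_nhdsWithin (s := Ioi 0))).exists
  refine ⟨s, s0, C, c0, h2, fun a w hw y hy z hz => ?_⟩
  simpa only [abs_of_pos (hw y (h2 hy)).2.2.1, abs_of_pos (hw z (h2 hz)).2.2.1] using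
    h1 a w hw y hy z hz

/-- the filter of the uniform statements on `Uo k (η i)` -/
def mv (l : Filter I) (k : ℕ) (η : I → ℝ) : Filter (I × E k) :=
  comap Prod.fst l ⊓ 𝓟 {p | p.2 ∈ Uo k (η p.1)}

theorem ev_mv {Q : I × E k → Prop} :
    (∀ᶠ p in mv l k η, Q p) ↔ ∀ᶠ i in l, ∀ z ∈ Uo k (η i), Q (i, z) := by
  simp only [mv, eventually_inf_principal, eventually_comap, Prod.forall, mem_ofPred_eq]
  exact eventually_congr (.of_forall fun i => ⟨fun h z => h i z rfl, fun h _ z e => e ▸ h z⟩)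

theorem lu_le (h : Tendsto η l (𝓝 0)) : lu l (Uo k 0) ≤ mv l k η := fun _ hs =>
  ev_lu.2 fun K hK h0 => ((ev_mv.1 hs).and (h.eventually (ev_sub_Uo hK h0))).mono
    fun _ q z hz => q.1 z (q.2 hz)

/-- a family of positive periodic solutions -/
structure Sq (l : Filter I) (η : I → ℝ) (a : I → E k → Fin k → Fin k → ℝ)
    (b : Fin k → I → E k → ℝ) (c u : I → E k → ℝ) : Prop where
  η0 : ∀ i, 0 < η i
  η1 : Tendsto η l (𝓝 0)
  ja : JT (mv l k η) Prod.snd fun p => a p.1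
  sy : ∀ᶠ p in mv l k η, ∀ i j, a p.1 p.2 i j = a p.1 p.2 j i
  jb : ∀ j, Jw (mv l k η) Prod.snd (fun p => b j p.1) 0
  jc : Jw (mv l k η) Prod.snd (fun p => c p.1) 0
  per : ∀ i y z, u i (y + lat z) = u i y
  sm : ∀ i, ∀ y ∈ Uo k (η i), ContDiffAt ℝ ∞ (u i) y ∧ 0 < u i y ∧
    Lu (a i) (u i) y + ∑ j, b j i y * pd j (u i) y = c i y * u i y - 1

theorem Sq.pt (h : Sq l η a b c u) {ε : ℝ} (hε : 0 < ε) : ∀ᶠ i in l, ∀ y ∈ Uo k (η i),
    Gp 2 (a i) y ∧ (∀ r s, |a i y r s - (1 : Matrix (Fin k) (Fin k) ℝ) r s| ≤ ε) ∧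
      ContDiffAt ℝ 2 (u i) y ∧ 0 < u i y ∧
      |Lu (a i) (u i) y + 1| ≤ ε * (u i y + ‖fderiv ℝ (u i) y‖) := by
  filter_upwards [ev_mv.1 ((h.ja.gp h.sy).and ((h.ja.close hε).and ((h.jc.small hε).and
    (eventually_all.2 fun j => (h.jb j).small (show 0 < ε / (k + 1) by positivity)))))]
    with i hi y hy
  obtain ⟨h1, h2, h3, h4⟩ := hi y hy
  obtain ⟨k1, k2, k3⟩ := h.sm i y hy
  simp only [sub_zero] at h3 h4
  refine ⟨h1, h2, k1.of_le (oo_le 2), k2, ?_⟩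
  have h5 : |∑ j, b j i y * pd j (u i) y| ≤ k * (ε / (k + 1) * ‖fderiv ℝ (u i) y‖) :=
    (Finset.abs_sum_le_sum_abs _ _).trans ((Finset.sum_le_card_nsmul _ _ _ fun j _ => by
      rw [abs_mul]
      exact mul_le_mul (h4 j).le (abs_pd_le (k1.differentiableAt (by simp)) j) (abs_nonneg _)
        (by positivity)).trans (by simp))
  have h6 : k * (ε / (k + 1)) ≤ ε := by
    rw [← mul_div_assoc, div_le_iff₀ (by positivity)]; nlinarith
  have h7 := mul_le_mul_of_nonneg_right h6 (norm_nonneg (fderiv ℝ (u i) y))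
  have h8 := mul_le_mul_of_nonneg_right h3.le k2.le
  rw [← abs_of_pos k2, ← abs_mul, abs_of_pos k2] at h8
  rw [show Lu (a i) (u i) y + 1 = c i y * u i y - ∑ j, b j i y * pd j (u i) y by linarith]
  exact (abs_sub _ _).trans (by linarith)

/-- the lower bound near the lattice -/
theorem Sq.low (h : Sq l η a b c u) (hk : 2 ≤ k) {s ε : ℝ} (hs : 0 < s) (hε : 0 < ε) :
    ∀ᶠ i in l, ∀ m > (0 : ℝ), (∀ y ∈ Uo k (1 / 5), m ≤ u i y) →
      ∀ y ∈ Uo k s, (1 - ε) * m ≤ u i y := by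
  have k2 : (2 : ℝ) ≤ k := by exact_mod_cast hk
  obtain ⟨δ, ⟨δ1, δ2⟩, δ0⟩ := ((((Real.continuousAt_const_rpow (a := 4 * s) (b := 0)
    (by positivity)).eventually (lt_mem_nhds (show 1 - ε / 2 < (4 * s) ^ (0 : ℝ) by
      rw [Real.rpow_zero]; linarith))).and (gt_mem_nhds one_pos)).filter_mono
      nhdsWithin_le_nhds |>.and (self_mem_nhdsWithin (s := Ioi 0))).exists
  replace δ0 : 0 < δ := δ0
  have t1 : Tendsto (fun i => (4 * (2 * η i)) ^ δ) l (𝓝 0) := by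
    have := ((h.η1.const_mul 2).const_mul 4).rpow_const (p := δ) (Or.inr δ0.le)
    rwa [mul_zero, mul_zero, Real.zero_rpow δ0.ne'] at this
  filter_upwards [h.pt (ε := δ ^ 2 / (6 * k)) (by positivity), t1.eventually (gt_mem_nhds
    (half_pos hε)), h.η1.eventually (gt_mem_nhds (half_pos hs))] with i hi h1 h2 m m0 hm y hy
  have η0 := h.η0 i
  by_cases h3 : y ∈ Uo k (1 / 5)
  · nlinarith [hm y h3]
  obtain ⟨z, hz⟩ := not_forall.1 h3
  have in1 : ∀ x, 2 * η i ≤ ‖x - lat z‖ → ‖x - lat z‖ ≤ 1 / 4 → x ∈ Uo k (η i) :=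
    fun x k1 k2 => mem_Uo_near (by linarith) k2
  have κ0 : 0 < m * 4 ^ δ := by positivity
  have e1 : 0 < m * 4 ^ δ * (2 * η i) ^ δ := by positivity
  have e2 : ∀ t : ℝ, 0 ≤ t → m * 4 ^ δ * t ^ δ = m * (4 * t) ^ δ := fun t ht => by
    rw [Real.mul_rpow (by norm_num) ht, mul_assoc]
  refine le_trans ?_ (annulus (c := lat z) (ρ := 2 * η i) (T := 1 / 4) (κ := m * 4 ^ δ) (q := δ)
    (e := -(m * 4 ^ δ * (2 * η i) ^ δ)) (by positivity)
    (fun x k1 k2 => (hi x (in1 x k1 k2)).2.2.1.continuousAt) (fun x k1 => ?_) (fun x k1 => ?_)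
    (fun x k1 k2 k3 k4 => ?_) (by linarith [hy z]) (by linarith [not_lt.1 hz]))
  · rw [e2 _ (norm_nonneg _), e2 _ (by positivity)]
    have := Real.rpow_le_rpow (by positivity) (show 4 * s ≤ 4 * ‖y - lat z‖ by linarith [hy z]) δ0.le
    nlinarith
  · linarith [(hi x (in1 x k1.ge (by linarith [hy z, not_lt.1 hz]))).2.2.2.1]
  · rw [e2 (1 / 4) (by norm_num), mul_one_div_cancel (by norm_num), Real.one_rpow]
    linarith [hm x (mem_Uo_near (z := z) (by rw [k1]; norm_num) k1.le)]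
  obtain ⟨ha, hb, hw, -, k7⟩ := hi x (in1 x k1 k2)
  have r0 : 0 < ‖x - lat z‖ := by linarith
  obtain ⟨b1, b2⟩ := rad_pow ha.sy (ha.nn two_pos) hw (sub_ne_zero.1 (norm_pos_iff.1 r0)) k4
  have b3 := (qf_close hb (x - lat z : E k)).2
  have b4 : k * (1 - δ ^ 2 / (6 * k)) ≤ ∑ r, a i x r r := by
    simpa using Finset.card_nsmul_le_sum Finset.univ (fun r => a i x r r) (1 - δ ^ 2 / (6 * k))
      fun r _ => by linarith [(abs_le.1 (hb r r)).1, Matrix.one_apply_eq (α := ℝ) r]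
  have e3 : k * (δ ^ 2 / (6 * k)) = δ ^ 2 / 6 := by field_simp
  have e4 : δ ^ 2 / (6 * k) ≤ δ ^ 2 := div_le_self (by positivity) (by linarith)
  have e5 : 0 < δ ^ 2 / (6 * k) := by positivity
  rw [← norm_sq_eq, e3] at b3
  rw [mul_sub, e3] at b4
  rw [abs_of_pos (by positivity), mul_right_comm] at b1
  have P0 : 0 < m * 4 ^ δ * ‖x - lat z‖ ^ δ := by positivity
  rw [mul_right_comm (m * 4 ^ δ)] at b2
  generalize m * 4 ^ δ * ‖x - lat z‖ ^ δ = P at *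
  generalize ‖x - lat z‖ = t at *
  generalize qf (a i x) (x - lat z : E k) = Q at *
  generalize δ ^ 2 / (6 * k) = θ at *
  have c1 : t ^ 2 * (δ / 2) ≤ (δ - 2) * Q + t ^ 2 * ∑ r, a i x r r := by
    have := mul_le_mul_of_nonneg_left b3 (show 0 ≤ 2 - δ by linarith)
    have := mul_le_mul_of_nonneg_left b4 (sq_nonneg t)
    have := mul_le_mul_of_nonneg_left (show (2 - δ) * (1 + δ ^ 2 / 6) + δ / 2 ≤ k * 1 - δ ^ 2 / 6 by
      nlinarith [mul_pos δ0 δ0, mul_pos (mul_pos δ0 δ0) δ0]) (sq_nonneg t)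
    linarith
  have c2 := mul_le_mul_of_nonneg_left c1 (show 0 ≤ P * δ by positivity)
  have c4 : t ^ 4 * Lu (a i) (u i) x ≤ t ^ 4 * (θ * (P + ‖fderiv ℝ (u i) x‖)) :=
    mul_le_mul_of_nonneg_left (by
      linarith [le_abs_self (Lu (a i) (u i) x + 1), mul_le_mul_of_nonneg_left
        (show u i x + ‖fderiv ℝ (u i) x‖ ≤ P + ‖fderiv ℝ (u i) x‖ by linarith) e5.le]) (by positivity)
  have c5 : t ^ 4 * (θ * (P + ‖fderiv ℝ (u i) x‖)) = P * t ^ 2 * (θ * (t * (t + δ))) := by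
    have : t ^ 4 * (θ * ‖fderiv ℝ (u i) x‖) = t ^ 3 * θ * (‖fderiv ℝ (u i) x‖ * t) := by ring
    rw [mul_add θ, mul_add, this, b1]
    ring
  have c7 : θ * (t * (t + δ)) < δ ^ 2 / 2 := by
    have := mul_lt_mul_of_pos_left (show t * (t + δ) < 1 / 2 by nlinarith) e5
    linarith
  have c8 := mul_lt_mul_of_pos_left c7 (show 0 < P * t ^ 2 by positivity)
  linarith

/-- the minimum tends to infinity -/
theorem Sq.big (h : Sq l η a b c u) (hk : 2 ≤ k) {A : ℝ} (hA : 0 < A) :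
    ∀ᶠ i in l, ∀ x ∈ Uo k (1 / 6), (∀ y ∈ Uo k (1 / 5), u i x ≤ u i y) → A ≤ u i x := by
  have k2 : (2 : ℝ) ≤ k := by exact_mod_cast hk
  obtain ⟨κ, hκ⟩ : ∃ κ : ℝ, κ = 1 / (8 * k) := ⟨_, rfl⟩
  have κ0 : 0 < κ := by rw [hκ]; positivity
  have κ1 : κ * k = 1 / 8 := by rw [hκ]; field_simp
  obtain ⟨ε, hε⟩ : ∃ ε, ε = κ * (1 / 12) ^ 2 / A := ⟨_, rfl⟩
  have ε0 : 0 < ε := by rw [hε]; positivity
  have ε1 : ε * A = κ * (1 / 12) ^ 2 := by rw [hε]; field_simp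
  filter_upwards [h.pt (ε := 1 / (2 * (A + 1))) (by positivity), h.low hk (s := 1 / 12)
    (by norm_num) ε0, h.η1.eventually (gt_mem_nhds (show (0 : ℝ) < 1 / 12 by norm_num))]
    with i hi h1 h2 x hx hm
  have s1 : closedBall x (1 / 12) ⊆ Uo k (1 / 12) := ball_Uo hx (by norm_num)
  have s2 := s1.trans (Uo_mono h2.le)
  have x0 := mem_closedBall_self (x := x) (show (0 : ℝ) ≤ 1 / 12 by norm_num)
  have m0 := (hi x (s2 x0)).2.2.2.1
  by_contra hA'
  obtain ⟨y, hy, -, k2, k3⟩ := exists_neg_min (B := {y | ‖y - x‖ = 1 / 12})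
    (u := fun y => u i y - ((1 - ε) * u i x + κ * ((1 / 12) ^ 2 - ‖y - x‖ ^ 2)))
    (isCompact_closedBall x (1 / 12)) (fun y hy => ((hi y (s2 hy)).2.2.1.continuousAt.sub
      (by fun_prop)).continuousWithinAt) (fun y hy k1 => closedBall_mem_nhds_of_mem
      (mem_ball_iff_norm.2 ((mem_closedBall_iff_norm.1 hy).lt_of_ne k1)))
    (fun y hy k1 => by rw [show ‖y - x‖ = _ from k1]; linarith [h1 _ m0 hm y (s1 hy)]) x0
    (by rw [sub_self, norm_zero]; nlinarith [not_le.1 hA'])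
  obtain ⟨ha, -, hw, -, k7⟩ := hi y (s2 hy)
  obtain ⟨b1, b2⟩ := rad (φ := fun t => (1 - ε) * u i x + κ * ((1 / 12) ^ 2 - t))
    (φ' := fun _ => -κ) (d := 0) ha.sy (ha.nn two_pos) hw (by fun_prop)
    (.of_forall fun t => by
      simpa only [mul_neg, mul_one] using (((hasDerivAt_id' t).const_sub ((1 / 12) ^ 2)).const_mul
        κ).const_add ((1 - ε) * u i x))
    (hasDerivAt_const _ _) k3
  rw [abs_neg, abs_of_pos κ0] at b1
  have b3 := mul_le_mul_of_nonneg_left (abs_le.1 ha.tr).2 κ0.le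
  have b4 := mul_le_mul_of_nonneg_left (mem_closedBall_iff_norm.1 hy) κ0.le
  have b5 : u i y + ‖fderiv ℝ (u i) y‖ < A + 1 := by
    nlinarith [not_le.1 hA', mul_pos ε0 m0, mul_nonneg κ0.le (sq_nonneg ‖y - x‖)]
  have b6 := mul_lt_mul_of_pos_left b5 (show 0 < 1 / (2 * (A + 1)) by positivity)
  rw [show 1 / (2 * (A + 1)) * (A + 1) = 1 / 2 by field_simp] at b6
  linarith [le_abs_self (Lu (a i) (u i) y + 1)]

theorem Lu_aff (a : E k → Fin k → Fin k → ℝ) (w : E k → ℝ) (t e : ℝ) (y : E k) :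
    Lu a (fun z => w z * t - e) y = Lu a w y * t := by
  have e1 : ∀ j, (pd j fun z => w z * t - e) = fun z => pd j w z * t := fun j =>
    funext fun z => by rw [pd_sub_const, pd_mul_const]
  simp only [Lu, pr, e1, pd_mul_const, Finset.sum_mul, mul_assoc]

/-- **the solutions are almost constant** -/
theorem Sq.small [l.NeBot] (h : Sq l η a b c u) (hk : 2 ≤ k) : ∃ t : I → ℝ, ∀ η' > (0 : ℝ), ∀ᶠ i in l,
    0 < t i ∧ Sml η' fun y => Real.log (u i y * t i) := by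
  obtain ⟨C₀, c1, c2, c3⟩ := exists_cell (k := k) (show (1 / 6 : ℝ) < 1 / 5 by norm_num)
  have c4 := c2.trans (Uo_mono (show (0 : ℝ) ≤ _ by norm_num))
  have ηs : ∀ s > (0 : ℝ), ∀ᶠ i in l, Uo k s ⊆ Uo k (η i) := fun s hs =>
    (h.η1.eventually (gt_mem_nhds hs)).mono fun _ q => Uo_mono q.le
  obtain ⟨x, hx⟩ := ((ηs _ (show (0 : ℝ) < 1 / 6 by norm_num)).mono (q := fun i => ∃ x,
      x ∈ C₀ ∧ 0 < u i x ∧ ∀ y ∈ Uo k (1 / 5), u i x ≤ u i y) fun i hi => by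
    obtain ⟨y, hy⟩ := Uo_ne (k := k) (by omega)
    obtain ⟨x, h1, h2⟩ := c1.exists_isMinOn ((c3 y hy).imp fun _ q => q.1) (f := u i)
      fun z hz => (h.sm i z (hi (c2 hz))).1.continuousAt.continuousWithinAt
    refine ⟨x, h1, (h.sm i x (hi (c2 h1))).2.1, fun y hy => ?_⟩
    obtain ⟨y₀, h3, z, rfl⟩ := c3 y hy
    rw [h.per]
    exact h2 h3).choice
  have big : ∀ A > (0 : ℝ), ∀ᶠ i in l, A ≤ u i (x i) := fun A hA =>
    ((h.big hk hA).and hx).mono fun i q => q.1 _ (c2 q.2.1) q.2.2.2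
  have low : ∀ s > (0 : ℝ), ∀ ε > (0 : ℝ), ∀ᶠ i in l, ∀ y ∈ Uo k s, (1 - ε) * u i (x i) ≤ u i y :=
    fun s hs ε hε => ((h.low hk hs hε).and hx).mono fun i q => q.1 _ q.2.2.1 q.2.2.2
  have le := lu_le (k := k) h.η1
  have us : ∀ᶠ p in lu l (Uo k 0), p.2 ∈ Uo k (η p.1) := le (ev_mv.2 (.of_forall fun _ _ q => q))
  have j0 : J0 (lu l (Uo k 0)) Prod.snd (fun p z => u p.1 z * (u p.1 (x p.1))⁻¹ - 1) 0 := by
    refine ⟨us.mono fun p q => ((h.sm _ _ q).1.mul contDiffAt_const).sub contDiffAt_const,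
      Metric.tendsto_nhds.2 fun ε ε0 => ev_lu.2 fun K hK hK' => ?_⟩
    obtain ⟨s, s0, C, C0, h1, h2⟩ := harn_cpt hk (hK.union c1) (union_subset hK' c4)
    obtain ⟨D, d1, d2, d3⟩ := exists_cell (k := k) (half_lt_self s0)
    obtain ⟨s', s1, C', C1, -, h4⟩ := harn_cpt hk (d1.union c1)
      (union_subset (d2.trans (Uo_mono (half_pos s0).le)) c4)
    obtain ⟨τ, τ0, hτ⟩ : ∃ τ > (0 : ℝ), (2 * C + 1) * τ < ε := ⟨ε / (2 * C + 2), by positivity, by
      rw [← mul_div_assoc, div_lt_iff₀ (by positivity)]; nlinarith⟩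
    filter_upwards [hx, ηs s s0, ηs s' s1, big 2 two_pos, big τ⁻¹ (inv_pos.2 τ0), low s' s1 _
      one_half_pos, low s s0 τ τ0, h.pt one_pos, h.pt (ε := τ / (C' + τ)) (by positivity)]
      with i ⟨x1, x2, _⟩ a1 a2 a3 a4 a5 a6 a7 a8 y hy
    have b1 : ∀ y ∈ Uo k s, u i y ≤ C' * u i (x i) := fun y hy => by
      obtain ⟨y₀, h3, z, rfl⟩ := d3 y hy
      rw [h.per]
      refine h4 (a i) (u i) (fun q hq => ?_) _ (.inl h3) _ (.inr x1)
      obtain ⟨k1, -, k2, k3, k4⟩ := a7 q (a2 hq)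
      refine ⟨k1, k2, k3, ?_⟩
      rw [abs_le] at k4 ⊢
      constructor <;> linarith [k4.1, k4.2, a5 q hq, norm_nonneg (fderiv ℝ (u i) q)]
    have b0 : 1 ≤ τ * u i (x i) := by rwa [inv_le_iff_one_le_mul₀' τ0] at a4
    have b2 := h2 (a i) (fun z => u i z * 1 - (1 - 2 * τ) * u i (x i)) (fun q hq => by
      obtain ⟨k1, -, k2, k3, k4⟩ := a8 q (a1 hq)
      refine ⟨k1, (k2.mul contDiffAt_const).sub contDiffAt_const, by linarith [a6 q hq], ?_⟩
      have k5 : τ / (C' + τ) * u i q ≤ τ * u i (x i) := by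
        rw [div_mul_eq_mul_div, div_le_iff₀ (by positivity)]
        nlinarith [b1 q hq, mul_le_mul_of_nonneg_left (b1 q hq) τ0.le]
      have k6 := mul_le_mul_of_nonneg_right ((div_le_one (show 0 < C' + τ by positivity)).2
        (show τ ≤ _ by linarith)) (norm_nonneg (fderiv ℝ (u i) q))
      rw [Lu_aff]
      simp only [mul_one, fderiv_sub_const]
      rw [abs_le] at k4 ⊢
      constructor <;> linarith [k4.1, k4.2, a6 q hq, norm_nonneg (fderiv ℝ (u i) q)])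
      y (.inl hy) _ (.inr x1)
    have b3 := a6 y (h1 (.inl hy))
    rw [Real.dist_0_eq_abs, show u i y * (u i (x i))⁻¹ - 1 = (u i y - u i (x i)) / u i (x i) by
      field_simp, abs_div, abs_of_pos x2, div_lt_iff₀ x2, abs_lt]
    have b4 := mul_lt_mul_of_pos_right hτ x2
    have b5 := mul_nonneg C0 (zero_le_one.trans b0)
    constructor <;> linarith
  have ti : Tendsto (fun p : I × E k => (u p.1 (x p.1))⁻¹) (lu l (Uo k 0)) (𝓝 0) :=
    (tendsto_inv_atTop_zero.comp (tendsto_atTop.2 fun A => (big _ (lt_max_of_lt_right one_pos)).mono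
      fun _ q => (le_max_left A 1).trans q)).comp (tendsto_comap.mono_left (le.trans inf_le_left))
  have jw : Jw (lu l (Uo k 0)) Prod.snd (fun p z => u p.1 z * (u p.1 (x p.1))⁻¹ - 1) 0 := fun m =>
    lreg (by omega) isOpen_Uo (fun r s => (h.ja r s).mono le) (le h.sy) m Unit
      (fun _ i z => u i z * (u i (x i))⁻¹ - 1) (fun _ => j0) (fun _ => (((lc_sum Finset.univ
        fun j => .mul ((jw_c 0).sub ((h.jb j).mono le)) (.d () j)).add
        (.mul (h.jc.mono le) (.z ()))).add (.r ((h.jc.mono le).sub0 (jw_const ti)))).congr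
        (us.mono fun p q => mem_of_superset (isOpen_Uo.mem_nhds q) fun z hz => by
          have := congrArg (· * (u p.1 (x p.1))⁻¹) (h.sm _ z hz).2.2
          simp only [add_mul, Finset.sum_mul] at this
          simp only [mem_ofPred_eq, Lu_aff, pd_sub_const, pd_mul_const, zero_sub, neg_mul,
            Finset.sum_neg_distrib, ← mul_assoc]
          linarith)) ()
  have jl := ((jw.add (jw_c 1)).comp (φ := Real.log) ((eventually_ne_nhds (by simp)).mono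
    fun _ q => Real.contDiffAt_log.2 q)).of_eq (show _ = 0 by simp)
  simp only [sub_add_cancel] at jl
  refine ⟨fun i => (u i (x i))⁻¹, fun η' η0 => ?_⟩
  obtain ⟨D, d1, d2, d3⟩ := exists_cell (k := k) (half_lt_self η0)
  filter_upwards [hx, (eventually_all_finite (finite_Iic ⌈1 / η'⌉₊)).2 fun m _ => ev_lu.1
    ((jl m).iter.eventually (gt_mem_nhds η0)) D d1 (d2.trans (Uo_mono (half_pos η0).le))]
    with i h1 h2
  refine ⟨inv_pos.2 h1.2.1, fun m hm y hy => ?_⟩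
  obtain ⟨y₀, h3, z, rfl⟩ := d3 y hy
  rw [← iteratedFDeriv_comp_add_right]
  simp only [h.per]
  exact (h2 m (by exact_mod_cast ((le_div_iff₀ η0).2 hm).trans (Nat.le_ceil _)) y₀ h3).le

end Vale.Agent.P366D
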