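import Vale.Agent.P366D.Pos
import Vale.Agent.P366D.Sma
import Vale.Agent.P366D.Close

/-!
# P366D: the new part of the weight
-/

open MeasureTheory Metric Filter Topology Set
open scoped ContDiff
open Vale.Agent.P366 Vale.Agent.P366.Stmt Vale.Agent.P366M

noncomputable section

namespace Vale.Agent.P366D

variable {k : ℕ} {X : Type} [Mf0 k X] {g : Fld k X} {f u : X → ℝ} {O K : Set X} {v η : ℝ}
  {Y : E k → X} {y : E k}

theorem exp_half (t : ℝ) : Real.exp (t / 2) ^ 2 = Real.exp t := by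
  rw [sq, ← Real.exp_add, add_halves]

theorem wl_exp (hg : Met g) (hf : P366M.Smooth f) {x : X} (hu : CAt 2 u x) :
    wl g (fun x => Real.exp (f x / 2)) u x = Real.exp (f x / 2) ^ 2 * (lap g u x + ip g f u x) := by
  rw [hg.wl_eq (P366M.Smooth.diff (CD.exp (CD.div_const hf 2)) x) hu,
    ip_comp_left (φ := fun t => Real.exp (t / 2)) ((hasDerivAt_id' (f x)).div_const 2).exp
      (hf.diff x)]
  ring

/-- stability gives a positive solution -/
theorem Stb.pos [CompactSpace X] (h : Stb g f O v) (hS : SUBS) (hk : 0 < k) (hg : Met g)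
    (hf : P366M.Smooth f) (hO : IsOpen O) (hK : IsCompact K) (hKO : K ⊆ O) (v0 : 0 < v) :
    ∃ u, P366M.Smooth u ∧ (∀ x, 0 < u x) ∧
      ∀ x ∈ K, lap g u x + ip g f u x = (Rf g f x - v / 2) / 2 * u x - 1 := by
  obtain ⟨ψ, s1, -, s2, s3, s4⟩ := exists_cut hK hO hKO
  have sU : P366M.Smooth fun x => Real.exp (f x / 2) := CD.exp (CD.div_const hf 2)
  have sR := Met.sm_Rf hg hf
  have sW : P366M.Smooth fun x =>
      (Rf g f x - v) * ψ x ^ 2 / 2 - ψ x * (lap g ψ x + ip g f ψ x) + v / 4 :=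
    CD.add (CD.sub (CD.div_const (CD.mul (CD.sub sR cd_const) (CD.pow s1 2)) 2)
      (CD.mul s1 (CD.add (hg.sm_lap s1) (hg.sm_ip hf s1)))) cd_const
  obtain ⟨u, u1, u2⟩ := P366D.pos hS hk hg sU (fun _ => Real.exp_pos _) sW (c := v / 4)
    (by linarith) fun ζ hζ => by
      have it : ∀ {f : X → ℝ}, Continuous f → Integrable f (vol g) := fun hf =>
        hg.integrable_supp hf (.of_compactSpace _)
      have s5 : P366M.Smooth fun x => ψ x * ζ x := CD.mul s1 hζ
      have s6 : P366M.Smooth fun x => ζ x * (ψ x * ζ x) := CD.mul hζ s5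
      have k1 := h _ s5 (.of_compactSpace _) ((tsupport_mul_subset_left).trans s2)
      have k2 := hg.ibp_wl' s6.llip (.of_compactSpace _) sU.one s1.two
      have i1 := stb_int hg hf s5 (.of_compactSpace _) v
      have i2 := it (s6.cont.mul (hg.cont_wl sU.one s1.two))
      have i3 := it ((sU.cont.pow 2).mul (hg.cont_ip s6.one s1.one))
      have i4 := it ((sU.cont.pow 2).mul (hζ.cont.pow 2))
      have i5 := it ((sU.cont.pow 2).mul ((hg.cont_ip hζ.one hζ.one).add
        (sW.cont.mul (hζ.cont.pow 2))))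
      have k3 := integral_mono (((i4.const_mul (v / 4)).add (i1.const_mul (1 / 2))).sub (i2.add i3))
        i5 fun x => by
          have := mul_nonneg (mul_nonneg (sq_nonneg (Real.exp (f x / 2)))
            (show 0 ≤ 1 - ψ x ^ 2 by nlinarith [(s3 x).1, (s3 x).2])) (hg.ip_nonneg ζ x)
          simp only [Pi.add_apply, Pi.sub_apply, Pi.mul_apply, Pi.pow_apply, wl_exp hg hf (s1.c2 x),
            ← exp_half (f x), ip_mul_left (hζ.diff x) (s5.diff x), ip_mul_left (s1.diff x) (hζ.diff x),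
            ip_mul_right (s1.diff x) (hζ.diff x), hg.ip_sy ψ ζ x]
          linarith
      rw [integral_sub' ((i4.const_mul _).add (i1.const_mul _)) (i2.add i3),
        integral_add' (i4.const_mul _) (i1.const_mul _), integral_add' i2 i3, integral_const_mul,
        integral_const_mul] at k3
      simp only [Pi.add_apply, Pi.mul_apply, Pi.pow_apply] at k3
      linarith
  refine ⟨u, u1, fun x => (u2 x).1, fun x hx => ?_⟩
  have := (u2 x).2
  rw [wl_exp hg hf (u1.c2 x), mul_right_inj' (by positivity), lap_congr (s4 x hx), lap_const,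
    ip_congr .rfl (s4 x hx), ip_const_right, (s4 x hx).eq_of_nhds] at this
  linarith

theorem Rf_exp (hg : Met g) (hf : P366M.Smooth f) {l : X → ℝ} (hl : P366M.Smooth l) {t : ℝ}
    (e : u = fun x => t * Real.exp (l x)) (x : X) :
    u x * (Rf g (fun x => f x + l x) x - ip g l l x) =
      u x * Rf g f x - 2 * (lap g u x + ip g f u x) := by
  rw [e, Rf, Rf, hg.lap_add (hf.c2 x) (hl.c2 x), ip_add_left (hf.diff x) (hl.diff x),
    ip_add_right (hf.diff x) (hl.diff x), ip_add_right (hf.diff x) (hl.diff x), hg.ip_sy l f,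
    hg.lap_comp (φ := fun s => t * Real.exp s) (hl.c2 x) (by fun_prop),
    ip_comp_right (φ := fun s => t * Real.exp s) ((Real.hasDerivAt_exp _).const_mul t) (hl.diff x)]
  simp only [deriv_const_mul_field', Real.deriv_exp]
  ring

theorem Nr.eqn (h : Nr g f Y η) (hy : y ∈ Uo k η) (hu : P366M.Smooth u) :
    (∀ r s, Stmt.up (pl Y g) r s y = Stmt.up (pl Y g) s r y) ∧
      RfE (pl Y g) (fun z => f (Y z)) y = Rf g f (Y y) ∧
      Lu (fun z r s => Stmt.up (pl Y g) r s z) (fun z => u (Y z)) y +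
        ∑ j, (P366Z.bv (pl Y g) j y + P366Z.gr (pl Y g) (fun z => f (Y z)) j y) *
          Stmt.pd j (fun z => u (Y z)) y = lap g u (Y y) + ip g f u (Y y) := by
  obtain ⟨e, he, h1⟩ := h.per.exists_chart hy
  have h2 : pl Y g =ᶠ[𝓝 y] rep e g := pl_congr_ev h1 g
  have h3 := h.met.rep he
  have iso : Iso Y g (rep e g) y := ⟨h.per.smP hy, h.met, h3, h2.symm⟩
  have h4 : ∀ j, P366Z.bv (pl Y g) j y = P366Z.bv (rep e g) j y := fun j =>
    P366Z.dv_of_ev h2 fun i => h2.mono fun _ q => P366Z.up_of_eq q i j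
  refine ⟨fun r s => by simp only [P366Z.up_of_eq h2.eq_of_nhds, h3.up_sy r s], ?_, ?_⟩
  · rw [← iso.Rf (h.smf.c2 _) .rfl, RfE, RfE, P366Z.scal_of_ev h2, P366Z.lap_of_ev h2,
      P366Z.ip_of_eq h2.eq_of_nhds]
  · rw [← iso.lap (hu.c2 _) .rfl, ← iso.ip (h.smf.diff _) (hu.diff _) .rfl .rfl, h3.ip_sy,
      P366Z.ip_eq_gr, h3.lap_eq (iso.sm.cAt two_le_oo (hu.c2 _))]
    simp only [Lu, P366Z.Grad.pr, P366Z.up_of_eq h2.eq_of_nhds, P366Z.gr_of_eq h2.eq_of_nhds, h4,
      add_mul, Finset.sum_add_distrib, add_assoc, mul_comm (Stmt.pd _ (fun z => u (Y z)) y)]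

theorem jw_of_sml {I : Type} {l : Filter I} {η : I → ℝ} {U : I → E k → ℝ}
    (h : Tendsto η l (𝓝 0)) (hs : ∀ i, Sml (η i) (U i))
    (sm : ∀ i, ∀ y ∈ Uo k (η i), ContDiffAt ℝ ∞ (U i) y) :
    Jw (mv l k η) Prod.snd (fun p => U p.1) 0 :=
  jw_of_iter (ev_mv.2 (.of_forall sm)) fun j => squeeze_zero' (.of_forall fun _ => norm_nonneg _)
    (ev_mv.2 (((h.const_mul (j : ℝ)).eventually (gt_mem_nhds (by simp))).mono fun i q =>
      hs i j q.le)) (h.comp (tendsto_comap.mono_left inf_le_left))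

theorem lbar_of (hS : SUBS) : LBAR := by
  intro k hk η' η0
  by_contra H
  push Not at H
  have e0 : ∀ i : ℕ, 0 < η' / (i + 1) := fun i => by positivity
  choose X I₁ I₂ g f Y O K v h1 h2 h3 h4 h5 h6 h7 h8 h9 using fun i : ℕ =>
    H _ (e0 i) (div_le_self η0.le (by linarith [i.cast_nonneg (α := ℝ)]))
  choose u u1 u2 u3 using fun i => (h8 i).pos hS (by omega) (h1 i).met (h1 i).smf (h2 i) (h3 i)
    (h4 i) (h6 i)
  have t1 : Tendsto (fun i : ℕ => η' / (i + 1)) atTop (𝓝 0) :=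
    tendsto_const_nhds.div_atTop (tendsto_atTop_add_const_right _ _ tendsto_natCast_atTop_atTop)
  have jG : JT (mv atTop k fun i : ℕ => η' / (i + 1)) Prod.snd fun p => pl (Y p.1) (g p.1) :=
    fun r s => by
      simpa only [sub_add_cancel, zero_add, Matrix.one_apply] using (jw_of_sml t1
        (fun i => (h1 i).gs r s) fun i y hy => (((h1 i).per.smP hy).cd_pl (h1 i).met.sm r s).sub
          contDiffAt_const).add (jw_c (if r = s then 1 else 0))
  have jF := jw_of_sml t1 (fun i => (h1 i).fs) fun i y hy =>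
    ((h1 i).per.smP hy).cAt le_rfl (h1 i).smf.contDiffAt
  obtain ⟨t, ht⟩ := Sq.small (l := atTop) (η := fun i : ℕ => η' / (i + 1))
    (a := fun i z r s => Stmt.up (pl (Y i) (g i)) r s z)
    (b := fun j i z => P366Z.bv (pl (Y i) (g i)) j z +
      P366Z.gr (pl (Y i) (g i)) (fun z => f i (Y i z)) j z)
    (c := fun i z => (RfE (pl (Y i) (g i)) (fun z => f i (Y i z)) z - v i / 2) / 2)
    (u := fun i z => u i (Y i z)) ⟨e0, t1, jG.up, ev_mv.2 (.of_forall fun i y hy =>
      ((h1 i).eqn hy (u1 i)).1), fun j => (jG.bv j).add0 (jG.gr jF j),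
      (((jG.RfE jF).sub0 ((jw_const (((squeeze_zero (fun i => (h6 i).le) h7 t1).div_const 2).comp
        (tendsto_comap.mono_left inf_le_left))).of_eq (zero_div 2))).div (jw_c 2) two_ne_zero).of_eq (zero_div 2),
      fun i y z => by rw [(h1 i).per.per], fun i y hy =>
        ⟨((h1 i).per.smP hy).cAt le_rfl (u1 i).contDiffAt, u2 i _, by
          rw [((h1 i).eqn hy (u1 i)).2.2, ((h1 i).eqn hy (u1 i)).2.1, u3 i _ (h5 i y hy)]⟩⟩ hk
  obtain ⟨i, t0, hi⟩ := (ht η' η0).exists
  have p := fun x => mul_pos (u2 i x) t0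
  have hl : P366M.Smooth fun x => Real.log (u i x * t i) :=
    CD.log (CD.mul (u1 i) cd_const) fun x => (p x).ne'
  refine h9 i _ hl (fun x hx => le_of_mul_le_mul_left ?_ (u2 i x)) hi
  rw [Rf_exp (h1 i).met (h1 i).smf hl (t := (t i)⁻¹) (funext fun x => by
    rw [Real.exp_log (p x)]; field_simp), u3 i x hx]
  linarith

end Vale.Agent.P366D
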