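import Vale.Agent.P366M.Sub
import Vale.Agent.P366M.Map2
import Vale.Agent.P366N.Mke

/-!
# P366D: a coercive operator on a compact manifold has a positive solution
-/

open MeasureTheory Metric Filter Topology Set
open scoped ContDiff
open Vale.Agent.P366 Vale.Agent.P366.Stmt Vale.Agent.P366M

noncomputable section

namespace Vale.Agent.P366D

variable {n : ℕ}

/-- a compact manifold has no end -/
theorem exists_mfs_cpt (X : Type) [Mf0 n X] [CompactSpace X] : ∃ (M : Type) (_ : Mfs n M)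
    (h : X ≃ₜ M), (∀ x : M, ‖px x‖ < R0 M) ∧ (∀ x, SmM h x) ∧ ∀ x, SmM h.symm x := by
  obtain ⟨M, _, h, ν, h1, -⟩ := P366N.Pre.exists_mfs (n := n) (M := X) (ι := Empty)
    ⟨atl X, nofun, 0, le_rfl, nofun, nofun, nofun, nofun, fun _ _ => by simpa using isCompact_univ⟩
  choose e he hr using fun x : X => h1 (ch x) (mx_of_At (ch_mem x)) (ch_mem x).1
  refine ⟨M, _, h, fun x => not_le.1 fun k => ?_, fun x => smM_of_mp h.continuous.continuousAt
    (ch_mem x) (he x) (mem_ch x) (((hr x).src x).2 (mem_ch x)) ?_, fun x => ?_⟩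
  · obtain ⟨j, -⟩ := far_ex (x := x) (by linarith)
    exact (ν.symm j).elim
  · exact contDiffAt_id.congr_of_eventuallyEq (.of_forall fun y => by
      rw [mp, (hr x).app, right_inv (ch_mem x), id])
  · obtain ⟨x, rfl⟩ := h.surjective x
    exact smM_of_mp h.symm.continuous.continuousAt (he x) (ch_mem x) (((hr x).src x).2 (mem_ch x))
      (by rw [h.symm_apply_apply]; exact mem_ch x) (contDiffAt_id.congr_of_eventuallyEq
        (.of_forall fun y => by rw [mp, (hr x).symm, h.symm_apply_apply, right_inv (ch_mem x), id]))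

/-- the quadratic form is coercive -/
def Coe {M : Type} [Mf0 n M] (g : Fld n M) (U W : M → ℝ) (c : ℝ) : Prop :=
  ∀ ζ : M → ℝ, P366M.Smooth ζ → c * ∫ x, U x ^ 2 * ζ x ^ 2 ∂vol g ≤
    ∫ x, U x ^ 2 * (ip g ζ ζ x + W x * ζ x ^ 2) ∂vol g

theorem vol_ball {M : Type} [Mf0 n M] [CompactSpace M] {g : Fld n M} (hg : Met g) {r : ℝ}
    (hr : 0 < r) : ∃ v > (0 : ℝ), ∀ x, v ≤ (vol g).real (ball x r) := by
  have := hg.locFin
  have := hg.openPos
  obtain ⟨v, v0, h⟩ := (isCompact_univ (X := M)).induction_on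
    (p := fun S => ∃ v > (0 : ℝ), ∀ x ∈ S, v ≤ (vol g).real (ball x r)) ⟨1, one_pos, nofun⟩
    (fun _ _ e ⟨v, a, b⟩ => ⟨v, a, fun x hx => b x (e hx)⟩)
    (fun _ _ ⟨v, a, b⟩ ⟨w, a', b'⟩ => ⟨min v w, lt_min a a', fun x hx => hx.elim
      (fun k => (min_le_left _ _).trans (b x k)) fun k => (min_le_right _ _).trans (b' x k)⟩)
    fun x _ => ⟨_, mem_nhdsWithin_of_mem_nhds (ball_mem_nhds x (half_pos hr)), _,
      ENNReal.toReal_pos (measure_ball_pos (vol g) x (half_pos hr)).ne' (measure_ne_top _ _),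
      fun y hy => measureReal_mono (ball_subset_ball' (by
        linarith [mem_ball'.1 hy])) (measure_ne_top _ _)⟩
  exact ⟨v, v0, fun x => h x (mem_univ x)⟩

theorem Coe.l2 {M : Type} [Mf0 n M] [CompactSpace M] {g : Fld n M} {U W u : M → ℝ} {c t : ℝ}
    (h : Coe g U W c) (hg : Met g) (hU : P366M.Smooth U) (hW : P366M.Smooth W) (hc : 0 < c)
    (t0 : 0 ≤ t) (u1 : P366M.Smooth u) (u2 : ∀ x, wl g U u x = U x ^ 2 * ((W x + t) * u x - 1)) :
    c ^ 2 * ∫ x, U x ^ 2 * u x ^ 2 ∂vol g ≤ ∫ x, U x ^ 2 ∂vol g := by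
  have it : ∀ {f : M → ℝ}, Continuous f → Integrable f (vol g) := fun hf =>
    hg.integrable_supp hf (.of_compactSpace _)
  have c1 := hU.cont
  have c2 := hW.cont
  have c3 := u1.cont
  have c4 := hg.cont_ip u1.one u1.one
  have c5 := hg.cont_wl hU.one u1.two
  have k1 := mul_le_mul_of_nonneg_left (h u u1) (show 0 ≤ 2 * c by linarith)
  have k2 := hg.ibp_wl' u1.llip (.of_compactSpace _) hU.one u1.two
  have k3 : ∫ x, 2 * c * (U x ^ 2 * (ip g u u x + W x * u x ^ 2)) ∂vol g ≤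
      ∫ x, 2 * c * (U x ^ 2 * ip g u u x + u x * wl g U u x) +
        (c ^ 2 * (U x ^ 2 * u x ^ 2) + U x ^ 2) ∂vol g :=
    integral_mono (it (by fun_prop)) (it (by fun_prop)) fun x => by
      have := mul_nonneg (sq_nonneg (U x)) (add_nonneg (sq_nonneg (c * u x - 1))
        (show 0 ≤ 2 * c * t * u x ^ 2 by positivity))
      simp only [u2 x]
      linarith
  rw [integral_add (it (by fun_prop)) (it (by fun_prop)), integral_const_mul, integral_const_mul,
    integral_add (it (by fun_prop)) (it (by fun_prop)),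
    integral_add (it (by fun_prop)) (it (by fun_prop)), integral_const_mul, k2] at k3
  linarith

theorem pos_mfs (hS : SUBS) {M : Type} [Mfs n M] [CompactSpace M] (hb : ∀ x : M, ‖px x‖ < R0 M)
    (hn : 0 < n) {g : Fld n M} {U W : M → ℝ} {c : ℝ} (hg : Met g) (hU : P366M.Smooth U)
    (U0 : ∀ x, 0 < U x) (hW : P366M.Smooth W) (hc : 0 < c) (h : Coe g U W c) :
    ∃ u, P366M.Smooth u ∧ ∀ x, 0 < u x ∧ wl g U u x = U x ^ 2 * (W x * u x - 1) := by
  have hf : Flat g (R0 M + 1) := ⟨le_rfl, fun x hx => absurd (hb x) (by linarith)⟩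
  have bd : ∀ {f : M → ℝ}, P366M.Smooth f → ∃ K, 0 < K ∧ ∀ y, |f y| ≤ K ∧ ‖fd f y‖ ≤ K :=
    fun hf => bdd_of_const hf (c := 0) fun y hy => absurd (hb y) hy.not_gt
  have bl : ∀ {f : M → ℝ}, P366M.Smooth f → ∃ K, BL K f :=
    fun hf => bl_of_const hf (c := 0) fun y hy => absurd (hb y) hy.not_gt
  have lo : ∀ {f : M → ℝ}, P366M.Smooth f → (∀ x, 0 < f x) → ∃ m > (0 : ℝ), ∀ x, m ≤ f x :=
    fun hf h0 =>
      let ⟨m, m0, hm⟩ := isCompact_univ.exists_forall_le' hf.cont.continuousOn fun x _ => h0 x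
      ⟨m, m0, fun x => hm x (mem_univ x)⟩
  obtain ⟨a, a0, ha⟩ := lo hU U0
  obtain ⟨A, A0, hA⟩ := bd hU
  have wt : Wt g U := by
    obtain ⟨A', A1, hA'⟩ := bd (CD.div (hg.sm_lap hU) hU fun x => (U0 x).ne')
    exact ⟨hU, a, a0, A + A', fun x => ⟨ha x, by linarith [le_abs_self (U x), (hA x).1],
      by linarith [(hA x).2], by linarith [(hA' x).1], by linarith [(hA' x).2]⟩⟩
  let P : ℝ → Prop := fun t => ∃ u, P366M.Smooth u ∧ ∀ x, 0 < u x ∧
    wl g U u x ≤ U x ^ 2 * ((W x + t) * u x)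
  have solve : ∀ t, P t → ∀ ε > (0 : ℝ), ∃ u, P366M.Smooth u ∧ ∀ x, 0 < u x ∧
      wl g U u x = U x ^ 2 * ((W x + (t + ε)) * u x - 1) := fun t ⟨w, w1, w2⟩ ε ε0 => by
    obtain ⟨m, m0, hm⟩ := lo w1 fun x => (w2 x).1
    have s1 : P366M.Smooth fun x => W x + (t + ε) := CD.add hW cd_const
    have s2 : P366M.Smooth fun x => (ε * m)⁻¹ * w x := CD.mul cd_const w1
    have p : 0 < (ε * m)⁻¹ := by positivity
    obtain ⟨u, u1, -, u2, u3⟩ := hS n M g _ U _ (fun _ => -1) (fun _ => 0) _ hn hg hf wt s1 (bl s1)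
      cd_const ⟨_, bl_const _⟩ cd_const s2.two ⟨0, by simp⟩ (bl s2)
      (fun x => (mul_pos p (w2 x).1).le) (fun x => by rw [wl_const]; nlinarith [sq_nonneg (U x)])
      fun x => by
        have k1 := mul_le_mul_of_nonneg_left (hm x) (mul_pos p ε0).le
        rw [mul_assoc, inv_mul_cancel₀ (by positivity)] at k1
        rw [wl_const_mul]
        linarith [mul_le_mul_of_nonneg_left (w2 x).2 p.le,
          mul_le_mul_of_nonneg_left k1 (sq_nonneg (U x))]
    refine ⟨u, u1, fun x => ⟨(u2 x).1.lt_of_ne fun k => ?_, u3 x⟩⟩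
    have := hg.wl_nonneg hU (u1.c2 x) (.of_forall fun y => k ▸ (u2 y).1)
    rw [u3, ← k] at this
    nlinarith [pow_pos (U0 x) 2]
  obtain ⟨B, B0, hB⟩ := bd hW
  obtain ⟨D, hD⟩ := wt.grad hn hg hf
  obtain ⟨C', C1, hC'⟩ := bl_of_fd M
  obtain ⟨N, hN⟩ : ∃ N, N = 1 + |D| * (1 + A ^ 2 * (2 * B + 2)) := ⟨_, rfl⟩
  have N1 : 1 ≤ N := hN ▸ le_add_of_nonneg_right (by positivity)
  obtain ⟨v, v0, hv⟩ := vol_ball hg (r := 1 / (2 * (C' * N))) (by positivity)
  have := hg.locFin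
  have it : ∀ {f : M → ℝ}, Continuous f → Integrable f (vol g) := fun hf =>
    hg.integrable_supp hf (.of_compactSpace _)
  have cU := hU.cont.pow 2
  obtain ⟨Q, hQ⟩ : ∃ Q, Q = ∫ x, U x ^ 2 ∂vol g := ⟨_, rfl⟩
  have Q0 : 0 ≤ Q := hQ ▸ integral_nonneg fun _ => sq_nonneg _
  obtain ⟨C₀, hC₀⟩ : ∃ C₀, C₀ = 1 + 4 * Q / (c ^ 2 * (a ^ 2 * v)) := ⟨_, rfl⟩
  have C2 : 1 ≤ C₀ := hC₀ ▸ le_add_of_nonneg_right (by positivity)
  have bound : ∀ t, 0 ≤ t → t ≤ B + 1 → ∀ u, P366M.Smooth u → (∀ x, 0 < u x ∧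
      wl g U u x = U x ^ 2 * ((W x + t) * u x - 1)) → ∀ x, u x ≤ C₀ := fun t t0 t1 u u1 u2 => by
    obtain ⟨x, -, hx⟩ := isCompact_univ.exists_isMaxOn univ_nonempty u1.cont.continuousOn
    have mx : ∀ y, |u y| ≤ u x := fun y => (abs_of_pos (u2 y).1).trans_le (hx (mem_univ y))
    refine fun y => ((le_abs_self _).trans (mx y)).trans (not_lt.1 fun k => ?_)
    have m1 : 1 ≤ u x := C2.trans k.le
    have i1 : Integrable (fun x => U x ^ 2 * u x ^ 2) (vol g) := it (cU.mul (u1.cont.pow 2))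
    have l2 := hQ ▸ h.l2 hg hU hW hc t0 u1 fun x => (u2 x).2
    have gd := (hC' ℝ u (N * u x) fun y => ⟨u1.diff y, (mx y).trans (le_mul_of_one_le_left
      (by linarith) N1), (hD 1 (u x) (A ^ 2 * (2 * B + 2) * u x) y u one_pos le_rfl fun z _ =>
        ⟨u1.c2 z, mx z, by
          rw [(u2 z).2, abs_mul, mul_assoc, abs_pow]
          refine mul_le_mul (pow_le_pow_left₀ (abs_nonneg _) (hA z).1 2) ((abs_sub _ _).trans ?_)
            (abs_nonneg _) (by positivity)
          rw [abs_mul, abs_one]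
          linarith [mul_le_mul (show |W z + t| ≤ 2 * B + 1 by
            linarith [abs_add_le (W z) t, (hB z).1, abs_of_nonneg t0]) (mx z) (abs_nonneg _)
            (by positivity)]⟩).trans (by
        have := mul_le_mul_of_nonneg_right (le_abs_self D)
          (show 0 ≤ u x / 1 + 1 * (A ^ 2 * (2 * B + 2) * u x) by positivity)
        rw [hN]
        linarith)⟩).2
    have k1 := (setIntegral_ge_of_const_le_real (c := a ^ 2 * (u x / 2) ^ 2)
      (s := ball x (1 / (2 * (C' * N)))) measurableSet_ball (measure_ne_top _ _) (fun z hz => by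
        have k1 := (gd z x).trans (mul_le_mul_of_nonneg_left (mem_ball.1 hz).le (by positivity))
        rw [show C' * (N * u x) * (1 / (2 * (C' * N))) = u x / 2 by field_simp] at k1
        exact mul_le_mul (pow_le_pow_left₀ a0.le (ha z) 2) (pow_le_pow_left₀ (by positivity)
          (by linarith [(abs_le.1 k1).1]) 2) (by positivity) (by positivity))
      i1.integrableOn).trans (setIntegral_le_integral i1 (.of_forall fun z => by positivity))
    have k2 := mul_le_mul_of_nonneg_left ((mul_le_mul_of_nonneg_left (hv x) (by positivity)).trans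
      k1) (sq_nonneg c)
    have k3 : 4 * Q / (c ^ 2 * (a ^ 2 * v)) < u x ^ 2 := by nlinarith
    rw [div_lt_iff₀ (by positivity)] at k3
    linarith
  obtain ⟨τ, hτ⟩ : ∃ τ, τ = 1 / (2 * C₀) := ⟨_, rfl⟩
  have τ0 : 0 < τ := by rw [hτ]; positivity
  have τ1 : τ * (2 * C₀) = 1 := by rw [hτ]; field_simp
  have mono : ∀ t t', t ≤ t' → P t → P t' := fun t t' e ⟨u, u1, u2⟩ => ⟨u, u1, fun x =>
    ⟨(u2 x).1, (u2 x).2.trans (by have := (u2 x).1; gcongr)⟩⟩
  have ind : ∀ j : ℕ, P (B - j * τ) ∨ P (-τ) := fun j => by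
    induction j with
    | zero => exact .inl ⟨fun _ => 1, cd_const, fun x => ⟨one_pos, by
        rw [wl_const]
        exact mul_nonneg (sq_nonneg _) (by simpa using by linarith [(abs_le.1 (hB x).1).1])⟩⟩
    | succ j ih =>
      refine ih.elim (fun k => ?_) .inr
      rcases le_total (B - j * τ) (-τ) with k1 | k1
      · exact .inr (mono _ _ k1 k)
      obtain ⟨u, u1, u2⟩ := solve _ k τ τ0
      have := bound _ (by linarith) (by nlinarith [mul_nonneg j.cast_nonneg τ0.le]) u u1 u2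
      refine .inl ⟨u, u1, fun x => ⟨(u2 x).1, (u2 x).2.trans_le (mul_le_mul_of_nonneg_left ?_
        (sq_nonneg _))⟩⟩
      push_cast
      linarith [mul_le_mul_of_nonneg_left (this x) τ0.le]
  obtain ⟨j, hj⟩ := exists_nat_ge ((B + τ) / τ)
  rw [div_le_iff₀ τ0] at hj
  simpa only [neg_add_cancel, add_zero] using
    solve _ ((ind j).elim (mono _ _ (by linarith)) id) τ τ0

/-- **a positive solution** -/
theorem pos (hS : SUBS) {X : Type} [Mf0 n X] [CompactSpace X] (hn : 0 < n) {g : Fld n X}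
    {U W : X → ℝ} {c : ℝ} (hg : Met g) (hU : P366M.Smooth U) (U0 : ∀ x, 0 < U x)
    (hW : P366M.Smooth W) (hc : 0 < c) (h : Coe g U W c) :
    ∃ u, P366M.Smooth u ∧ ∀ x, 0 < u x ∧ wl g U u x = U x ^ 2 * (W x * u x - 1) := by
  obtain ⟨M, _, φ, h1, h2, h3⟩ := exists_mfs_cpt X
  have := φ.compactSpace
  have hg' : Met (pull φ.symm g) := hg.pull h3 fun x => inj_of_left (B := jm φ (φ.symm x)) (by
    rw [← jm_comp (h2 _) (h3 x)]
    simpa only [φ.apply_symm_apply] using jm_id x)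
  have iso : ∀ x, IsoM φ.symm g (pull φ.symm g) x := fun x => ⟨.of_forall h3, hg, hg', .rfl⟩
  have e : ∀ f : X → ℝ, ∫ x, f x ∂vol g = ∫ x, f (φ.symm x) ∂vol (pull φ.symm g) := fun f => by
    simpa only [image_univ, φ.symm.surjective.range_eq, Measure.restrict_univ] using
      integral_iso MeasurableSet.univ (fun x _ => iso x) φ.symm.injective.injOn f
  obtain ⟨u, u1, u2⟩ := pos_mfs hS h1 hn hg' (smooth_comp h3 hU) (fun _ => U0 _)
    (smooth_comp h3 hW) hc fun ζ hζ => by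
      have s := smooth_comp h2 hζ
      have := h _ s
      rw [e, e] at this
      simpa only [φ.apply_symm_apply, fun x => ((iso x).ip (w := ζ) (w' := ζ) (s.diff _) (s.diff _)
        (.of_forall fun _ => by simp) (.of_forall fun _ => by simp)).symm] using this
  refine ⟨_, smooth_comp h2 u1, fun x => ⟨(u2 _).1, ?_⟩⟩
  have := (iso (φ x)).wl_eq (u' := u) (hU.diff _) ((smooth_comp h2 u1).c2 _) .rfl
    (.of_forall fun _ => by simp)
  rw [(u2 _).2, φ.symm_apply_apply] at this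
  exact this.symm

end Vale.Agent.P366D
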