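import Vale.Agent.P366M.Defs

/-!
# P366D: the frame of the descent; definitions and statements
-/

open MeasureTheory Metric Filter Topology Set
open scoped ContDiff ENNReal
open Vale.Agent.P366 Vale.Agent.P366.Stmt Vale.Agent.P366M

noncomputable section

namespace Vale.Agent.P366D

/-! ### Euclidean spaces -/

section Euc

variable {k n : ℕ}

/-- the pull-back of a covariant tensor by a map of Euclidean spaces -/
def pb (φ : E k → E n) (G : Field n) : Field k := fun y i j =>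
  ∑ a, ∑ b, jac φ y a i * jac φ y b j * G (φ y) a b

/-- the weighted scalar curvature; the weight of the volume is `exp f` -/
def RfE (g : Field n) (f : E n → ℝ) (x : E n) : ℝ :=
  Stmt.scal g x - 2 * P366Z.lap g f x - P366Z.ip g f f x

/-- the mean curvature vector of the immersion `φ` -/
def tens (G : Field n) (φ : E k → E n) (a : Fin n) (y : E k) : ℝ :=
  P366Z.lap (pb φ G) (fun z => φ z a) y + ∑ i, ∑ j, Stmt.up (pb φ G) i j y *
    ∑ b, ∑ c, jac φ y b i * jac φ y c j * Stmt.chr G a b c (φ y)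

/-- the point with the last coordinate `s` and the other coordinates `y` -/
def snc (y : E k) (s : ℝ) : E (k + 1) := WithLp.toLp 2 (Fin.snoc (α := fun _ => ℝ) y s)

/-- the first coordinates -/
def ini (x : E (k + 1)) : E k := WithLp.toLp 2 fun i => x i.castSucc

/-- the lattice points -/
def lat (z : Fin k → ℤ) : E k := WithLp.toLp 2 fun i => (z i : ℝ)

/-- the points whose distance to the lattice is larger than `η` -/
def Uo (k : ℕ) (η : ℝ) : Set (E k) := {y | ∀ z : Fin k → ℤ, η < ‖y - lat z‖}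

/-- the derivatives of order at most `1 / η` are at most `η` on `Uo k η` -/
def Sml (η : ℝ) (u : E k → ℝ) : Prop :=
  ∀ m : ℕ, m * η ≤ 1 → ∀ y ∈ Uo k η, ‖iteratedFDeriv ℝ m u y‖ ≤ η

/-- the compact parts of `A` have finite covers by small balls with small `d`-dimensional sums -/
def Null (d : ℝ) (A : Set (E n)) : Prop := ∀ K : Set (E n), IsCompact K → ∀ δ > (0 : ℝ),
  ∃ s : Finset (E n × ℝ), (∀ p ∈ s, 0 < p.2 ∧ p.2 ≤ δ) ∧ A ∩ K ⊆ ⋃ p ∈ s, ball p.1 p.2 ∧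
    ∑ p ∈ s, p.2 ^ d ≤ δ

end Euc

/-! ### manifolds -/

section Mf

variable {k n : ℕ} {M : Type} [Mf0 n M]

/-- the pull-back of a covariant tensor by a map from a Euclidean space;
`rep e T = pl e.symm T` -/
def pl (Y : E k → M) (T : Fld n M) : Field k := fun y i j =>
  ∑ a, ∑ b, jac (fun z => ch (Y y) (Y z)) y a i * jac (fun z => ch (Y y) (Y z)) y b j * T (Y y) a b

/-- the map `Y` from a Euclidean space is smooth at `y` -/
structure SmP (Y : E k → M) (y : E k) : Prop where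
  ct : ContinuousAt Y y
  sm : ContDiffAt ℝ ∞ (fun z => ch (Y y) (Y z)) y

variable {Z : Type} [Mf0 k Z]

/-- the map `Φ` of manifolds is smooth at `x` -/
def SmM (Φ : Z → M) (x : Z) : Prop := SmP (loc (ch x) Φ) (pt x)

/-- the pull-back of a covariant tensor -/
def pull (Φ : Z → M) (T : Fld n M) : Fld k Z := fun x => pl (loc (ch x) Φ) T (pt x)

/-- the Jacobian matrix in the preferred charts -/
def jm (Φ : Z → M) (x : Z) : Matrix (Fin n) (Fin k) ℝ :=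
  jac (fun z => ch (Φ x) (Φ ((ch x).symm z))) (pt x)

/-- the weighted scalar curvature; the weight of the volume is `exp f` -/
def Rf (g : Fld n M) (f : M → ℝ) (x : M) : ℝ := scal g x - 2 * lap g f x - ip g f f x

/-- a shield on the open set `O` -/
structure Shd (g : Fld n M) (f : M → ℝ) (O : Set M) (h : M → ℝ) (θ : ℝ) : Prop where
  opn : IsOpen O
  smh : ∀ x ∈ O, CAt ∞ h x
  h0 : ∀ x ∈ O, 0 ≤ h x
  cls : ∀ c, IsClosed {x | x ∈ O ∧ h x ≤ c}
  pos : ∀ x ∈ O, 0 < Rf g f x + h x ^ 2 - 2 * gn g h x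
  big : ∃ h₁, ∀ x ∈ O, h₁ ≤ h x → gn g h x ≤ θ * h x ^ 2

/-- a periodic chart on `Uo n η` -/
structure Per (Y : E n → M) (η : ℝ) : Prop where
  per : ∀ y z, Y (y + lat z) = Y y
  inj : ∀ y ∈ Uo n η, ∀ y' ∈ Uo n η, Y y = Y y' → ∃ z, y' = y + lat z
  cht : ∀ y r, r ≤ 1 / 4 → ball y (2 * r) ⊆ Uo n η → ∃ e ∈ At M, ∀ y' ∈ ball y r, e.symm y' = Y y'

/-- the metric and the weight are close to the flat ones in the periodic chart -/
structure Nr (g : Fld n M) (f : M → ℝ) (Y : E n → M) (η : ℝ) : Prop where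
  met : Met g
  smf : P366M.Smooth f
  per : Per Y η
  gs : ∀ i j, Sml η fun y => pl Y g y i j - if i = j then 1 else 0
  fs : Sml η fun y => f (Y y)

/-- the data of the descent: `η` is the distance to the flat torus -/
structure Dat (g : Fld n M) (f : M → ℝ) (O : Set M) (h : M → ℝ) (Y : E n → M) (η θ : ℝ) :
    Prop where
  nr : Nr g f Y η
  shd : Shd g f O h θ
  out : ∀ y ∈ Uo n η, Y y ∈ O ∧ h (Y y) = 0

/-- the stability inequality, in the form of Schoen and Yau, on the open set `O` -/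
def Stb (g : Fld n M) (f : M → ℝ) (O : Set M) (v : ℝ) : Prop :=
  ∀ ζ : M → ℝ, P366M.Smooth ζ → HasCompactSupport ζ → tsupport ζ ⊆ O →
    0 ≤ ∫ x, Real.exp (f x) * (2 * ip g ζ ζ x + (Rf g f x - v) * ζ x ^ 2) ∂vol g

/-- `ι` is a smooth embedding onto `B` -/
structure Sub (ι : Z → M) (B : Set M) : Prop where
  emb : IsEmbedding ι
  rng : range ι = B
  sm : ∀ z, SmM ι z
  ext : ∀ z, ∃ G : E n → E k, ContDiffAt ℝ ∞ G (pt (ι z)) ∧
    ∀ᶠ z' in 𝓝 z, ch z z' = G (ch (ι z) (ι z'))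

/-- the mean curvature of `ι` is at most `Λ` -/
def Mc (g : Fld n M) (ι : Z → M) (Λ : ℝ) : Prop := ∀ Q : M → ℝ, P366M.Smooth Q → ∀ z,
  |lap (pull ι g) (fun z => Q (ι z)) z - tr (pull ι g) (pull ι (hess g Q)) z| ≤ Λ * gn g Q (ι z)

end Mf

/-- there are data in dimension `n` arbitrarily close to the flat torus -/
def Lev (n : ℕ) (θ : ℝ) : Prop := ∀ η > (0 : ℝ), ∃ (X : Type) (_ : Mf n X) (_ : CompactSpace X)
  (g : Fld n X) (f : X → ℝ) (O : Set X) (h : X → ℝ) (Y : E n → X), Dat g f O h Y η θ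

section Hyp

variable {k : ℕ} {X : Type} [Mf0 (k + 1) X]

/-- near the point `e.symm (φ y₀)` the set `A` is parametrised by `φ` in the chart `e` -/
structure Par (A : Set X) (e : Ch (k + 1) X) (φ : E k → E (k + 1)) (π : E (k + 1) →L[ℝ] E k)
    (y₀ : E k) : Prop where
  mem : e ∈ At X
  sm : ContDiff ℝ ∞ φ
  inv : ∀ y, π (φ y) = y
  loc : ∀ᶠ x in 𝓝 (φ y₀), e.symm x ∈ A ↔ x = φ (π x)

/-- the limit hypersurface `A` with the singular set `S` and the regular part `ι : Z → X` -/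
structure Lim {Z : Type} [Mf0 k Z] (g : Fld (k + 1) X) (f : X → ℝ) (A S : Set X) (ι : Z → X)
    (v Λ : ℝ) : Prop where
  cA : IsCompact A
  cS : IsClosed S
  nul : ∀ e ∈ At X, Null ((k : ℝ) - 15 / 4) (e.symm ⁻¹' S)
  sub : Sub ι (A \ S)
  mc : Mc g ι Λ
  v0 : 0 < v
  stb : Stb (pull ι g) (fun z => f (ι z)) univ v

/-- over `Uo k η'` the set `A` is the graph of the periodic function `w` in the chart `Y`, and the
induced data are close to the flat ones -/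
structure Flt (g : Fld (k + 1) X) (f : X → ℝ) (Y : E (k + 1) → X) (η : ℝ) (A S : Set X)
    (w : E k → ℝ) (η' : ℝ) : Prop where
  per : ∀ y z, w (y + lat z) = w y
  sm : ∀ y ∈ Uo k η', ContDiffAt ℝ ∞ w y
  mem : ∀ y ∈ Uo k η', snc y (w y) ∈ Uo (k + 1) η ∧ Y (snc y (w y)) ∉ S
  gr : ∀ y ∈ Uo k η', ∀ᶠ x in 𝓝 (snc y (w y)), Y x ∈ A ↔ x = snc (ini x) (w (ini x))
  gs : ∀ i j, Sml η' fun y => pl (fun z => Y (snc z (w z))) g y i j - if i = j then 1 else 0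
  fs : Sml η' fun y => f (Y (snc y (w y)))

end Hyp

/-! ### the statements -/

/-- **PARM**: a set with local parametrisations is a manifold -/
def PARM : Prop := ∀ (k : ℕ) (X : Type) [Mf0 (k + 1) X] (B : Set X), B.Nonempty →
  (∀ p ∈ B, ∃ e φ π y₀, Par B e φ π y₀ ∧ e.symm (φ y₀) = p) →
  ∃ (Z : Type) (_ : Mf0 k Z) (ι : Z → X), Sub ι B ∧ ∀ e φ π y₀, Par B e φ π y₀ →
    ∃ c ∈ At Z, ∀ᶠ y in 𝓝 y₀, ι (c.symm y) = e.symm (φ y)

/-- **ANA**: the analytic part of the step of the descent -/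
def ANA : Prop := ∀ k : ℕ, 2 ≤ k → ∃ θ > (0 : ℝ), ∀ η' > (0 : ℝ), ∃ η > (0 : ℝ),
  ∀ (X : Type) [Mf (k + 1) X] [CompactSpace X] (g : Fld (k + 1) X) (f : X → ℝ) (O : Set X)
    (h : X → ℝ) (Y : E (k + 1) → X), Dat g f O h Y η θ →
    ∃ (A S : Set X) (Z : Type) (_ : Mf0 k Z) (ι : Z → X) (v Λ : ℝ) (w : E k → ℝ),
      Lim g f A S ι v Λ ∧ Flt g f Y η A S w η'

/-- **ANA1**: the analytic part of the last step -/
def ANA1 : Prop := ∃ θ > (0 : ℝ), ∃ η > (0 : ℝ), ∀ (X : Type) [Mf (1 + 1) X] [CompactSpace X]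
  (g : Fld (1 + 1) X) (f : X → ℝ) (O : Set X) (h : X → ℝ) (Y : E (1 + 1) → X),
  Dat g f O h Y η θ → ∃ (A S : Set X) (Z : Type) (_ : Mf0 1 Z) (ι : Z → X) (v Λ : ℝ),
    Lim g f A S ι v Λ

/-- **LBAR**: the new part of the weight -/
def LBAR : Prop := ∀ k : ℕ, 2 ≤ k → ∀ η' > (0 : ℝ), ∃ η > (0 : ℝ), η ≤ η' ∧
  ∀ (X : Type) [Mf k X] [CompactSpace X] (g : Fld k X) (f : X → ℝ) (Y : E k → X) (O K : Set X)
    (v : ℝ), Nr g f Y η → IsOpen O → IsCompact K → K ⊆ O → (∀ y ∈ Uo k η, Y y ∈ K) → 0 < v →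
    v ≤ η → Stb g f O v → ∃ l : X → ℝ, P366M.Smooth l ∧
      (∀ x ∈ K, v / 2 ≤ Rf g (fun x => f x + l x) x - ip g l l x) ∧ Sml η' fun y => l (Y y)

/-- **CLOSE**: the limit hypersurface gives data of the next level -/
def CLOSE : Prop := ∀ k : ℕ, 2 ≤ k → ∀ θ > (0 : ℝ), ∀ η'' > (0 : ℝ), ∃ η' > (0 : ℝ),
  ∀ (X : Type) [Mf (k + 1) X] [CompactSpace X] (g : Fld (k + 1) X) (f : X → ℝ)
    (Y : E (k + 1) → X) (η : ℝ) (A S : Set X) (Z : Type) [Mf0 k Z] (ι : Z → X) (v Λ : ℝ)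
    (w : E k → ℝ), Nr g f Y η → Lim g f A S ι v Λ → Flt g f Y η A S w η' →
    ∃ (X' : Type) (_ : Mf k X') (_ : CompactSpace X') (g' : Fld k X') (f' : X' → ℝ) (O : Set X')
      (h : X' → ℝ) (Y' : E k → X'), Dat g' f' O h Y' η'' θ

/-- **BASE**: the end of the descent -/
def BASE : Prop := ∀ (X : Type) [Mf0 (1 + 1) X] (g : Fld (1 + 1) X) (f : X → ℝ) (A S : Set X)
  (Z : Type) [Mf0 1 Z] (ι : Z → X) (v Λ : ℝ), Met g → P366M.Smooth f → ¬Lim g f A S ι v Λ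

/-- **TOR**: there are no data close to the flat torus -/
def TOR : Prop := ∀ n : ℕ, 2 ≤ n → ∃ θ > (0 : ℝ), ¬Lev n θ

/-- the hypotheses of the positive mass theorem: the metric is `cf v g₀` -/
structure Pm {n : ℕ} {M : Type} [Mfe n M] (g₀ : Fld n M) (v f : M → ℝ) (O : Set M) (h : M → ℝ)
    (ρ a β θ : ℝ) : Prop where
  met : Met g₀
  flat : Flat g₀ ρ
  smv : P366M.Smooth v
  v0 : ∀ x, 0 < v x
  a0 : 0 < a
  asy : Asy v a β
  smf : P366M.Smooth f
  shd : Shd (cf v g₀) f O h θ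
  out : ∀ x, ρ ≤ ‖px x‖ → x ∈ O ∧ h x = 0 ∧ f x = 0

/-- **LOHK**: negative mass gives data close to the flat torus -/
def LOHK : Prop := ∀ (n : ℕ) (M : Type) [Mfe n M] (g₀ : Fld n M) (v f : M → ℝ) (O : Set M)
  (h : M → ℝ) (ρ a β θ : ℝ), 3 ≤ n → Pm g₀ v f O h ρ a β θ → β < 0 → Lev n θ

/-- **PMTI**: the positive mass theorem with a shield -/
def PMTI : Prop := ∀ n : ℕ, 3 ≤ n → ∃ θ > (0 : ℝ), ∀ (M : Type) [Mfe n M] (g₀ : Fld n M)
  (v f : M → ℝ) (O : Set M) (h : M → ℝ) (ρ a β : ℝ), Pm g₀ v f O h ρ a β θ → 0 ≤ β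

/-- the descent -/
theorem tor_of (h₁ : ANA) (h₂ : ANA1) (h₃ : CLOSE) (h₄ : BASE) : TOR := by
  intro n hn
  induction n, hn using Nat.le_induction with
  | base =>
    obtain ⟨θ, θ0, η, η0, h⟩ := h₂
    refine ⟨θ, θ0, fun hl => ?_⟩
    obtain ⟨X, _, _, g, f, O, s, Y, d⟩ := hl η η0
    obtain ⟨A, S, Z, _, ι, v, Λ, k⟩ := h X g f O s Y d
    exact h₄ X g f A S Z ι v Λ d.nr.met d.nr.smf k
  | succ k hk ih =>
    obtain ⟨θ', θ0', ih⟩ := ih
    obtain ⟨θ, θ0, h⟩ := h₁ k hk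
    refine ⟨θ, θ0, fun hl => ih fun η'' η0 => ?_⟩
    obtain ⟨η', η1, c⟩ := h₃ k hk θ' θ0' η'' η0
    obtain ⟨η, η2, h⟩ := h η' η1
    obtain ⟨X, _, _, g, f, O, s, Y, d⟩ := hl η η2
    obtain ⟨A, S, Z, _, ι, v, Λ, w, k₁, k₂⟩ := h X g f O s Y d
    exact c X g f Y η A S Z ι v Λ w d.nr k₁ k₂

/-- the positive mass theorem -/
theorem pmti_of (h₁ : TOR) (h₂ : LOHK) : PMTI := fun n hn => by
  obtain ⟨θ, θ0, h⟩ := h₁ n (by omega)
  exact ⟨θ, θ0, fun M _ g₀ v f O s ρ a β p => not_lt.1 fun k => h (h₂ n M g₀ v f O s ρ a β θ hn p k)⟩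

end Vale.Agent.P366D
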