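import Vale.Agent.P366D.Harn
import Vale.Agent.P366D.Defs
import Mathlib.Analysis.Calculus.ContDiff.Bounds

/-!
# P366D: families of functions whose jets at moving points tend to those of constants
-/

open Metric Filter Topology Set
open scoped ContDiff
open Vale.Agent.P366.Stmt Vale.Agent.P366Z Vale.Agent.P366Z.Grad

noncomputable section

namespace Vale.Agent.P366D

variable {P : Type} {n m : ℕ} {F : Filter P} {y : P → E n} {U V : P → E n → ℝ} {c d : ℝ}

theorem oo_le (k : ℕ) : (k : WithTop ℕ∞) ≤ ∞ := by exact_mod_cast le_top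

theorem ev_cd {u : E n → ℝ} {x : E n} (h : ContDiffAt ℝ ∞ u x) (k : ℕ) :
    ∀ᶠ z in 𝓝 x, ContDiffAt ℝ k u z := (h.of_le (oo_le k)).eventually (by simp)

theorem ev_df {u : E n → ℝ} {x : E n} (h : ContDiffAt ℝ ∞ u x) :
    ∀ᶠ z in 𝓝 x, DifferentiableAt ℝ u z := ev_diff (h.of_le (oo_le 2))

/-- the functions are smooth at the points `y p` and their values tend to `c` -/
structure J0 (F : Filter P) (y : P → E n) (U : P → E n → ℝ) (c : ℝ) : Prop where
  sm : ∀ᶠ p in F, ContDiffAt ℝ ∞ (U p) (y p)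
  cv : Tendsto (fun p => U p (y p)) F (𝓝 c)

/-- in addition the derivatives of order at most `m` tend to zero -/
def Jv (F : Filter P) (y : P → E n) : ℕ → (P → E n → ℝ) → ℝ → Prop
  | 0, U, c => J0 F y U c
  | m + 1, U, c => J0 F y U c ∧ ∀ j, Jv F y m (fun p => pd j (U p)) 0

/-- all derivatives tend to zero -/
def Jw (F : Filter P) (y : P → E n) (U : P → E n → ℝ) (c : ℝ) : Prop := ∀ m, Jv F y m U c

theorem J0.congr (h : J0 F y U c) (e : ∀ᶠ p in F, V p =ᶠ[𝓝 (y p)] U p) : J0 F y V c :=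
  ⟨(h.sm.and e).mono fun _ k => k.1.congr_of_eventuallyEq k.2,
    h.cv.congr' (e.mono fun _ k => k.eq_of_nhds.symm)⟩

theorem Jv.j0 : ∀ {m : ℕ}, Jv F y m U c → J0 F y U c
  | 0, h => h
  | _ + 1, h => h.1

theorem Jv.pred : ∀ {m : ℕ} {U : P → E n → ℝ} {c : ℝ}, Jv F y (m + 1) U c → Jv F y m U c
  | 0, _, _, h => h.1
  | _ + 1, _, _, h => ⟨h.1, fun j => (h.2 j).pred⟩

theorem Jv.congr : ∀ {m : ℕ} {U V : P → E n → ℝ} {c : ℝ}, Jv F y m U c →
    (∀ᶠ p in F, V p =ᶠ[𝓝 (y p)] U p) → Jv F y m V c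
  | 0, _, _, _, h, e => J0.congr h e
  | _ + 1, _, _, _, h, e => ⟨h.1.congr e, fun j => (h.2 j).congr (e.mono fun _ k => pd_congr_ev k j)⟩

theorem Jv.mono {F' : Filter P} (hF : F' ≤ F) : ∀ {m : ℕ} {U : P → E n → ℝ} {c : ℝ},
    Jv F y m U c → Jv F' y m U c
  | 0, _, _, h => ⟨h.sm.filter_mono hF, h.cv.mono_left hF⟩
  | _ + 1, _, _, h => ⟨⟨h.1.sm.filter_mono hF, h.1.cv.mono_left hF⟩, fun j => (h.2 j).mono hF⟩

theorem jv_const : ∀ (m : ℕ) {t : P → ℝ} {c : ℝ}, Tendsto t F (𝓝 c) → Jv F y m (fun p _ => t p) c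
  | 0, _, _, h => ⟨.of_forall fun _ => contDiffAt_const, h⟩
  | m + 1, _, _, h => ⟨jv_const 0 h, fun j => (jv_const m tendsto_const_nhds).congr
      (.of_forall fun _ => .of_forall fun z => pd_const _ j z)⟩

theorem Jv.add : ∀ {m : ℕ} {U V : P → E n → ℝ} {c d : ℝ}, Jv F y m U c → Jv F y m V d →
    Jv F y m (fun p z => U p z + V p z) (c + d)
  | 0, _, _, _, _, h, k => ⟨(h.sm.and k.sm).mono fun _ q => q.1.add q.2, h.cv.add k.cv⟩
  | _ + 1, _, _, _, _, h, k => ⟨Jv.add (m := 0) h.1 k.1, fun j => by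
      simpa only [add_zero] using ((h.2 j).add (k.2 j)).congr ((h.1.sm.and k.1.sm).mono fun _ q =>
        ((ev_df q.1).and (ev_df q.2)).mono fun _ r => pd_add r.1 r.2 j)⟩

theorem Jv.mul : ∀ {m : ℕ} {U V : P → E n → ℝ} {c d : ℝ}, Jv F y m U c → Jv F y m V d →
    Jv F y m (fun p z => U p z * V p z) (c * d)
  | 0, _, _, _, _, h, k => ⟨(h.sm.and k.sm).mono fun _ q => q.1.mul q.2, h.cv.mul k.cv⟩
  | _ + 1, _, _, _, _, h, k => ⟨Jv.mul (m := 0) h.1 k.1, fun j => by
      simpa only [add_zero, zero_mul, mul_zero] using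
        (((h.2 j).mul k.pred).add (h.pred.mul (k.2 j))).congr ((h.1.sm.and k.1.sm).mono fun _ q =>
          ((ev_df q.1).and (ev_df q.2)).mono fun _ r => pd_mul r.1 r.2 j)⟩

theorem Jv.comp : ∀ {m : ℕ} {φ : ℝ → ℝ}, Jv F y m U c → (∀ᶠ t in 𝓝 c, ContDiffAt ℝ ∞ φ t) →
    Jv F y m (fun p z => φ (U p z)) (φ c)
  | 0, _, h, k => ⟨(h.sm.and (h.cv.eventually k)).mono fun p q => q.2.comp (y p) q.1,
      k.self_of_nhds.continuousAt.tendsto.comp h.cv⟩
  | _ + 1, φ, h, k => ⟨Jv.comp (m := 0) h.1 k, fun j => by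
      simpa only [mul_zero] using ((Jv.comp (φ := deriv φ) h.pred (k.mono fun _ q =>
        q.derivWithin (by simp))).mul (h.2 j)).congr ((h.1.sm.and (h.1.cv.eventually k)).mono
          fun _ q => ((ev_df q.1).and (q.1.continuousAt.eventually
            ((q.2.of_le (oo_le 1)).eventually (by simp)))).mono fun _ r =>
              pd_comp (r.2.differentiableAt (by simp)).hasDerivAt r.1 j)⟩

theorem Jw.j0 (h : Jw F y U c) : J0 F y U c := h 0

theorem Jw.pd (h : Jw F y U c) (j : Fin n) : Jw F y (fun p => pd j (U p)) 0 :=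
  fun m => (h (m + 1)).2 j

theorem Jw.congr (h : Jw F y U c) (e : ∀ᶠ p in F, V p =ᶠ[𝓝 (y p)] U p) : Jw F y V c :=
  fun m => (h m).congr e

theorem Jw.mono {F' : Filter P} (h : Jw F y U c) (hF : F' ≤ F) : Jw F' y U c :=
  fun m => (h m).mono hF

theorem Jw.of_eq (h : Jw F y U c) (e : c = d) : Jw F y U d := e ▸ h

theorem jw_const {t : P → ℝ} (h : Tendsto t F (𝓝 c)) : Jw F y (fun p _ => t p) c :=
  fun m => jv_const m h

theorem jw_c (c : ℝ) : Jw F y (fun _ _ => c) c := jw_const tendsto_const_nhds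

theorem Jw.add (h : Jw F y U c) (k : Jw F y V d) : Jw F y (fun p z => U p z + V p z) (c + d) :=
  fun m => (h m).add (k m)

theorem Jw.mul (h : Jw F y U c) (k : Jw F y V d) : Jw F y (fun p z => U p z * V p z) (c * d) :=
  fun m => (h m).mul (k m)

theorem Jw.sub (h : Jw F y U c) (k : Jw F y V d) : Jw F y (fun p z => U p z - V p z) (c - d) := by
  simpa only [neg_mul, one_mul, ← sub_eq_add_neg] using h.add ((jw_c (-1)).mul k)

theorem Jw.comp {φ : ℝ → ℝ} (h : Jw F y U c) (k : ∀ᶠ t in 𝓝 c, ContDiffAt ℝ ∞ φ t) :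
    Jw F y (fun p z => φ (U p z)) (φ c) := fun m => (h m).comp k

theorem Jw.inv (h : Jw F y U c) (h0 : c ≠ 0) : Jw F y (fun p z => (U p z)⁻¹) c⁻¹ :=
  h.comp ((eventually_ne_nhds h0).mono fun _ k => contDiffAt_inv ℝ k)

theorem Jw.div (h : Jw F y U c) (k : Jw F y V d) (h0 : d ≠ 0) :
    Jw F y (fun p z => U p z / V p z) (c / d) := by
  simpa only [div_eq_mul_inv] using h.mul (k.inv h0)

theorem jw_sum {κ : Type} (s : Finset κ) {W : κ → P → E n → ℝ} {t : κ → ℝ}
    (h : ∀ k, Jw F y (W k) (t k)) : Jw F y (fun p z => ∑ k ∈ s, W k p z) (∑ k ∈ s, t k) := by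
  classical
  induction s using Finset.induction_on with
  | empty => simpa using jw_c 0
  | insert k s hk ih => simpa only [Finset.sum_insert hk] using (h k).add ih

theorem jw_sum0 {κ : Type} (s : Finset κ) {W : κ → P → E n → ℝ} (h : ∀ k, Jw F y (W k) 0) :
    Jw F y (fun p z => ∑ k ∈ s, W k p z) 0 := (jw_sum s h).of_eq Finset.sum_const_zero

theorem jw_prod {κ : Type} (s : Finset κ) {W : κ → P → E n → ℝ} {t : κ → ℝ}
    (h : ∀ k, Jw F y (W k) (t k)) : Jw F y (fun p z => ∏ k ∈ s, W k p z) (∏ k ∈ s, t k) := by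
  classical
  induction s using Finset.induction_on with
  | empty => simpa using jw_c 1
  | insert k s hk ih => simpa only [Finset.prod_insert hk] using (h k).mul ih

theorem Jw.mul0 (h : Jw F y U c) (k : Jw F y V 0) : Jw F y (fun p z => U p z * V p z) 0 :=
  (h.mul k).of_eq (mul_zero c)

theorem Jw.add0 (h : Jw F y U 0) (k : Jw F y V 0) : Jw F y (fun p z => U p z + V p z) 0 :=
  (h.add k).of_eq (add_zero 0)

theorem Jw.sub0 (h : Jw F y U 0) (k : Jw F y V 0) : Jw F y (fun p z => U p z - V p z) 0 :=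
  (h.sub k).of_eq (sub_zero 0)

theorem jw_det {k : ℕ} {A : P → E n → Matrix (Fin k) (Fin k) ℝ} {B : Matrix (Fin k) (Fin k) ℝ}
    (h : ∀ b c, Jw F y (fun p z => A p z b c) (B b c)) : Jw F y (fun p z => (A p z).det) B.det := by
  simp only [Matrix.det_apply']
  exact jw_sum _ fun σ => (jw_c _).mul (jw_prod _ fun b => h _ _)

theorem jw_inv {k : ℕ} {A : P → E n → Matrix (Fin k) (Fin k) ℝ} {B : Matrix (Fin k) (Fin k) ℝ}
    (h : ∀ b c, Jw F y (fun p z => A p z b c) (B b c)) (h0 : B.det ≠ 0) (b c : Fin k) :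
    Jw F y (fun p z => (A p z)⁻¹ b c) (B⁻¹ b c) := by
  simp only [Matrix.inv_def, Ring.inverse_eq_inv', Matrix.smul_apply, smul_eq_mul,
    Matrix.adjugate_apply]
  refine ((jw_det h).inv h0).mul (jw_det fun d e => ?_)
  simp only [Matrix.updateRow_apply]
  split_ifs
  · exact jw_c _
  · exact h d e

/-- metrics which tend to the flat one -/
def JT (F : Filter P) (y : P → E n) (G : P → Field n) : Prop :=
  ∀ b c, Jw F y (fun p z => G p z b c) ((1 : Matrix (Fin n) (Fin n) ℝ) b c)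

variable {G : P → Field n}

theorem JT.up (h : JT F y G) : JT F y fun p z b c => up (G p) b c z := fun b c =>
  (jw_inv (A := fun p z => mat (G p) z) h (by simp) b c).of_eq (by rw [inv_one])

theorem JT.dens (h : JT F y G) : Jw F y (fun p => dens (G p)) 1 :=
  ((jw_det (A := fun p z => mat (G p) z) h).comp (φ := Real.sqrt)
    ((eventually_ne_nhds (by simp)).mono fun _ k => Real.contDiffAt_sqrt k)).of_eq (by simp)

theorem JT.chr (h : JT F y G) (b c d : Fin n) : Jw F y (fun p => chr (G p) b c d) 0 :=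
  ((jw_sum0 _ fun e => (h.up b e).mul0 ((((h d e).pd c).add0 ((h c e).pd d)).sub0
    ((h c d).pd e))).div (jw_c 2) two_ne_zero).of_eq (zero_div 2)

theorem JT.scal (h : JT F y G) : Jw F y (fun p => scal (G p)) 0 :=
  jw_sum0 _ fun b => jw_sum0 _ fun c => (h.up b c).mul0
    (jw_sum0 _ fun d => (((h.chr d b c).pd d).sub0 ((h.chr d b d).pd c)).add0
      (jw_sum0 _ fun e => ((h.chr d d e).mul0 (h.chr e b c)).sub0
        ((h.chr d c e).mul0 (h.chr e b d))))

theorem JT.gr (h : JT F y G) (hU : Jw F y U c) (b : Fin n) :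
    Jw F y (fun p => gr (G p) (U p) b) 0 := jw_sum0 _ fun c => (h.up b c).mul0 (hU.pd c)

theorem JT.dv (h : JT F y G) {X : P → Fin n → E n → ℝ} {t : Fin n → ℝ}
    (hX : ∀ b, Jw F y (fun p => X p b) (t b)) : Jw F y (fun p => dv (G p) (X p)) 0 :=
  ((jw_sum0 _ fun b => (h.dens.mul (hX b)).pd b).div h.dens one_ne_zero).of_eq (zero_div 1)

theorem JT.bv (h : JT F y G) (j : Fin n) : Jw F y (fun p => bv (G p) j) 0 := h.dv fun b => h.up b j

theorem JT.RfE (h : JT F y G) (hU : Jw F y U c) : Jw F y (fun p => RfE (G p) (U p)) 0 :=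
  (h.scal.sub0 ((jw_c 2).mul0 (h.dv (h.gr hU)))).sub0
    (jw_sum0 _ fun b => jw_sum0 _ fun c => ((h.up b c).mul0 (hU.pd b)).mul0 (hU.pd c))

/-! ### iterated derivatives -/

theorem jw_of_iter (hs : ∀ᶠ p in F, ContDiffAt ℝ ∞ (U p) (y p))
    (h : ∀ j, Tendsto (fun p => ‖iteratedFDeriv ℝ j (U p) (y p)‖) F (𝓝 0)) : Jw F y U 0 := by
  intro m
  have h0 : ∀ {U : P → E n → ℝ}, (∀ᶠ p in F, ContDiffAt ℝ ∞ (U p) (y p)) →
      Tendsto (fun p => ‖iteratedFDeriv ℝ 0 (U p) (y p)‖) F (𝓝 0) → J0 F y U 0 := fun hs h =>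
    ⟨hs, tendsto_zero_iff_norm_tendsto_zero.2 (by simpa only [norm_iteratedFDeriv_zero] using h)⟩
  induction m generalizing U with
  | zero => exact h0 hs (h 0)
  | succ m ih =>
    refine ⟨h0 hs (h 0), fun b => ih (hs.mono fun _ k => contDiffAt_pd k (by simp) b) fun j => ?_⟩
    let L := ContinuousLinearMap.apply ℝ ℝ (EuclideanSpace.single b (1 : ℝ))
    refine squeeze_zero' (.of_forall fun _ => norm_nonneg _) (hs.mono fun p k => ?_)
      (by simpa only [mul_zero] using (h (j + 1)).const_mul ‖L‖)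
    have h1 : pd b (U p) =ᶠ[𝓝 (y p)] L ∘ fderiv ℝ (U p) := (ev_df k).mono fun z hz => pd_eq hz b
    rw [(h1.iteratedFDeriv ℝ j).self_of_nhds, ← norm_iteratedFDeriv_fderiv]
    exact L.norm_iteratedFDeriv_comp_left (k.fderiv_right (m := j) (oo_le (j + 1))) le_rfl

theorem Jv.iter (h : Jv F y m U 0) :
    Tendsto (fun p => ‖iteratedFDeriv ℝ m (U p) (y p)‖) F (𝓝 0) := by
  induction m generalizing U with
  | zero => simpa only [norm_iteratedFDeriv_zero] using tendsto_zero_iff_norm_tendsto_zero.1 h.cv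
  | succ m ih =>
    let L : Fin n → ℝ →L[ℝ] E n →L[ℝ] ℝ := fun j =>
      (ContinuousLinearMap.id ℝ ℝ).smulRight (EuclideanSpace.proj j)
    refine squeeze_zero' (.of_forall fun _ => norm_nonneg _) (h.1.sm.mono fun p k => ?_)
      (by simpa only [mul_zero, Finset.sum_const_zero] using
        tendsto_finsetSum Finset.univ fun j _ => (ih (h.2 j)).const_mul ‖L j‖)
    have h1 : fderiv ℝ (U p) =ᶠ[𝓝 (y p)] fun z => ∑ j, (L j ∘ pd j (U p)) z :=
      (ev_df k).mono fun z hz => ContinuousLinearMap.ext fun v => by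
        simp [L, fderiv_eq_sum hz, mul_comm]
    have h2 : ∀ j, ContDiffAt ℝ m (pd j (U p)) (y p) := fun j => contDiffAt_pd k (oo_le (m + 1)) j
    rw [← norm_iteratedFDeriv_fderiv, (h1.iteratedFDeriv ℝ m).self_of_nhds,
      iteratedFDeriv_fun_sum_apply fun j _ => (L j).contDiff.contDiffAt.comp _ (h2 j)]
    exact norm_sum_le_of_le _ fun j _ => (L j).norm_iteratedFDeriv_comp_left (h2 j) le_rfl

theorem Jw.small (h : Jw F y U c) {ε : ℝ} (hε : 0 < ε) : ∀ᶠ p in F, |U p (y p) - c| < ε :=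
  Metric.tendsto_nhds.1 h.j0.cv ε hε

theorem Jw.fderiv (h : Jw F y U c) {ε : ℝ} (hε : 0 < ε) :
    ∀ᶠ p in F, ‖fderiv ℝ (U p) (y p)‖ < ε := by
  have := ((h.sub (jw_c c)).of_eq (sub_self c) 1).iter.eventually (gt_mem_nhds hε)
  simpa only [norm_iteratedFDeriv_one, fderiv_sub_const] using this

theorem qf_close {A : Fin n → Fin n → ℝ} {ε : ℝ}
    (h : ∀ i j, |A i j - (1 : Matrix (Fin n) (Fin n) ℝ) i j| ≤ ε) (ξ : Fin n → ℝ) :
    (1 - n * ε) * ∑ i, ξ i ^ 2 ≤ qf A ξ ∧ qf A ξ ≤ (1 + n * ε) * ∑ i, ξ i ^ 2 := by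
  have e : qf A ξ = ∑ i, ∑ j, (A i j - (1 : Matrix (Fin n) (Fin n) ℝ) i j) * ξ i * ξ j +
      ∑ i, ξ i ^ 2 := by
    simp [qf, sub_mul, Matrix.one_apply, sq]
  have h1 := quad_le_of_bd h ξ
  have h2 := quad_le_of_bd (M := fun i j => -(A i j - (1 : Matrix (Fin n) (Fin n) ℝ) i j))
    (fun i j => (abs_neg _).trans_le (h i j)) ξ
  simp only [neg_mul, Finset.sum_neg_distrib] at h2
  constructor <;> linarith

theorem JT.close (h : JT F y G) {ε : ℝ} (hε : 0 < ε) :
    ∀ᶠ p in F, ∀ i j, |G p (y p) i j - (1 : Matrix (Fin n) (Fin n) ℝ) i j| ≤ ε :=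
  eventually_all.2 fun i => eventually_all.2 fun j => ((h i j).small hε).mono fun _ k => k.le

theorem JT.gp (h : JT F y G) (sy : ∀ᶠ p in F, ∀ i j, G p (y p) i j = G p (y p) j i) :
    ∀ᶠ p in F, Gp 2 (G p) (y p) := by
  have e0 : (0 : ℝ) < 1 / (2 * (n + 1)) := by positivity
  have e1 : n * (1 / (2 * (n + 1)) : ℝ) ≤ 1 / 2 := by
    rw [mul_one_div, div_le_div_iff₀ (by positivity) two_pos]; linarith
  filter_upwards [sy, h.close e0, h.close one_pos, eventually_all.2 fun i => eventually_all.2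
    fun j => (h i j).j0.sm.and ((h i j).fderiv two_pos)] with p h1 h2 h3 h4
  refine ⟨h1, fun ξ => ?_, fun i j => ?_, fun i j =>
    ⟨(h4 i j).1.differentiableAt (by simp), (h4 i j).2.le⟩⟩
  · nlinarith [(qf_close h2 ξ).1, Finset.sum_nonneg fun i (_ : i ∈ Finset.univ) => sq_nonneg (ξ i)]
  · have := abs_le.1 (h3 i j)
    rw [Matrix.one_apply] at this
    rw [abs_le]
    split_ifs at this <;> constructor <;> linarith [this.1, this.2]

/-! ### linear equations -/

/-- linear expressions in the functions `w` and their first derivatives -/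
inductive Lc (F : Filter P) (y : P → E n) {κ : Type} (w : κ → P → E n → ℝ) :
    (P → E n → ℝ) → Prop
  | z (α : κ) : Lc F y w (w α)
  | d (α : κ) (j : Fin n) : Lc F y w fun p => pd j (w α p)
  | r {U : P → E n → ℝ} : Jw F y U 0 → Lc F y w U
  | add {U V : P → E n → ℝ} : Lc F y w U → Lc F y w V → Lc F y w fun p z => U p z + V p z
  | mul {φ U : P → E n → ℝ} {c : ℝ} : Jw F y φ c → Lc F y w U → Lc F y w fun p z => φ p z * U p z
  | congr {U V : P → E n → ℝ} : Lc F y w U → (∀ᶠ p in F, V p =ᶠ[𝓝 (y p)] U p) → Lc F y w V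

variable {κ : Type} {w : κ → P → E n → ℝ}

theorem lc_sum {ι : Type} (s : Finset ι) {W : ι → P → E n → ℝ} (h : ∀ k, Lc F y w (W k)) :
    Lc F y w fun p z => ∑ k ∈ s, W k p z := by
  classical
  induction s using Finset.induction_on with
  | empty => simpa using Lc.r (jw_c 0)
  | insert k s hk ih => simpa only [Finset.sum_insert hk] using (h k).add ih

theorem Lc.sm (hw : ∀ α, J0 F y (w α) 0) (h : Lc F y w U) :
    ∀ᶠ p in F, ContDiffAt ℝ ∞ (U p) (y p) := by
  induction h with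
  | z α => exact (hw α).sm
  | d α j => exact (hw α).sm.mono fun _ k => contDiffAt_pd k (by simp) j
  | r h => exact h.j0.sm
  | add _ _ h k => exact (h.and k).mono fun _ q => q.1.add q.2
  | mul h _ k => exact (h.j0.sm.and k).mono fun _ q => q.1.mul q.2
  | congr _ e h => exact (h.and e).mono fun _ q => q.1.congr_of_eventuallyEq q.2

theorem Lc.bd [Fintype κ] (hw : ∀ α, J0 F y (w α) 0) (h : Lc F y w U) : ∃ β ≥ (0 : ℝ),
    ∀ ε > (0 : ℝ), ∀ᶠ p in F, |U p (y p)| ≤ ε + β * ∑ γ, ‖fderiv ℝ (w γ p) (y p)‖ := by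
  have h0 : ∀ {U : P → E n → ℝ}, J0 F y U 0 → ∃ β ≥ (0 : ℝ), ∀ ε > (0 : ℝ), ∀ᶠ p in F,
      |U p (y p)| ≤ ε + β * ∑ γ, ‖fderiv ℝ (w γ p) (y p)‖ := fun h => ⟨0, le_rfl, fun ε ε0 =>
    (Metric.tendsto_nhds.1 h.cv ε ε0).mono fun p k => by simpa using k.le⟩
  induction h with
  | z α => exact h0 (hw α)
  | d α j =>
    refine ⟨1, zero_le_one, fun ε ε0 => (hw α).sm.mono fun p k => ?_⟩
    linarith [abs_pd_le (k.differentiableAt (by simp)) j, Finset.single_le_sum
      (f := fun γ => ‖fderiv ℝ (w γ p) (y p)‖) (fun _ _ => norm_nonneg _) (Finset.mem_univ α)]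
  | r h => exact h0 h.j0
  | add _ _ h k =>
    obtain ⟨a, a0, ha⟩ := h
    obtain ⟨b, b0, hb⟩ := k
    exact ⟨a + b, by positivity, fun ε ε0 => ((ha _ (half_pos ε0)).and (hb _ (half_pos ε0))).mono
      fun p q => (abs_add_le _ _).trans (by linarith [q.1, q.2])⟩
  | @mul φ U c h _ k =>
    obtain ⟨b, b0, hb⟩ := k
    refine ⟨(|c| + 1) * b, by positivity, fun ε ε0 => ((h.small one_pos).and
      (hb (ε / (|c| + 1)) (by positivity))).mono fun p q => ?_⟩
    rw [abs_mul]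
    refine (mul_le_mul (show _ ≤ |c| + 1 by linarith [abs_sub_abs_le_abs_sub (φ p (y p)) c, q.1])
      q.2 (abs_nonneg _) (by positivity)).trans_eq ?_
    field_simp
  | congr _ e h =>
    obtain ⟨b, b0, hb⟩ := h
    exact ⟨b, b0, fun ε ε0 => ((hb ε ε0).and e).mono fun p q => q.2.eq_of_nhds ▸ q.1⟩

/-- the functions and their first derivatives -/
def ex1 (w : κ → P → E n → ℝ) : κ ⊕ κ × Fin n → P → E n → ℝ :=
  Sum.elim w fun q p => pd q.2 (w q.1 p)

theorem Lc.lift (hw : ∀ α, J0 F y (w α) 0) (h : Lc F y w U) :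
    Lc F y (ex1 w) U ∧ ∀ j, Lc F y (ex1 w) fun p => pd j (U p) := by
  induction h with
  | z α => exact ⟨.z (w := ex1 w) (.inl α), .d (w := ex1 w) (.inl α)⟩
  | d α j => exact ⟨.d (w := ex1 w) (.inl α) j, .d (w := ex1 w) (.inr (α, j))⟩
  | r h => exact ⟨.r h, fun j => .r (h.pd j)⟩
  | add a b h k => exact ⟨h.1.add k.1, fun j => ((h.2 j).add (k.2 j)).congr
      (((a.sm hw).and (b.sm hw)).mono fun _ q => ((ev_df q.1).and (ev_df q.2)).mono fun _ r =>
        pd_add r.1 r.2 j)⟩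
  | mul a b k => exact ⟨k.1.mul a, fun j => ((k.1.mul (a.pd j)).add ((k.2 j).mul a)).congr
      ((a.j0.sm.and (b.sm hw)).mono fun _ q => ((ev_df q.1).and (ev_df q.2)).mono fun _ r =>
        pd_mul r.1 r.2 j)⟩
  | congr _ e h => exact ⟨h.1.congr e, fun j => (h.2 j).congr (e.mono fun _ k => pd_congr_ev k j)⟩

theorem Lu_pd {a : E n → Fin n → Fin n → ℝ} {u : E n → ℝ} {x : E n} (hu : ContDiffAt ℝ 3 u x)
    (ha : ∀ i j, DifferentiableAt ℝ (fun z => a z i j) x) (k : Fin n) : Lu a (pd k u) x =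
      pd k (Lu a u) x + ∑ i, ∑ j, (0 - pd k (fun z => a z i j) x) * pd i (pd j u) x := by
  have h1 : ∀ j, ContDiffAt ℝ 2 (pd j u) x := fun j => contDiffAt_pd hu (by norm_num) j
  have h2 := fun i j => (ha i j).fun_mul (diffAt_pd (h1 j) i)
  have e : Lu a u = fun z => ∑ i, ∑ j, a z i j * pd i (pd j u) z := rfl
  rw [e, pd_sum _ fun i _ => .fun_sum fun j _ => h2 i j, Lu, pr, ← Finset.sum_add_distrib]
  refine Finset.sum_congr rfl fun i _ => ?_
  rw [pd_sum _ fun j _ => h2 i j, ← Finset.sum_add_distrib]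
  refine Finset.sum_congr rfl fun j _ => ?_
  rw [pd_mul (ha i j) (diffAt_pd (h1 j) i), pd_comm (h1 j) k i, pd_congr (h := pd k (pd j u))
    (((hu.of_le (by norm_num : (2 : WithTop ℕ∞) ≤ 3)).eventually (by simp)).mono fun z hz =>
      pd_comm hz j k)]
  ring

variable {I : Type} {l : Filter I} {Ω : Set (E n)}

/-- the filter of the locally uniform statements on `Ω` -/
def lu (l : Filter I) (Ω : Set (E n)) : Filter (I × E n) :=
  ⨆ K ∈ {K | IsCompact K ∧ K ⊆ Ω}, l ×ˢ 𝓟 K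

theorem ev_lu {Q : I × E n → Prop} : (∀ᶠ p in lu l Ω, Q p) ↔
    ∀ K, IsCompact K → K ⊆ Ω → ∀ᶠ i in l, ∀ z ∈ K, Q (i, z) := by
  simp only [lu, eventually_iSup, eventually_prod_principal_iff, mem_ofPred_eq, and_imp]

/-- **interior estimates for linear systems** -/
theorem lreg (hn : 1 ≤ n) (hΩ : IsOpen Ω) {a : I → E n → Fin n → Fin n → ℝ}
    (ha : JT (lu l Ω) Prod.snd fun p => a p.1)
    (sy : ∀ᶠ p in lu l Ω, ∀ i j, a p.1 p.2 i j = a p.1 p.2 j i) (m : ℕ) :
    ∀ (κ : Type) [Fintype κ] (w : κ → I → E n → ℝ),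
      (∀ α, J0 (lu l Ω) Prod.snd (fun p => w α p.1) 0) →
      (∀ α, Lc (lu l Ω) Prod.snd (fun α p => w α p.1) fun p => Lu (a p.1) (w α p.1)) →
      ∀ α, Jv (lu l Ω) Prod.snd m (fun p => w α p.1) 0 := by
  induction m with
  | zero => exact fun _ _ _ h _ => h
  | succ m ih =>
    intro κ _ w hw hL α
    choose β β0 hβ using fun α => (hL α).bd hw
    obtain ⟨R₀, R0, C, C0, hC⟩ := gsys κ hn one_le_two (β := ∑ α, β α)
      (Finset.sum_nonneg fun α _ => β0 α)
    refine ⟨hw α, fun j => ih (κ ⊕ κ × Fin n) (Sum.elim w fun q i => pd q.2 (w q.1 i)) ?_ ?_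
      (.inr (α, j))⟩
    · rintro (α | ⟨α, j⟩)
      · exact hw α
      refine ⟨(hw α).sm.mono fun _ k => contDiffAt_pd k (by simp) j,
        Metric.tendsto_nhds.2 fun ε ε0 => ev_lu.2 fun K hK hKΩ => ?_⟩
      obtain ⟨δ, δ0, hδ⟩ := hK.exists_cthickening_subset_open hΩ hKΩ
      have r0 := lt_min R0 δ0
      obtain ⟨t, t0, ht⟩ : ∃ t > (0 : ℝ), C * (t + t) < ε := ⟨ε / (2 * C + 1), by positivity, by
        rw [← two_mul, ← mul_assoc, ← mul_div_assoc, div_lt_iff₀ (by positivity)]; nlinarith⟩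
      filter_upwards [ev_lu.1 ((ha.gp sy).and (eventually_all.2 fun α => (hw α).sm.and
        ((Metric.tendsto_nhds.1 (hw α).cv _ (mul_pos t0 r0)).and (hβ α t t0)))) _
        hK.cthickening hδ] with i hi z hz
      have s : closedBall z (min R₀ δ) ⊆ cthickening δ K := (closedBall_subset_closedBall
        (min_le_right _ _)).trans (closedBall_subset_cthickening hz δ)
      have := hC (a i) (fun α => w α i) z _ _ t r0 (min_le_left _ _) (mul_pos t0 r0).le t0.le
        fun x hx => ⟨(hi x (s hx)).1, fun α => ⟨((hi x (s hx)).2 α).1.of_le (oo_le 2),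
          by simpa using ((hi x (s hx)).2 α).2.1.le, ((hi x (s hx)).2 α).2.2.trans (by
            gcongr
            exact Finset.single_le_sum (fun α _ => β0 α) (Finset.mem_univ α))⟩⟩
      rw [mul_div_cancel_right₀ _ r0.ne'] at this
      rw [Real.dist_0_eq_abs]
      exact ((abs_pd_le (((hi z (s (mem_closedBall_self r0.le))).2 α).1.differentiableAt (by simp))
        j).trans ((Finset.single_le_sum (f := fun γ => ‖fderiv ℝ (w γ i) z‖)
          (fun _ _ => norm_nonneg _) (Finset.mem_univ α)).trans this)).trans_lt ht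
    · have e : (fun (α : κ ⊕ κ × Fin n) (p : I × E n) =>
          Sum.elim w (fun q i => pd q.2 (w q.1 i)) α p.1) = ex1 fun α p => w α p.1 := by
        funext α; cases α <;> rfl
      rw [e]
      rintro (α | ⟨α, k⟩)
      · exact ((hL α).lift hw).1
      refine ((((hL α).lift hw).2 k).add (lc_sum Finset.univ fun i => lc_sum Finset.univ fun j =>
        .mul ((jw_c 0).sub ((ha i j).pd k)) (.d (.inr (α, j)) i))).congr ?_
      filter_upwards [(hw α).sm, eventually_all.2 fun i => eventually_all.2 fun j => (ha i j).j0.sm]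
        with p h1 h2
      filter_upwards [ev_cd h1 3, eventually_all.2 fun i => eventually_all.2 fun j => ev_df (h2 i j)]
        with z h3 h4
      exact Lu_pd h3 h4 k

end Vale.Agent.P366D
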