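import Vale.Agent.P366D.Lat

/-!
# P366D: the two halves of LOHK (statements)
-/

open MeasureTheory Metric Filter Topology Set
open scoped ContDiff
open Vale.Agent.P366 Vale.Agent.P366.Stmt Vale.Agent.P366M

noncomputable section

namespace Vale.Agent.P366D

/-- data on a manifold with one end which are periodic far out, with the period `L` -/
structure Lk {n : ℕ} {M : Type} [Mfe n M] (g : Fld n M) (f : M → ℝ) (O : Set M) (h : M → ℝ)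
    (φ : E n → ℝ) (L η θ : ℝ) : Prop where
  met : Met g
  smf : P366M.Smooth f
  R : R0 M + 1 ≤ L * η
  far : ∀ x, L * η ≤ ‖px x‖ → (∀ i j, g x i j = L⁻¹ ^ 2 * eu n x i j) ∧ x ∈ O ∧ h x = 0 ∧
    f x = φ (L⁻¹ • px x)
  per : ∀ y z, φ (y + lat z) = φ y
  sml : Sml η φ
  opn : IsOpen O
  smh : ∀ x ∈ O, CAt ∞ h x
  h0 : ∀ x ∈ O, 0 ≤ h x
  cls : ∀ c, IsClosed {x | x ∈ O ∧ h x ≤ c}
  pos : ∀ x ∈ O, (∀ i, |px x i| ≤ L / 2) → 0 < Rf g f x + h x ^ 2 - 2 * gn g h x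
  big : ∃ h₁, ∀ x ∈ O, h₁ ≤ h x → gn g h x ≤ θ * h x ^ 2

/-- **LOHA**: the construction of Lohkamp -/
def LOHA : Prop := ∀ (n : ℕ) (M : Type) [Mfe n M] (g₀ : Fld n M) (v f : M → ℝ) (O : Set M)
  (h : M → ℝ) (ρ a β θ η : ℝ), 3 ≤ n → Pm g₀ v f O h ρ a β θ → β < 0 → 0 < η → η ≤ 1 / 4 →
  ∃ g f' h' φ L, Lk g f' O h' φ L η θ

/-- **LOHB**: the torus -/
def LOHB : Prop := ∀ (n : ℕ) (M : Type) [Mfe n M] (g : Fld n M) (f : M → ℝ) (O : Set M)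
  (h : M → ℝ) (φ : E n → ℝ) (L η θ : ℝ), 3 ≤ n → 0 < η → η ≤ 1 / 4 → Lk g f O h φ L η θ →
  ∃ (X : Type) (_ : Mf n X) (_ : CompactSpace X) (g' : Fld n X) (f' : X → ℝ) (O' : Set X)
    (h' : X → ℝ) (Y : E n → X), Dat g' f' O' h' Y η θ

theorem lohk_of (h₁ : LOHA) (h₂ : LOHB) : LOHK := by
  intro n M _ g₀ v f O h ρ a β θ hn p hβ η η0
  have e0 : 0 < min η (1 / 4) := by positivity
  obtain ⟨g, f', h', φ, L, k⟩ := h₁ n M g₀ v f O h ρ a β θ _ hn p hβ e0 (min_le_right _ _)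
  obtain ⟨X, _, _, g', f'', O', h'', Y, d⟩ := h₂ n M g f' O h' φ L _ θ hn e0 (min_le_right _ _) k
  exact ⟨X, _, ‹_›, g', f'', O', h'', Y, d.nr.mono (min_le_left _ _), d.shd,
    fun y hy => d.out y (Uo_mono (min_le_left _ _) hy)⟩

end Vale.Agent.P366D
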