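import Vale.Agent.P366D.Quo
import Vale.Agent.P366D.Defs3
import Vale.Agent.P366M.End1
import Mathlib.Topology.MetricSpace.Kuratowski
import Mathlib.Analysis.Normed.Group.AddCircle

/-!
# P366D: the torus
-/

open MeasureTheory Metric Filter Topology Set Matrix
open scoped ContDiff
open Vale.Agent.P366 Vale.Agent.P366.Stmt Vale.Agent.P366M

noncomputable section

namespace Vale.Agent.P366D

variable {n : ℕ}

theorem quo' {M : Type} [Mf0 n M] {g : Fld n M} {V : Type} [MetricSpace V] {j : M → V}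
    {N D : Set M} (hg : Met g) (hN : IsOpen N) (hD : IsCompact D) (hDN : D ⊆ N) (ne : D.Nonempty)
    (sur : ∀ x ∈ N, j x ∈ j '' D) (ct : Continuous j) (inj : ∀ x ∈ N, ∃ U ∈ 𝓝 x, InjOn j U)
    (deck : ∀ p ∈ N, ∀ p' ∈ N, j p = j p' →
      ∃ T : M → M, T p = p' ∧ IsoM T g g p ∧ ∀ᶠ x in 𝓝 p, j (T x) = j x) :
    ∃ (X' : Type) (_ : Mf n X') (_ : CompactSpace X') (q : M → X'),
      (∀ x ∈ N, ∀ x' ∈ N, q x = q x' ↔ j x = j x') ∧ q '' D = univ ∧ ∀ x ∈ N, IsoM q bg g x := by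
  classical
  let q : M → j '' D := fun x => if h : j x ∈ j '' D then ⟨j x, h⟩ else ⟨_, _, ne.some_mem, rfl⟩
  have h1 : ∀ x ∈ N, (q x).1 = j x := fun x hx => by simp only [q, sur x hx, dif_pos]
  have h2 : ∀ x ∈ N, ∀ x' ∈ N, q x = q x' ↔ j x = j x' := fun x hx x' hx' => by
    rw [Subtype.ext_iff, h1 x hx, h1 x' hx']
  obtain ⟨X, _, _, q', k1, k2, k3⟩ := quo (q := q) hg hN hD hDN
    (eq_univ_of_forall fun ⟨_, x, hx, e⟩ => ⟨x, hx, Subtype.ext ((h1 x (hDN hx)).trans e)⟩)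
    (IsInducing.subtypeVal.continuousOn_iff.2 (ct.continuousOn.congr h1))
    (fun x hx => by
      obtain ⟨U, u1, u2⟩ := inj x hx
      exact ⟨U ∩ N, inter_mem u1 (hN.mem_nhds hx), fun a ha b hb e =>
        u2 ha.1 hb.1 ((h2 a ha.2 b hb.2).1 e)⟩)
    fun p hp p' hp' e => by
      obtain ⟨T, t1, t2, t3⟩ := deck p hp p' hp' ((h2 p hp p' hp').1 e)
      refine ⟨T, t1, t2, ?_⟩
      filter_upwards [t3, hN.mem_nhds hp, t2.s.ct.eventually (hN.mem_nhds (t1 ▸ hp'))] with x a b c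
        using (h2 _ c _ b).2 a
  exact ⟨X, _, ‹_›, q', fun x hx x' hx' => (k1 x x').trans (h2 x hx x' hx'), k2, k3⟩

theorem jac_aff (L : ℝ) (c y : E n) : jac (fun z => L • z + c) y = L • (1 : Matrix _ _ ℝ) := by
  ext a i
  have h : HasFDerivAt (fun z => L • z + c) (L • ContinuousLinearMap.id ℝ _) y :=
    ((hasFDerivAt_id y).fun_const_smul L).add_const c
  rw [jac_eq h.differentiableAt, h.fderiv]
  simp [Matrix.one_apply, Pi.single_apply]

theorem pb_aff (L : ℝ) (c y : E n) (G : Stmt.Field n) (a b : Fin n) :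
    pb (fun z => L • z + c) G y a b = L ^ 2 * G (L • y + c) a b := by
  have := congrFun (congrFun (mat_pb (fun z => L • z + c) G y) a) b
  rw [jac_aff, Matrix.transpose_smul, Matrix.transpose_one, Matrix.smul_mul, Matrix.mul_smul,
    Matrix.one_mul, Matrix.smul_mul, Matrix.mul_one, smul_smul, ← sq] at this
  exact this

theorem sml_zero {η : ℝ} (h : 0 ≤ η) : Sml η fun _ : E n => (0 : ℝ) := fun m _ y _ => by
  simpa using h

theorem coe_eq_iff {a b : E n} : (fun i => ((a i : ℝ) : AddCircle (1 : ℝ))) =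
    (fun i => ((b i : ℝ) : AddCircle (1 : ℝ))) ↔ ∃ z, b = a + lat z := by
  constructor
  · intro h
    have : ∀ i, ∃ z : ℤ, z • (1 : ℝ) = b i - a i := fun i =>
      (AddCircle.coe_eq_zero_iff 1).1 (by rw [AddCircle.coe_sub, congrFun h i, sub_self])
    choose z hz using this
    exact ⟨z, by ext i; simp [← sub_eq_iff_eq_add', ← hz]⟩
  · rintro ⟨z, rfl⟩
    funext i
    rw [eq_comm, ← sub_eq_zero, ← AddCircle.coe_sub, AddCircle.coe_eq_zero_iff]
    exact ⟨z i, by simp⟩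

theorem Uo_of_cube {η : ℝ} (h : η ≤ 1 / 4) {y : E n} (hy : ∀ i, |y i| ≤ 1 / 2)
    (h' : η < ‖y‖) : y ∈ Uo n η := fun z => by
  by_cases hz : z = 0
  · rwa [hz, lat_zero, sub_zero]
  obtain ⟨i, hi⟩ := Function.ne_iff.1 hz
  have h1 : (1 : ℝ) ≤ |(z i : ℝ)| := by exact_mod_cast Int.one_le_abs hi
  have h2 := PiLp.norm_apply_le (y - lat z) i
  have h3 := abs_sub_abs_le_abs_sub (z i : ℝ) (y i)
  rw [abs_sub_comm] at h3
  simp only [PiLp.sub_apply, lat_apply, Real.norm_eq_abs] at h2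
  linarith [hy i]

variable {M : Type} [Mfe n M] {y : E n}

theorem smP_yp (h : R0 M ≤ ‖y‖) : SmP (yp : E n → M) y :=
  (smP_symm (ch_mem (yp y)) y).congr (symm_ev h).symm

theorem pl_yp (h : R0 M ≤ ‖y‖) (T : Fld n M) : pl yp T y = T (yp y) :=
  (pl_congr (symm_ev h).symm rfl).trans (rep_of_ev (symm_ev h) h T)

theorem smM_tr {c : E n} {x : M} (h : R0 M ≤ ‖px x + c‖) : SmM (fun x => (yp (px x + c) : M)) x :=
  SmP.comp (σ := fun z => px ((ch x).symm z) + c) (by rw [symm_pt]; exact smP_yp h)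
    (ContDiffAt.add (sm_px.contDiffAt (x := x)) contDiffAt_const)

theorem pull_tr {c : E n} {x : M} (h : R0 M ≤ ‖px x + c‖) (h' : R0 M ≤ ‖px x‖) (T : Fld n M) :
    pull (fun x => (yp (px x + c) : M)) T x = T (yp (px x + c)) := by
  have e : loc (ch x) (fun x => (yp (px x + c) : M)) =ᶠ[𝓝 (pt x)] fun z => yp ((1 : ℝ) • z + c) := by
    rw [pt_far h']
    filter_upwards [ball_mem_nhds (px x) (show (0 : ℝ) < 5 by norm_num)] with z hz
    rw [loc, px_symm h' hz, one_smul]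
  have h1 : R0 M ≤ ‖(1 : ℝ) • pt x + c‖ := by rwa [one_smul, pt_far h']
  funext a b
  rw [pull, pl_congr e rfl, SmP.pl_comp (σ := fun z => (1 : ℝ) • z + c) (smP_yp h1) (by fun_prop),
    pb_aff, pl_yp h1, one_smul, pt_far h', one_pow, one_mul]

/-- **LOHB** -/
theorem lohb : LOHB := by
  classical
  intro n M _ g f O h φ L η θ hn η0 η1 k
  have R8 := R0_ge M
  have kR := k.R
  have L0 : 0 < L := by by_contra c; nlinarith
  let u : M → E n := fun x => L⁻¹ • px x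
  have cu : Continuous u := cont_px.const_smul L⁻¹
  have pu : ∀ x, px x = L • u x := fun x => (smul_inv_smul₀ L0.ne' _).symm
  have nr : ∀ y : E n, η ≤ ‖y‖ → L * η ≤ ‖L • y‖ := fun y hy => by
    rw [norm_smul, Real.norm_of_nonneg L0.le]; gcongr
  have U0 : ∀ y ∈ Uo n η, η < ‖y‖ := fun y hy => by simpa [lat_zero] using hy 0
  have uy : ∀ y : E n, η ≤ ‖y‖ → u (yp (L • y)) = y := fun y hy => by
    simp only [u, px_yp (M := M) (y := L • y) (by linarith [nr y hy]), inv_smul_smul₀ L0.ne']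
  have yu : ∀ x, η ≤ ‖u x‖ → yp (L • u x) = x := fun x hx => by
    rw [← pu, yp_px (by linarith [nr _ hx, pu x ▸ nr _ hx])]
  let N := {x | u x ∈ Uo n η ∨ ‖u x‖ < 1 / 2}
  let D := {x | ∀ i, |u x i| ≤ 1 / 2}
  have hN : IsOpen N := (isOpen_Uo.preimage cu).union (isOpen_lt cu.norm continuous_const)
  have hD : IsCompact D := (isCompact_px M (L * ‖(WithLp.toLp 2 fun _ => 1 / 2 : E n)‖)).of_isClosed_subset
    (by
      rw [show D = ⋂ i, {x | |u x i| ≤ 1 / 2} from by ext; simp [D]]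
      exact isClosed_iInter fun i => isClosed_le (by fun_prop) continuous_const) fun x hx => by
      rw [mem_ofPred_eq, pu, norm_smul, Real.norm_of_nonneg L0.le, EuclideanSpace.norm_eq,
        EuclideanSpace.norm_eq]
      gcongr with i
      simpa using hx i
  have hDN : D ⊆ N := fun x hx => (lt_or_ge ‖u x‖ (1 / 2)).symm.imp
    (fun a => Uo_of_cube η1 hx (by linarith)) id
  let j : M → (Fin n → AddCircle (1 : ℝ)) × ℝ × lp (fun _ : ℕ => ℝ) ⊤ := fun x =>
    (fun i => ((u x i : ℝ) : AddCircle (1 : ℝ)), max 0 (η - ‖u x‖),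
      max 0 (η - ‖u x‖) • kuratowskiEmbedding M x)
  have cj : Continuous j := by
    have h1 : Continuous fun x => max 0 (η - ‖u x‖) := by fun_prop
    exact (continuous_pi fun i => (AddCircle.continuous_mk' 1).comp (by fun_prop)).prodMk
      (h1.prodMk (h1.smul (kuratowskiEmbedding.isometry M).continuous))
  have j1 : ∀ p p' z, η ≤ ‖u p‖ → η ≤ ‖u p'‖ → u p' = u p + lat z → j p = j p' :=
    fun p p' z a b e => by
      simp only [j, max_eq_left (sub_nonpos.2 a), max_eq_left (sub_nonpos.2 b), zero_smul,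
        coe_eq_iff.2 ⟨z, e⟩]
  have j2 : ∀ p ∈ N, ∀ p' ∈ N, j p = j p' →
      p = p' ∨ u p ∈ Uo n η ∧ ∃ z, z ≠ 0 ∧ u p' = u p + lat z := fun p hp p' hp' e => by
    obtain ⟨z, hz⟩ := coe_eq_iff.1 (congrArg Prod.fst e)
    have e1 : max 0 (η - ‖u p‖) = max 0 (η - ‖u p'‖) := congrArg (·.2.1) e
    have e2 : max 0 (η - ‖u p‖) • kuratowskiEmbedding M p =
      max 0 (η - ‖u p'‖) • kuratowskiEmbedding M p' := congrArg (·.2.2) e
    rcases lt_or_ge ‖u p‖ η with a | a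
    · rw [← e1] at e2
      exact Or.inl ((kuratowskiEmbedding.isometry M).injective
        (smul_right_injective _ (lt_max_of_lt_right (sub_pos.2 a)).ne' e2))
    by_cases z0 : z = 0
    · rw [z0, lat_zero, add_zero] at hz
      exact Or.inl (by rw [← yu p a, ← hz, yu p' (hz ▸ a)])
    refine Or.inr ⟨?_, z, z0, hz⟩
    rcases hp with hp | hp
    · exact hp
    rcases hp' with hp' | hp'
    · have := Uo_add hp' (-z)
      rwa [hz, lat_neg, add_neg_cancel_right] at this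
    refine absurd (lat_eq_zero ?_) z0
    rw [← sub_eq_iff_eq_add'.2 hz]
    linarith [norm_sub_le (u p') (u p)]
  have one : ∀ y ∈ Uo n η, (yp (L • y) : M) ∈ N := fun y hy => Or.inl (by rwa [uy y (U0 y hy).le])
  obtain ⟨X, _, _, q, q1, q2, q3⟩ := quo' (j := j) k.met hN hD hDN
    ⟨yp (L • (WithLp.toLp 2 fun _ => 1 / 2 : E n)), fun i => by
      rw [uy _ (le_trans (by norm_num; linarith)
        (PiLp.norm_apply_le (WithLp.toLp 2 fun _ => (1 / 2 : ℝ) : E n) ⟨0, by omega⟩))]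
      norm_num⟩
    (fun x hx => by
      rcases hx with hx | hx
      · have h1 := Uo_add hx fun i => -round (u x i)
        refine ⟨yp (L • (u x + lat fun i => -round (u x i))), fun i => ?_,
          j1 _ _ (fun i => round (u x i)) ?_ (U0 _ hx).le ?_⟩ <;> rw [uy _ (U0 _ h1).le]
        · simpa [← sub_eq_add_neg] using abs_sub_round (u x i)
        · exact (U0 _ h1).le
        · ext i; simp
      · exact ⟨x, fun i => (PiLp.norm_apply_le (u x) i).trans hx.le, rfl⟩) cj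
    (fun x hx => ⟨N ∩ u ⁻¹' ball (u x) (1 / 2), inter_mem (hN.mem_nhds hx)
      (cu.continuousAt.preimage_mem_nhds (ball_mem_nhds _ (by norm_num))), fun a ha b hb e => by
        refine (j2 a ha.1 b hb.1 e).resolve_right fun ⟨_, z, z0, hz⟩ => z0 (lat_eq_zero ?_)
        rw [← sub_eq_iff_eq_add'.2 hz, ← dist_eq_norm]
        linarith [dist_triangle_right (u b) (u a) (u x), mem_ball.1 ha.2, mem_ball.1 hb.2]⟩)
    fun p hp p' hp' e => by
      rcases j2 p hp p' hp' e with rfl | ⟨a, z, -, hz⟩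
      · exact ⟨fun x => x, rfl, isoM_id k.met p, .of_forall fun _ => rfl⟩
      have h1 : ∀ x, px x + L • lat z = L • (u x + lat z) := fun x => by rw [smul_add, ← pu]
      have h2 : ∀ᶠ x in 𝓝 p, η ≤ ‖u x‖ ∧ η ≤ ‖u x + lat z‖ :=
        (cu.continuousAt.eventually (isOpen_Uo.mem_nhds a)).mono fun x hx =>
          ⟨(U0 _ hx).le, (U0 _ (Uo_add hx z)).le⟩
      have h3 : ∀ x, η ≤ ‖u x + lat z‖ → R0 M ≤ ‖px x + L • lat z‖ := fun x hx => by
        rw [h1]; linarith [nr _ hx]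
      refine ⟨fun x => yp (px x + L • lat z), by
        simp only [h1, ← hz, yu _ (hz ▸ h2.self_of_nhds.2)],
        ⟨h2.mono fun x hx => smM_tr (h3 x hx.2), k.met, k.met, h2.mono fun x hx => ?_⟩,
        h2.mono fun x hx => (j1 _ _ z hx.1 ?_ ?_).symm⟩
      · have h4 := pu x ▸ nr _ hx.1
        rw [pull_tr (h3 x hx.2) (by linarith)]
        funext a b
        rw [(k.far x h4).1, (k.far _ (by
          rw [px_yp (by linarith [h3 x hx.2]), h1]; exact nr _ hx.2)).1]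
        rfl
      all_goals simp only [h1, uy _ hx.2]
      exact hx.2
  choose rp r1 r2 using fun w => show w ∈ q '' D from q2 ▸ mem_univ w
  have inv : ∀ x ∈ N, f (rp (q x)) = f x ∧ h (rp (q x)) = h x ∧ (rp (q x) ∈ O ↔ x ∈ O) :=
    fun x hx => by
      rcases j2 _ (hDN (r1 _)) x hx ((q1 _ (hDN (r1 _)) x hx).1 (r2 _)) with e | ⟨a, z, -, hz⟩
      · simp [e]
      obtain ⟨-, b1, b2, b3⟩ := k.far _ (pu _ ▸ nr _ (U0 _ a).le)
      obtain ⟨-, c1, c2, c3⟩ := k.far x (pu x ▸ nr _ (hz ▸ (U0 _ (Uo_add a z)).le))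
      exact ⟨by rw [b3, c3, show L⁻¹ • px x = _ from hz, k.per], by rw [b2, c2], by simp [b1, c1]⟩
  have iv : ∀ w, ∀ᶠ x in 𝓝 (rp w), f (rp (q x)) = f x ∧ h (rp (q x)) = h x ∧
      (rp (q x) ∈ O ↔ x ∈ O) := fun w => eventually_of_mem (hN.mem_nhds (hDN (r1 w))) inv
  have io : ∀ w, IsoM q bg g (rp w) := fun w => q3 _ (hDN (r1 w))
  have sf : P366M.Smooth fun w => f (rp w) := cd_of_cAt le_rfl fun w => r2 w ▸ (io w).cAt_down le_rfl
    (k.smf.contDiffAt.congr_of_eventuallyEq ((iv w).mono fun x hx => hx.1))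
  have sh : ∀ w, rp w ∈ O → CAt ∞ (fun w => h (rp w)) (q (rp w)) := fun w hw => (io w).cAt_down
    le_rfl ((k.smh _ hw).congr_of_eventuallyEq ((iv w).mono fun x hx => hx.2.1))
  have gh : ∀ w, rp w ∈ O → gn bg (fun w => h (rp w)) w = gn g h (rp w) := fun w hw => by
    rw [(io w).gn ((sh w hw).differentiableAt (by simp)) ((iv w).mono fun x hx => hx.2.1.symm), r2]
  let Y : E n → X := fun y => if y ∈ Uo n η then q (yp (L • y + 0)) else Classical.arbitrary X
  have Y1 : ∀ y ∈ Uo n η, Y =ᶠ[𝓝 y] fun y => q (yp (L • y + 0)) := fun y hy =>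
    eventually_of_mem (isOpen_Uo.mem_nhds hy) fun z hz => if_pos hz
  have Y2 : ∀ y ∈ Uo n η, Y y = q (yp (L • y)) := fun y hy => by
    simp only [(Y1 y hy).self_of_nhds, add_zero]
  have Y3 : ∀ y ∈ Uo n η, R0 M ≤ ‖L • y + 0‖ := fun y hy => by
    rw [add_zero]; linarith [nr _ (U0 y hy).le]
  have Y4 : ∀ y ∈ Uo n η, SmP (fun y => (yp (L • y + 0) : M)) y := fun y hy =>
    SmP.comp (σ := fun y => L • y + 0) (smP_yp (Y3 y hy)) (by fun_prop)
  have Y5 : ∀ y ∈ Uo n η, IsoM q bg g (yp (L • y + 0)) := fun y hy =>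
    q3 _ (by rw [add_zero]; exact one y hy)
  have fy : ∀ y ∈ Uo n η, L * η ≤ ‖px (yp (L • y) : M)‖ := fun y hy => by
    rw [pu, uy _ (U0 y hy).le]; exact nr _ (U0 y hy).le
  have Y6 : ∀ y ∈ Uo n η, pl Y bg y = P366Z.eu n y := fun y hy => by
    funext a b
    rw [pl_congr (Y1 y hy) rfl, ← pl_pull (ψ := fun y => yp (L • y + 0)) (Y5 y hy).s (Y4 y hy),
      pl_congr (Y := fun y => yp (L • y + 0)) .rfl (Y5 y hy).eq.self_of_nhds.symm,
      SmP.pl_comp (σ := fun y => L • y + 0) (smP_yp (Y3 y hy)) (by fun_prop), pb_aff,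
      pl_yp (Y3 y hy), add_zero, (k.far _ (fy y hy)).1, ← mul_assoc, ← mul_pow,
      mul_inv_cancel₀ L0.ne', one_pow, one_mul]
    rfl
  refine ⟨X, inferInstance, inferInstance, bg, fun w => f (rp w), {w | rp w ∈ O}, fun w => h (rp w),
    Y, ⟨bg_met, sf, per_of (fun y z => ?_) (fun y hy y' hy' e => ?_) fun y hy => Iso.lp
      ⟨(SmM.after (ψ := fun y => yp (L • y + 0)) (Y5 y hy).s (Y4 y hy)).congr (Y1 y hy), bg_met, P366Z.met_eu,
        eventually_of_mem (isOpen_Uo.mem_nhds hy) fun z hz => (Y6 z hz).symm⟩,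
      fun a b => (sml_zero η0.le).congr fun y hy => by rw [Y6 y hy]; exact sub_self _,
      k.sml.congr fun y hy => ?_⟩, ⟨isOpen_iff_mem_nhds.2 fun w hw => ?_, fun w hw => r2 w ▸ sh w hw,
      fun w hw => k.h0 _ hw, fun c => ?_, fun w hw => ?_,
      k.big.imp fun h₁ b w hw h1 => gh w hw ▸ b _ hw h1⟩, fun y hy => ?_⟩
  · by_cases hy : y ∈ Uo n η
    · have h1 := Uo_add hy z
      rw [Y2 _ hy, Y2 _ h1, q1 _ (one _ h1) _ (one _ hy), eq_comm]
      refine j1 _ _ z ?_ ?_ ?_ <;> simp only [uy _ (U0 _ hy).le, uy _ (U0 _ h1).le]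
      exacts [(U0 _ hy).le, (U0 _ h1).le]
    · have : y + lat z ∉ Uo n η := fun a => hy (by
        have := Uo_add a (-z)
        rwa [lat_neg, add_neg_cancel_right] at this)
      simp only [Y, hy, this, if_false]
  · rw [Y2 _ hy, Y2 _ hy', q1 _ (one _ hy) _ (one _ hy')] at e
    have := coe_eq_iff.1 (congrArg Prod.fst e)
    rwa [uy _ (U0 _ hy).le, uy _ (U0 _ hy').le] at this
  · rw [Y2 _ hy, (inv _ (one y hy)).1, (k.far _ (fy y hy)).2.2.2]
    exact congrArg φ (uy _ (U0 _ hy).le)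
  · rw [← r2 w, ← (io w).map_nhds, Filter.mem_map]
    filter_upwards [iv w, k.opn.mem_nhds hw] with x a b using a.2.2.2 b
  · convert ((hD.inter_right (k.cls c)).image_of_continuousOn
      fun x hx => (q3 x (hDN hx.1)).s.ct.continuousWithinAt).isClosed using 1
    ext w
    refine ⟨fun a => ⟨_, ⟨r1 w, a⟩, r2 w⟩, ?_⟩
    rintro ⟨x, ⟨a, b⟩, rfl⟩
    exact ⟨(inv x (hDN a)).2.2.2 b.1, (inv x (hDN a)).2.1 ▸ b.2⟩
  · have := k.pos _ hw fun i => by
      rw [pu, PiLp.smul_apply, smul_eq_mul, abs_mul, abs_of_pos L0]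
      nlinarith [r1 w i]
    rwa [(io w).Rf (sf.c2 _) ((iv w).mono fun x hx => hx.1.symm), r2, ← gh w hw] at this
  · rw [Y2 _ hy]
    obtain ⟨-, a, b, -⟩ := k.far _ (fy y hy)
    exact ⟨(inv _ (one y hy)).2.2.2 a, (inv _ (one y hy)).2.1.trans b⟩

end Vale.Agent.P366D
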