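import Vale.Agent.P366D.Close
import Vale.Agent.P366D.Base
import Vale.Agent.P366D.Tor
import Vale.Agent.P366H.Shm2
import Vale.Agent.P366M.Sard

/-!
# P366D: the positive mass theorem from the analytic statements
-/

namespace Vale.Agent.P366D

theorem sard : SARD := fun _ _ _ _ _ _ hw h => P366M.exists_regular hw h

theorem close (h : LBAR) : CLOSE := close_of sard h P366H.shm'

theorem pmti (h₁ : ANA) (h₂ : ANA1) (h₃ : LBAR) (h₄ : LOHA) : PMTI :=
  pmti_of (tor_of h₁ h₂ (close h₃) base) (lohk_of h₄ lohb)

end Vale.Agent.P366D
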