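import Vale.Agent.P366D.Lat
import Vale.Agent.P366Z.Calc2

/-!
# P366D: a periodic function which is superharmonic away from the lattice
-/

open MeasureTheory Metric Filter Topology Set
open scoped ContDiff
open Vale.Agent.P366 Vale.Agent.P366.Stmt
open Real (cos sin exp)

noncomputable section

namespace Vale.Agent.P366D.Loh

/-- the perturbation lemma -/
theorem ev_pos {X : Type} [TopologicalSpace X] {S : Set X} {P B C : X → ℝ} (hS : IsCompact S)
    (hP : Continuous P) (hB : Continuous B) (hC : Continuous C)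
    (h : ∀ x ∈ S, 0 ≤ P x ∧ (P x = 0 → 0 < B x)) :
    ∀ᶠ e in 𝓝[>] (0 : ℝ), ∀ x ∈ S, 0 < P x + e * B x - e ^ 2 * C x := by
  have key : ∀ᶠ e in 𝓝 (0 : ℝ), ∀ x ∈ S,
      0 < P x + e * B x - e ^ 2 * C x ∨ 0 < B x - e * C x := by
    refine hS.eventually_forall_of_forall_eventually fun x hx => ?_
    rcases (h x hx).1.eq_or_lt with k | k
    · have c : Continuous fun z : ℝ × X => B z.2 - z.1 * C z.2 := by fun_prop
      exact (c.continuousAt.eventually (lt_mem_nhds (by simpa using (h x hx).2 k.symm))).mono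
        fun _ => Or.inr
    · have c : Continuous fun z : ℝ × X => P z.2 + z.1 * B z.2 - z.1 ^ 2 * C z.2 := by fun_prop
      exact (c.continuousAt.eventually (lt_mem_nhds (by simpa using k))).mono fun _ => Or.inl
  filter_upwards [nhdsWithin_le_nhds key, self_mem_nhdsWithin] with e he e0 x hx
  rcases he x hx with k | k
  · exact k
  · nlinarith [mul_pos (show 0 < e from e0) k, (h x hx).1]

variable {n : ℕ}

/-- small multiples of a periodic function are small -/
theorem ev_sml {φ : E n → ℝ} (hφ : ContDiff ℝ ∞ φ) (hp : ∀ y z, φ (y + lat z) = φ y) {η : ℝ}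
    (h0 : 0 < η) : ∀ᶠ e in 𝓝[>] (0 : ℝ), Sml η fun y => e * φ y := by
  have h1 : ∀ m : ℕ, ∀ᶠ e in 𝓝 (0 : ℝ), ∀ y, ‖iteratedFDeriv ℝ m (fun y => e * φ y) y‖ ≤ η := by
    intro m
    obtain ⟨C, hC⟩ := (isCompact_closedBall (0 : E n) n).exists_bound_of_continuousOn
      (hφ.continuous_iteratedFDeriv (m := m) (by exact_mod_cast le_top)).continuousOn
    have c : Continuous fun e : ℝ => ‖e‖ * C := by fun_prop
    filter_upwards [c.continuousAt.eventually (gt_mem_nhds (a := η) (by simpa using h0))] with e he y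
    obtain ⟨y₀, z, hy, rfl⟩ := exists_red y
    have e1 := iteratedFDeriv_const_smul_apply' (i := m) (a := e) (x := y₀ + lat z)
      (hφ.of_le (m := m) (by exact_mod_cast le_top)).contDiffAt
    simp only [smul_eq_mul] at e1
    rw [e1, norm_smul, ← iteratedFDeriv_comp_add_right, funext fun y => hp y z]
    exact (mul_le_mul_of_nonneg_left (hC y₀ (by simpa using hy)) (norm_nonneg _)).trans he.le
  have h2 := (eventually_all_finite (finite_le_nat ⌈η⁻¹⌉₊)).2 fun m _ => h1 m
  filter_upwards [nhdsWithin_le_nhds h2] with e he m hm y _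
  refine he m ?_ y
  have : (m : ℝ) ≤ η⁻¹ := by rw [← one_div, le_div_iff₀ h0]; exact hm
  exact_mod_cast this.trans (Nat.le_ceil _)

/-- the Laplacian of the exponential of a sum of functions of the coordinates -/
theorem lap_sum {S : ℝ → ℝ} (hS : ContDiff ℝ ∞ S) (K : ℝ) (x : E n) :
    P366Z.lap (P366Z.eu n) (fun x => -exp (K * ∑ j, S (x j))) x = -exp (K * ∑ j, S (x j)) * K *
      ∑ j, (deriv (deriv S) (x j) + K * deriv S (x j) ^ 2) := by
  have d : ∀ {S : ℝ → ℝ}, ContDiff ℝ ∞ S → ∀ (i j : Fin n) (x : E n),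
      pd i (fun x => S (x j)) x = if i = j then deriv S (x j) else 0 := fun {S} hS i j x => by
    rw [P366Z.pd_comp (f := fun x : E n => x j) (hS.differentiable (by simp) _).hasDerivAt
      ((P366Z.contDiff_coord (m := 1) j).differentiable (by simp) _), P366Z.pd_coord]
    simp
  have s : ∀ j, ContDiff ℝ ∞ fun x : E n => S (x j) := fun j => hS.comp (P366Z.contDiff_coord j)
  have d1 : ∀ i, (pd i fun x : E n => ∑ j, S (x j)) = fun x => deriv S (x i) := fun i =>
    funext fun x => by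
      rw [P366Z.pd_sum _ fun j _ => (s j).differentiable (by simp) _]
      simp [d hS]
  have e1 : deriv (fun t => -exp (K * t)) = fun t => -exp (K * t) * K := funext fun t =>
    (((hasDerivAt_id' t).const_mul K).exp.neg.deriv).trans (by ring)
  have e2 : deriv (fun t => -exp (K * t) * K) = fun t => -exp (K * t) * K * K := funext fun t =>
    ((((hasDerivAt_id' t).const_mul K).exp.neg.mul_const K).deriv).trans (by ring)
  rw [P366Z.met_eu.lap_comp (φ := fun t => -exp (K * t))
    ((ContDiff.sum fun j _ => s j).of_le P366M.two_le_oo).contDiffAt (by fun_prop),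
    P366Z.lap_eu, P366Z.ip_eu, e1, e2]
  simp only [d1, d (contDiff_infty_iff_deriv.1 hS).2, if_true, Finset.sum_add_distrib,
    ← Finset.mul_sum, ← sq]
  ring

/-- the profile -/
def sw (k w t : ℝ) : ℝ := cos (w * t) - k / 2 * cos (w * t) ^ 2

theorem sm_sw (k w : ℝ) : ContDiff ℝ ∞ (sw k w) := by unfold sw; fun_prop

theorem d_sw (k w : ℝ) : deriv (sw k w) = fun t => -w * sin (w * t) * (1 - k * cos (w * t)) :=
  funext fun t => by
    have h := ((hasDerivAt_id' t).const_mul w).cos
    exact (h.sub ((h.pow 2).const_mul (k / 2))).deriv.trans (by simp; ring)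

theorem dd_sw (k w t : ℝ) : deriv (deriv (sw k w)) t =
    -w ^ 2 * (cos (w * t) * (1 - k * cos (w * t)) + k * sin (w * t) ^ 2) := by
  have h := (hasDerivAt_id' t).const_mul w
  rw [d_sw]
  exact ((h.sin.const_mul (-w)).mul ((h.cos.const_mul k).const_sub 1)).deriv.trans (by ring)

/-- the two lower bounds -/
theorem q_sw {k N K d w t : ℝ} (hk : k = 1 - N⁻¹) (hN : 1 ≤ N) (hd : 0 < d)
    (hK : K = N ^ 2 * (2 + 2 / d)) :
    0 ≤ deriv (deriv (sw k w)) t + K * deriv (sw k w) t ^ 2 + w ^ 2 * N⁻¹ ∧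
      (cos (w * t) ≤ 1 - d → w ≠ 0 →
        w ^ 2 < deriv (deriv (sw k w)) t + K * deriv (sw k w) t ^ 2 + w ^ 2 * N⁻¹) := by
  rw [dd_sw, d_sw]
  have h1 := Real.cos_le_one (w * t)
  have h2 := Real.neg_one_le_cos (w * t)
  have h3 : sin (w * t) ^ 2 = 1 - cos (w * t) ^ 2 := Real.sin_sq _
  beta_reduce
  generalize cos (w * t) = u at *
  generalize sin (w * t) = s at *
  have i0 : 0 < N⁻¹ := by positivity
  have i1 : N⁻¹ ≤ 1 := inv_le_one_of_one_le₀ hN
  have a1 : N⁻¹ ≤ 1 - k * u := by nlinarith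
  have a2 : 2 + 2 / d ≤ K * (1 - k * u) ^ 2 := by
    calc 2 + 2 / d = K * N⁻¹ ^ 2 := by rw [hK]; field_simp
      _ ≤ _ := by rw [hK]; gcongr
  have a3 : 0 ≤ 1 - u ^ 2 := by nlinarith
  have a4 : 0 < 2 / d := by positivity
  have e : -w ^ 2 * (u * (1 - k * u) + k * s ^ 2) + K * (-w * s * (1 - k * u)) ^ 2 + w ^ 2 * N⁻¹ =
      w ^ 2 * ((1 - u ^ 2) * (K * (1 - k * u) ^ 2 - 2 * k) + (1 - u)) := by
    rw [mul_pow, mul_pow, h3, show N⁻¹ = 1 - k by linarith]; ring
  have a5 : 2 / d ≤ K * (1 - k * u) ^ 2 - 2 * k := by linarith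
  have a6 := mul_le_mul_of_nonneg_left a5 a3
  rw [e]
  refine ⟨mul_nonneg (sq_nonneg _) (by nlinarith), fun hu h0 => ?_⟩
  refine lt_mul_of_one_lt_right (by positivity) ?_
  rcases lt_or_ge u 0 with k0 | k0
  · nlinarith
  · have a7 : d ≤ 1 - u ^ 2 := by nlinarith
    have a8 : d * (2 / d) = 2 := by field_simp
    nlinarith [mul_le_mul_of_nonneg_right a7 a4.le]

/-- the periodic function -/
theorem exists_per (hn : 1 ≤ n) {r L : ℝ} (hr : 0 < r) (hL : 0 < L) : ∃ φ : E n → ℝ,
    ContDiff ℝ ∞ φ ∧ (∀ y z, φ (y + lat z) = φ y) ∧ ∀ x : E n, (∀ i, |x i| ≤ L / 2) → r ≤ ‖x‖ →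
      P366Z.lap (P366Z.eu n) (fun x => φ (L⁻¹ • x)) x < 0 := by
  have n1 : (1 : ℝ) ≤ n := by exact_mod_cast hn
  have pi0 := Real.pi_pos
  set w := 2 * Real.pi * L⁻¹ with hw
  have w0 : 0 < w := by positivity
  set a := min (w * (r / n)) 1 with ha
  have a0 : 0 < a := by positivity
  have d0 : 0 < 1 - cos a := by
    have := Real.cos_lt_cos_of_nonneg_of_le_pi le_rfl
      ((min_le_right _ _).trans (by linarith [Real.two_le_pi])) a0
    rw [Real.cos_zero] at this
    linarith
  set K := (n : ℝ) ^ 2 * (2 + 2 / (1 - cos a)) with hK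
  set k := 1 - (n : ℝ)⁻¹ with hk
  refine ⟨fun y => -exp (K * ∑ j, sw k (2 * Real.pi) (y j)), ?_, fun y z => ?_, fun x hx h => ?_⟩
  · exact (contDiff_const.mul (ContDiff.sum fun j _ =>
      (sm_sw _ _).comp (P366Z.contDiff_coord j))).exp.neg
  · refine congrArg (fun t => -exp (K * t)) (Finset.sum_congr rfl fun j _ => ?_)
    have : cos (2 * Real.pi * (y + lat z) j) = cos (2 * Real.pi * y j) := by
      rw [← Real.cos_add_int_mul_two_pi (2 * Real.pi * y j) (z j)]
      congr 1
      simp only [PiLp.add_apply, lat_apply]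
      ring
    simp only [sw, this]
  · have e : (fun x : E n => -exp (K * ∑ j, sw k (2 * Real.pi) ((L⁻¹ • x) j))) =
        fun x => -exp (K * ∑ j, sw k w (x j)) := by
      funext x
      simp only [sw, PiLp.smul_apply, smul_eq_mul, hw, mul_assoc]
    rw [e, lap_sum (sm_sw _ _)]
    obtain ⟨i, hi⟩ : ∃ i, r / n ≤ |x i| := by
      by_contra! c
      have h2 := Finset.sum_lt_sum_of_nonempty (s := Finset.univ) ⟨⟨0, hn⟩, Finset.mem_univ _⟩
        fun i _ => pow_lt_pow_left₀ (c i) (abs_nonneg _) two_ne_zero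
      simp only [Finset.sum_const, Finset.card_univ, Fintype.card_fin, nsmul_eq_mul, sq_abs,
        ← EuclideanSpace.real_norm_sq_eq] at h2
      have h3 : n * (r / n) ^ 2 = r ^ 2 / n := by field_simp
      nlinarith [div_le_self (sq_nonneg r) n1]
    have q := fun j => q_sw (w := w) (t := x j) hk n1 d0 hK
    have c1 : cos (w * x i) ≤ 1 - (1 - cos a) := by
      rw [sub_sub_cancel, ← Real.cos_abs, abs_mul, abs_of_pos w0]
      refine Real.cos_le_cos_of_nonneg_of_le_pi a0.le ?_ ((min_le_left _ _).trans (by gcongr))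
      calc w * |x i| ≤ w * (L / 2) := by gcongr; exact hx i
        _ = Real.pi := by rw [hw]; field_simp
    have s1 := ((q i).2 c1 w0.ne').trans_le
      (Finset.single_le_sum (fun j _ => (q j).1) (Finset.mem_univ i))
    rw [Finset.sum_add_distrib, Finset.sum_const, Finset.card_univ, Fintype.card_fin, nsmul_eq_mul,
      mul_left_comm, mul_inv_cancel₀ (by positivity), mul_one] at s1
    refine mul_neg_of_neg_of_pos (mul_neg_of_neg_of_pos (neg_lt_zero.2 (Real.exp_pos _)) ?_) ?_
    · positivity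
    · linarith

end Vale.Agent.P366D.Loh
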