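import Vale.Agent.P366D.Defs3
import Vale.Agent.P366D.Loha0
import Vale.Agent.P366M.SkE
import Vale.Agent.P366Q.G.Scf
import Vale.Agent.P366Z.Upd

/-!
# P366D: the construction of Lohkamp
-/

open MeasureTheory Metric Filter Topology Set
open scoped ContDiff
open Vale.Agent.P366 Vale.Agent.P366.Stmt Vale.Agent.P366M
open Vale.Agent.P366Z (bb gam)

noncomputable section

namespace Vale.Agent.P366D.Loh

section

variable {n : ℕ} {M : Type} [Mf0 n M] {g : Fld n M} {f : M → ℝ} {t : ℝ} {x : M}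

theorem Rf_congr {g' : Fld n M} {f' : M → ℝ} (e : g =ᶠ[𝓝 x] g') (e' : f =ᶠ[𝓝 x] f') :
    Rf g f x = Rf g' f' x := by
  unfold Rf
  rw [scal_of_ev e, lap_of_ev e, lap_congr e', ip_of_eq e.eq_of_nhds, ip_congr e' e']

/-- the scaling of the weighted scalar curvature -/
theorem Rf_sc (hg : Met g) (hn : 3 ≤ n) (ht : 0 < t) (hf : CAt 2 f x) :
    Rf (cf (fun _ => t) g) f x = t ^ (-(2 * bb n)) * Rf g f x := by
  have e1 : t ^ (-(2 * bb n) - 1) * t = t ^ (-(2 * bb n)) := by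
    rw [Real.rpow_sub_one ht.ne', div_mul_cancel₀ _ ht.ne']
  have e2 : t ^ (-(n * bb n)) * t ^ 2 = t ^ (-(2 * bb n)) := by
    rw [← Real.rpow_natCast, ← Real.rpow_add ht]
    congr 1
    have := (P366Z.nm2_pos hn).ne'
    unfold bb
    field_simp
    push_cast
    ring
  unfold Rf
  rw [hg.scal_cf hn cd_const fun _ => ht, hg.lap_cf hn fun _ => ht, hg.ip_cf (U := fun _ => t) ht,
    hg.wl_eq (dAt_const t) hf, ip_const_left, cl, lap_const]
  linear_combination scal g x * e1 - 2 * lap g f x * e2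

theorem gn_sc (hg : Met g) (ht : 0 < t) (h : M → ℝ) :
    gn (cf (fun _ => t) g) (fun y => t ^ (-bb n) * h y) x = (t ^ (-bb n)) ^ 2 * gn g h x := by
  rw [hg.gn_cf (U := fun _ => t) ht, gn_of_pd (pd_const_mul _), abs_of_pos (by positivity)]
  ring

end

variable {n : ℕ} {M : Type} [Mfe n M] {g₀ : Fld n M} {v f : M → ℝ} {O : Set M} {h : M → ℝ}
  {ρ a β θ : ℝ} {x : M}

theorem f_ev (p : Pm g₀ v f O h ρ a β θ) (hx : ρ < ‖px x‖) : f =ᶠ[𝓝 x] fun _ => 0 :=
  (ev_lt_px hx).mono fun y hy => (p.out y hy.le).2.2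

theorem gn_h (p : Pm g₀ v f O h ρ a β θ) (hx : ρ < ‖px x‖) (g : Fld n M) : gn g h x = 0 := by
  rw [gn_congr ((ev_lt_px hx).mono fun y hy => (p.out y hy.le).2.1)]
  exact gn_zero fun i => pd_const 0 i x

theorem scal_pos (p : Pm g₀ v f O h ρ a β θ) (hx : ρ < ‖px x‖) : 0 < scal (cf v g₀) x := by
  have := p.shd.pos x (p.out x hx.le).1
  rw [gn_h p hx, (p.out x hx.le).2.1, Rf_congr .rfl (f_ev p hx), Rf, lap_const, ip_const_left]
    at this
  simpa using this

theorem scal_far (p : Pm g₀ v f O h ρ a β θ) (hn : 3 ≤ n) (hx : ρ < ‖px x‖) {U : M → ℝ}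
    (hU : P366M.Smooth U) (U0 : ∀ y, 0 < U y) : ∃ c > (0 : ℝ), scal (cf U g₀) x = -c * lap g₀ U x :=
  ⟨U x ^ (-(2 * bb n) - 1) * (4 * gam n), mul_pos (Real.rpow_pos_of_pos (U0 x) _)
    (by linarith [P366Z.gam_eq hn, P366Z.bb_pos hn]), by
      rw [p.met.scal_cf hn hU U0, cl, p.flat.scal_eq hx]; ring⟩

theorem lt_far (hv : Asy v a β) (hβ : β < 0) (ρ : ℝ) :
    ∃ R, ρ < R ∧ 0 < R ∧ ∀ x, R ≤ ‖px x‖ → v x < a := by
  obtain ⟨C, R, h⟩ := hv
  refine ⟨max (max R (C / -β)) (max ρ 0) + 1, ?_, by positivity, fun x hx => ?_⟩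
  · linarith [le_max_left ρ 0, le_max_right (max R (C / -β)) (max ρ 0)]
  have h1 := le_max_left (max R (C / -β)) (max ρ 0)
  have h2 := le_max_right (max R (C / -β)) (max ρ 0)
  have h0 : 0 < ‖px x‖ := by linarith [le_max_right ρ 0]
  have h3 := (abs_le.1 (h x (by linarith [le_max_left R (C / -β)])).1).2
  have h4 : C < ‖px x‖ * -β :=
    (div_lt_iff₀ (by linarith)).1 (by linarith [le_max_right R (C / -β)])
  rw [show (2 - n : ℝ) = (1 - n) + 1 by ring, Real.rpow_add_one h0.ne'] at h3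
  nlinarith [mul_lt_mul_of_pos_right h4 (Real.rpow_pos_of_pos h0 (1 - n : ℝ))]

/-- the truncated conformal factor -/
theorem exists_U (p : Pm g₀ v f O h ρ a β θ) (hn : 3 ≤ n) (hβ : β < 0) :
    ∃ (U : M → ℝ) (R R' c : ℝ), ρ < R ∧ 0 < c ∧ P366M.Smooth U ∧ (∀ x, 0 < U x) ∧
      (∀ x, ‖px x‖ ≤ 4 * R → U x = v x) ∧ (∀ x, R' ≤ ‖px x‖ → U x = c) ∧ ∀ x, R ≤ ‖px x‖ →
        0 ≤ scal (cf U g₀) x ∧ (scal (cf U g₀) x = 0 → 4 * R ≤ ‖px x‖ ∧ ∀ i, pd i U x = 0) := by
  obtain ⟨R, hR, R0, hv⟩ := lt_far p.asy hβ ρ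
  have a0 := p.a0
  obtain ⟨κ, κ0, κa, hκ⟩ : ∃ κ > (0 : ℝ), 2 * κ < a ∧
      ∀ x, R ≤ ‖px x‖ → ‖px x‖ ≤ 4 * R → v x ≤ a - 2 * κ := by
    have c : IsCompact ({x : M | ‖px x‖ ≤ 4 * R} ∩ {x | R ≤ ‖px x‖}) :=
      (isCompact_px M _).inter_right (isClosed_le continuous_const cont_npx)
    obtain ⟨m, m0, hm⟩ := c.exists_forall_le' (f := fun x => a - v x) (a := 0)
      (continuous_const.sub p.smv.cont).continuousOn fun x hx => sub_pos.2 (hv x hx.2)
    refine ⟨min m a / 4, by positivity, by linarith [min_le_right m a], fun x h1 h2 => ?_⟩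
    linarith [hm x ⟨h2, h1⟩, min_le_left m a]
  obtain ⟨R', hR'⟩ := ev_cocompact.1 ((p.asy.tendsto hn).eventually
    (lt_mem_nhds (show a - κ < a by linarith)))
  obtain ⟨κ', F, hF⟩ := P366Z.UpdH.ex_fc κ0
  have dF := hF.sm.differentiable (by simp)
  have sΦ : ContDiff ℝ ∞ fun t => t - F (t - a + 3 * κ) :=
    contDiff_id.sub (hF.sm.comp (by fun_prop))
  have d1 : deriv (fun t => t - F (t - a + 3 * κ)) = fun t => 1 - deriv F (t - a + 3 * κ) :=
    funext fun t => ((hasDerivAt_id' t).sub ((dF _).hasDerivAt.comp t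
      (((hasDerivAt_id' t).sub_const a).add_const _))).deriv.trans (by ring)
  have d2 : ∀ t, deriv (fun t => 1 - deriv F (t - a + 3 * κ)) t =
      -deriv (deriv F) (t - a + 3 * κ) := fun t =>
    ((((contDiff_infty_iff_deriv.1 hF.sm).2.differentiable (by simp) _).hasDerivAt.comp t
      (((hasDerivAt_id' t).sub_const a).add_const _)).const_sub 1).deriv.trans (by ring)
  have mo : Monotone fun t => t - F (t - a + 3 * κ) :=
    monotone_of_deriv_nonneg (sΦ.differentiable (by simp)) fun t => by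
      rw [d1]; exact sub_nonneg.2 (hF.d1 _).2
  have Φ0 : ∀ t, 0 < t → 0 < t - F (t - a + 3 * κ) := fun t ht => by
    rcases le_total t (a - 2 * κ) with k | k
    · rwa [hF.zero _ (by linarith), sub_zero]
    · have := mo k
      simp only [hF.zero (a - 2 * κ - a + 3 * κ) (by linarith)] at this
      linarith
  set U : M → ℝ := fun x => v x - (1 - cut R x) * F (v x - a + 3 * κ) with hU
  have u1 : ∀ x, ‖px x‖ ≤ 4 * R → U x = v x := fun x hx => by
    rcases le_total ‖px x‖ R with k | k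
    · simp only [hU, cut_one k, sub_self, zero_mul, sub_zero]
    · simp only [hU, hF.zero (v x - a + 3 * κ) (by linarith [hκ x k hx]), mul_zero, sub_zero]
  have u2 : ∀ x, 2 * R ≤ ‖px x‖ → U x = v x - F (v x - a + 3 * κ) := fun x hx => by
    simp only [hU, cut_zero R0 hx, sub_zero, one_mul]
  have sU : P366M.Smooth U := CD.sub p.smv (CD.mul (CD.sub cd_const (sm_cut R))
    (hF.sm.compM (CD.add (CD.sub p.smv cd_const) cd_const)))
  have U0 : ∀ x, 0 < U x := fun x => by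
    rcases le_total ‖px x‖ (4 * R) with k | k
    · rw [u1 x k]; exact p.v0 x
    · rw [u2 x (by linarith)]; exact Φ0 _ (p.v0 x)
  refine ⟨U, R, max R' (2 * R), a - 3 * κ + κ', hR, by linarith [hF.le.1], sU, U0, u1,
    fun x hx => ?_, fun x hx => ?_⟩
  · rw [u2 x ((le_max_right _ _).trans hx),
      hF.lin _ (by linarith [hR' x ((le_max_left _ _).trans hx)])]
    ring
  have hρ := hR.trans_le hx
  have s0 := scal_pos p hρ
  rcases lt_or_ge ‖px x‖ (4 * R) with k | k
  · rw [scal_of_ev (g' := cf v g₀) ((ev_px_lt k).mono fun y hy => by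
      funext i j; simp only [cf, u1 y hy.le])]
    exact ⟨s0.le, fun e => absurd e s0.ne'⟩
  obtain ⟨c, c0, e⟩ := scal_far p hn hρ p.smv p.v0
  obtain ⟨c', c1, e'⟩ := scal_far p hn hρ sU U0
  have l0 : lap g₀ v x < 0 := by rw [e] at s0; nlinarith
  have ev : U =ᶠ[𝓝 x] fun y => (fun t => t - F (t - a + 3 * κ)) (v y) :=
    (ev_lt_px (show 2 * R < ‖px x‖ by linarith)).mono fun y hy => u2 y hy.le
  rw [e', lap_congr ev, p.met.lap_comp (p.smv.c2 x) (sΦ.of_le two_le_oo).contDiffAt, d1, d2]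
  have b1 := mul_nonneg (sub_nonneg.2 (hF.d1 (v x - a + 3 * κ)).2) (neg_pos.2 l0).le
  have b2 := mul_nonneg (hF.d2 (v x - a + 3 * κ)) (p.met.ip_nonneg v x)
  refine ⟨by nlinarith, fun z => ⟨k, fun i => ?_⟩⟩
  have z1 := (mul_eq_zero.1 z).resolve_left (by linarith)
  have z2 : (1 - deriv F (v x - a + 3 * κ)) * lap g₀ v x = 0 := by linarith
  rw [pd_congr ev, pd_comp (sΦ.differentiable (by simp) _).hasDerivAt (p.smv.diff x), d1]
  exact mul_eq_zero_of_left ((mul_eq_zero.1 z2).resolve_right l0.ne) _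

end Vale.Agent.P366D.Loh

namespace Vale.Agent.P366D

open Loh

/-- **LOHA** -/
theorem loha : LOHA := by
  intro n M _ g₀ v f O h ρ a β θ η hn p hβ η0 _
  obtain ⟨U, R, R', c, hR, c0, sU, U0, u1, u2, u3⟩ := exists_U p hn hβ
  have ρ0 := p.flat.pos
  have R0' : 0 < R := by linarith
  obtain ⟨L, L0, hL⟩ : ∃ L > (0 : ℝ), L * η = max R' (2 * R) :=
    ⟨max R' (2 * R) / η, by positivity, by field_simp⟩
  have l1 : R' ≤ L * η := hL ▸ le_max_left _ _
  have l2 : 2 * R ≤ L * η := hL ▸ le_max_right _ _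
  obtain ⟨φ, sφ, per, hφ⟩ := exists_per (n := n) (by omega) R0' L0
  have hG := p.met.cf sU U0
  set w : M → ℝ := fun x => (1 - cut R x) * φ (L⁻¹ • px x) with hw
  have sw : P366M.Smooth w := CD.mul (CD.sub cd_const (sm_cut R))
    (smooth_px (F := fun y => φ (L⁻¹ • y)) (sφ.comp (by fun_prop)))
  have cS : IsCompact ({x : M | R ≤ ‖px x‖} ∩ {x | ∀ i, |px x i| ≤ L / 2}) := by
    refine (isCompact_px M (n * (L / 2))).of_isClosed_subset
      ((isClosed_le continuous_const cont_npx).inter ?_) fun x hx => ?_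
    · rw [ofPred_forall]
      exact isClosed_iInter fun i => isClosed_le (sm_coord i).cont.abs continuous_const
    · refine (sq_le_sq₀ (norm_nonneg _) (by positivity)).1 ?_
      have n1 : (3 : ℝ) ≤ n := by exact_mod_cast hn
      have := Finset.sum_le_card_nsmul Finset.univ (fun i => px x i ^ 2) ((L / 2) ^ 2) fun i _ =>
        sq_le_sq' (abs_le.1 (hx.2 i)).1 (abs_le.1 (hx.2 i)).2
      rw [Finset.card_univ, Fintype.card_fin, nsmul_eq_mul, ← EuclideanSpace.real_norm_sq_eq]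
        at this
      nlinarith [mul_nonneg (show 0 ≤ (n : ℝ) ^ 2 - n by nlinarith) (sq_nonneg (L / 2))]
  obtain ⟨ε, h1, h2⟩ := ((ev_pos cS hG.sm_scal.cont (B := fun x => -2 * lap (cf U g₀) w x)
    (continuous_const.mul (hG.sm_lap sw).cont) (hG.sm_ip sw sw).cont fun x hx =>
      ⟨(u3 x hx.1).1, fun e => by
        obtain ⟨k, z⟩ := (u3 x hx.1).2 e
        have hρ := hR.trans_le hx.1
        have i0 : ip g₀ U w x = 0 := by simp [ip, z]
        have ev : w =ᶠ[𝓝 x] fun y => (fun z => φ (L⁻¹ • z)) (px y) :=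
          (cut_ev_out R0' (by linarith)).mono fun y hy => by simp only [hw, hy, sub_zero, one_mul]
        have := U0 x
        rw [p.met.lap_cf hn U0, p.met.wl_eq (sU.diff x) (sw.c2 x), i0, mul_zero, add_zero,
          lap_congr ev, p.flat.lap_eq hρ, lap_eu_px (p.flat.far hρ.le) fun z => φ (L⁻¹ • z)]
        exact mul_pos_of_neg_of_neg (by norm_num) (mul_neg_of_pos_of_neg (by positivity)
          (mul_neg_of_pos_of_neg (by positivity) (hφ _ hx.2 hx.1)))⟩).and
    (ev_sml sφ per η0)).exists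
  have b0 := P366Z.bb_pos hn
  obtain ⟨t, t0, ht⟩ : ∃ t > (0 : ℝ), t ^ (2 * bb n) * c ^ (2 * bb n) = L⁻¹ ^ 2 :=
    ⟨L⁻¹ ^ (bb n)⁻¹ / c, by positivity, by
      rw [← Real.mul_rpow (by positivity) c0.le, div_mul_cancel₀ _ c0.ne',
        ← Real.rpow_mul (by positivity), ← Real.rpow_natCast]
      congr 1
      field_simp
      norm_num⟩
  have s0 : 0 < t ^ (-bb n) := by positivity
  have sf : P366M.Smooth fun x => f x + ε * w x := CD.add p.smf (CD.mul cd_const sw)
  have eg : ∀ x, gn (cf U g₀) h x = gn (cf v g₀) h x := fun x => by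
    rcases le_or_gt ‖px x‖ R with k | k
    · exact gn_of_eq (by funext i j; simp only [cf, u1 x (by linarith)]) h
    · rw [gn_h p (hR.trans k), gn_h p (hR.trans k)]
  refine ⟨cf (fun _ => t) (cf U g₀), fun x => f x + ε * w x, fun x => t ^ (-bb n) * h x,
    fun y => ε * φ y, L, hG.cf cd_const fun _ => t0, sf, by linarith [p.flat.R], fun x hx => ?_,
    fun y z => by rw [per], h2, p.shd.opn, fun x hx => CAt.mul cAt_const (p.shd.smh x hx),
    fun x hx => mul_nonneg s0.le (p.shd.h0 x hx), fun d => ?_, fun x hx hx' => ?_, ?_⟩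
  · obtain ⟨o1, o2, o3⟩ := p.out x (by linarith)
    refine ⟨fun i j => ?_, o1, by rw [o2, mul_zero], ?_⟩
    · simp only [cf, u2 x (l1.trans hx), p.flat.eq x (by linarith), ← ht, mul_assoc]
    · simp only [hw, o3, cut_zero R0' (l2.trans hx), sub_zero, one_mul, zero_add]
  · simpa only [le_div_iff₀' s0] using p.shd.cls (d / t ^ (-bb n))
  · have e : t ^ (-(2 * bb n)) = (t ^ (-bb n)) ^ 2 := by
      rw [← Real.rpow_natCast, ← Real.rpow_mul t0.le]
      congr 1
      push_cast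
      ring
    rw [Rf_sc hG hn t0 (sf.c2 x), gn_sc hG t0, e, eg]
    have : 0 < Rf (cf U g₀) (fun x => f x + ε * w x) x + h x ^ 2 - 2 * gn (cf v g₀) h x := by
      rcases lt_or_ge ‖px x‖ R with k | k
      · rw [Rf_congr (g' := cf v g₀) (f' := f) ((ev_px_lt k).mono fun y hy => by
          funext i j; simp only [cf, u1 y (by linarith)]) ((cut_ev_in k).mono fun y hy => by
            simp only [hw, hy, sub_self, zero_mul, mul_zero, add_zero])]
        exact p.shd.pos x hx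
      · have hρ := hR.trans_le k
        rw [gn_h p hρ, Rf_congr (f' := fun y => ε * w y) .rfl ((f_ev p hρ).mono fun y hy => by
          simp only [hy, zero_add]), Rf, lap_const_mul,
          ip_of_pd (pd_const_mul ε) (pd_const_mul ε)]
        linarith [h1 x ⟨k, hx'⟩, sq_nonneg (h x)]
    linarith [mul_pos (pow_pos s0 2) this]
  · obtain ⟨h₁, k⟩ := p.shd.big
    refine ⟨t ^ (-bb n) * h₁, fun x hx hx' => ?_⟩
    rw [gn_sc hG t0, eg]
    linarith [mul_le_mul_of_nonneg_left (k x hx (le_of_mul_le_mul_left hx' s0)) (pow_pos s0 2).le]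

end Vale.Agent.P366D
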