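import Vale.Agent.P366M.Map2

/-!
# P366D: quotients by local isometries
-/

open MeasureTheory Metric Filter Topology Set Matrix
open scoped ContDiff
open Vale.Agent.P366 Vale.Agent.P366.Stmt Vale.Agent.P366M Vale.Agent.P366N

noncomputable section

namespace Vale.Agent.P366D

variable {n : ℕ} {M : Type} [Mf0 n M] {g : Fld n M}

section Iso

variable {Z : Type} [Mf0 n Z] {Φ Ψ : Z → M} {g' : Fld n Z} {x : Z}

theorem IsoM.congr (h : IsoM Φ g g' x) (e : Ψ =ᶠ[𝓝 x] Φ) : IsoM Ψ g g' x :=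
  ⟨by filter_upwards [h.sm, e.eventuallyEq_nhds] with z a b using a.congr b, h.m, h.m',
    h.eq.trans (e.eventuallyEq_nhds.mono fun _ hz => (pull_congr hz rfl).symm)⟩

theorem isoM_id (hg : Met g) (x : M) : IsoM (fun z => z) g g x :=
  ⟨.of_forall smM_id, hg, hg, by rw [pull_id]⟩

theorem IsoM.map_nhds (h : IsoM Φ g g' x) : map Φ (𝓝 x) = 𝓝 (Φ x) := by
  have h1 := h.iso_pt.lp.map_nhds
  have h2 := map_symm (ch_mem x) (pt x)
  rw [symm_pt] at h2
  rw [loc_pt] at h1
  rw [← h1, ← h2, Filter.map_map]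
  rfl

/-- smoothness descends along local isometries -/
theorem IsoM.cAt_down {V : Type} [NormedAddCommGroup V] [NormedSpace ℝ V] {u : M → V}
    {m : WithTop ℕ∞} (h : IsoM Φ g g' x) (hm : m ≤ ∞) (hu : CAt m (fun z => u (Φ z)) x) :
    CAt m u (Φ x) := by
  obtain ⟨c, hc, h1, -, h2⟩ := exists_chart h.sm h.unit (ch_mem (Φ x)) (mem_ch _) univ_mem
  have h3 : pt (Φ x) = c x := h2.self_of_nhds.symm
  have h4 := h2.and (h.s.ct.eventually ((ch (Φ x)).open_source.mem_nhds (mem_ch _)))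
  rw [← c.left_inv h1] at hu
  unfold CAt
  rw [h3]
  refine (hu.lc hm hc).congr_of_eventuallyEq ?_
  filter_upwards [(ev_iff hc (y := c x)).1 (by rw [c.left_inv h1]; exact h4)] with y hy
  have h5 := (ch (Φ x)).left_inv hy.2
  rw [← hy.1, right_inv hc] at h5
  exact congrArg u h5

end Iso

/-- local sections -/
abbrev Sc {X : Type} [TopologicalSpace X] (N : Set M) (q : M → X) (b : OpenPartialHomeomorph M X) :
    Prop := b.source ⊆ N ∧ ∀ y, b y = q y

/-- the metric of the quotient -/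
theorem desc {X : Type} [Mf0 n X] {q : M → X} {N : Set M} (hg : Met g) (hN : IsOpen N)
    (sec : ∀ x ∈ N, ∃ b, Sc N q b ∧ x ∈ b.source) (sec' : ∀ w, ∃ b, Sc N q b ∧ w ∈ b.target)
    (key : ∀ b, Sc N q b → ∀ p ∈ N, q p ∈ b.target → IsoM (fun x => b.symm (q x)) g g p)
    (sq : ∀ x ∈ N, SmM q x) (ss : ∀ b, Sc N q b → ∀ w ∈ b.target, SmM b.symm w) :
    ∃ g' : Fld n X, Met g' ∧ ∀ x ∈ N, IsoM q g' g x := by
  have rt : ∀ b, Sc N q b → ∀ w ∈ b.target, (fun w => q (b.symm w)) =ᶠ[𝓝 w] fun w => w :=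
    fun b hb w h => eventually_of_mem (b.open_target.mem_nhds h)
      fun v hv => (hb.2 _).symm.trans (b.right_inv hv)
  choose s s1 s2 using sec'
  have e : ∀ b, Sc N q b → ∀ w ∈ b.target, pull (s w).symm g w = pull b.symm g w :=
    fun b hb w h => by
      have h1 := key _ (s1 w) _ (hb.1 (b.map_target h))
        ((show q (b.symm w) = w from (rt b hb w h).self_of_nhds).symm ▸ s2 w)
      rw [pull_congr (Φ := b.symm) (Ψ := b.symm) .rfl h1.eq.self_of_nhds,
        pull_pull h1.s (ss b hb w h)]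
      exact pull_congr ((rt b hb w h).mono fun v hv => congrArg _ hv.symm) rfl
  have hg' : Met fun w => pull (s w).symm g w := by
    refine ⟨smT_of fun w => ⟨_, ch_mem w, mem_ch w, fun i j => ?_⟩, fun _ => pull_sy (hg.sy _),
      fun w => pull_pos (Φ := (s w).symm) (hg.pos _) (inj_of_left (B := jm q ((s w).symm w)) ?_)⟩
    · have h1 := (s w).open_target.mem_nhds (s2 w)
      refine (cd_rep_pull (ch_mem w) (y := pt w) (by
        rw [symm_pt]; exact eventually_of_mem h1 (ss _ (s1 w))) hg.sm i j).congr_of_eventuallyEq ?_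
      exact (rep_congr_pt (eventually_of_mem h1 (e _ (s1 w)))).mono fun y hy => by simp only [hy]
    · rw [← jm_comp (sq _ ((s1 w).1 ((s w).map_target (s2 w)))) (ss _ (s1 w) w (s2 w)),
        jm_congr (rt _ (s1 w) w (s2 w)), jm_id]
  refine ⟨_, hg', fun x h => ⟨eventually_of_mem (hN.mem_nhds h) sq, hg', hg, ?_⟩⟩
  obtain ⟨b, hb, h1⟩ := sec x h
  filter_upwards [b.open_source.mem_nhds h1] with y hy
  have h2 : q y ∈ b.target := hb.2 y ▸ b.map_source hy
  rw [pull_congr (Φ := q) (T := fun w => pull (s w).symm g w) .rfl (e b hb _ h2),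
    pull_pull (ss b hb _ h2) (sq y (hb.1 hy))]
  exact (key b hb y (hb.1 hy) h2).eq.self_of_nhds

/-- **the quotient** -/
theorem quo {X : Type} [MetricSpace X] {q : M → X} {N D : Set M} (hg : Met g) (hN : IsOpen N)
    (hD : IsCompact D) (hDN : D ⊆ N) (sur : q '' D = univ) (ct : ContinuousOn q N)
    (inj : ∀ x ∈ N, ∃ U ∈ 𝓝 x, InjOn q U) (deck : ∀ p ∈ N, ∀ p' ∈ N, q p = q p' →
      ∃ T : M → M, T p = p' ∧ IsoM T g g p ∧ ∀ᶠ x in 𝓝 p, q (T x) = q x) :
    ∃ (X' : Type) (_ : Mf n X') (_ : CompactSpace X') (q' : M → X'),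
      (∀ x x', q' x = q' x' ↔ q x = q x') ∧ q' '' D = univ ∧ ∀ x ∈ N, IsoM q' bg g x := by
  have cpt : CompactSpace X := ⟨sur ▸ hD.image_of_continuousOn (ct.mono hDN)⟩
  have : Nonempty X := ⟨q (Classical.arbitrary M)⟩
  have opn : ∀ U ⊆ N, IsOpen U → IsOpen (q '' U) := fun U h1 h2 => by
    have h3 : IsOpen {x | x ∈ N ∧ q x ∈ q '' U} := isOpen_iff_mem_nhds.2 fun x ⟨a, u, hu, e⟩ => by
      obtain ⟨T, t1, t2, t3⟩ := deck x a u (h1 hu) e.symm
      filter_upwards [hN.mem_nhds a, t3, t2.s.ct.eventually (h2.mem_nhds (t1 ▸ hu))] with y b c d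
        using ⟨b, _, d, c⟩
    rw [← isClosed_compl_iff]
    convert ((hD.diff h3).image_of_continuousOn (ct.mono fun _ h => hDN h.1)).isClosed using 1
    ext w
    constructor
    · intro hw
      obtain ⟨x, hx, rfl⟩ : w ∈ q '' D := sur ▸ mem_univ w
      exact ⟨x, ⟨hx, fun k => hw k.2⟩, rfl⟩
    · rintro ⟨x, hx, rfl⟩ k
      exact hx.2 ⟨hDN hx.1, k⟩
  have sec : ∀ x ∈ N, ∃ b, Sc N q b ∧
      x ∈ b.source := fun x hx => by
    obtain ⟨U, h1, h2⟩ := inj x hx
    have h3 : IsOpen (interior U ∩ N) := isOpen_interior.inter hN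
    exact ⟨OpenPartialHomeomorph.ofContinuousOpenRestrict
      ((h2.mono fun _ h => interior_subset h.1 : InjOn q (interior U ∩ N)).toPartialEquiv q _)
      (ct.mono inter_subset_right) (fun V hV => by
        have := opn _ (by rintro _ ⟨y, -, rfl⟩; exact y.2.2) (h3.isOpenMap_subtype_val V hV)
        exact (image_image q Subtype.val V).subst this) h3, ⟨inter_subset_right, fun _ => rfl⟩,
      mem_interior_iff_mem_nhds.2 h1, hx⟩
  have key : ∀ b, Sc N q b → ∀ p ∈ N,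
      q p ∈ b.target → IsoM (fun x => b.symm (q x)) g g p := fun b hb p hp h => by
    obtain ⟨T, t1, t2, t3⟩ := deck p hp _ (hb.1 (b.map_target h)) ((b.right_inv h).symm.trans (hb.2 _))
    refine t2.congr ?_
    filter_upwards [t3, t2.s.ct.eventually (b.open_source.mem_nhds (t1 ▸ b.map_target h))]
      with x a c
    rw [← a, ← hb.2, b.left_inv c]
  have sec' : ∀ w, ∃ b, Sc N q b ∧
      w ∈ b.target := fun w => by
    obtain ⟨x, hx, rfl⟩ : w ∈ q '' D := sur ▸ mem_univ w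
    obtain ⟨b, hb, h⟩ := sec x (hDN hx)
    exact ⟨b, hb, hb.2 x ▸ b.map_source h⟩
  let A : Atl X (E n) :=
    { s := {c | ∃ b x, Sc N q b ∧
        c = b.symm.trans (ch x)}
      cov := fun w => by
        obtain ⟨b, hb, h⟩ := sec' w
        exact ⟨_, ⟨b, b.symm w, hb, rfl⟩, h, mem_ch _⟩
      cp := by
        rintro _ ⟨b, x, hb, rfl⟩ _ ⟨b', x', hb', rfl⟩ y hy h
        have h1 : b ((ch x).symm y) ∈ b'.target ∧ b'.symm (b ((ch x).symm y)) ∈ (ch x').source := h
        rw [hb.2] at h1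
        have := ((key b' hb' _ (hb.1 hy.2) h1.1).s.after (smP_symm (ch_mem x) y)).cd (ch_mem x') h1.2
        simp only [← hb.2] at this
        exact this }
  choose c c1 c2 c3 using A.pref
  let m : Mf0 n X := A.mf0 c fun x => ⟨c1 x, c2 x, c3 x⟩
  have hx : ∀ b ∈ A.s, (atl X).Mx b := fun b hb => by
    rintro _ ⟨x, rfl⟩
    exact (c1 x b hb).symm
  have sq : ∀ x ∈ N, SmM q x := fun x h => by
    obtain ⟨b, hb, h1⟩ := sec x h
    refine (smP_mx (hx _ ⟨b, x, hb, rfl⟩) (y := pt x)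
      ⟨mem_tgt (ch_mem x) _, by rw [mem_preimage, symm_pt]; exact h1⟩).congr ?_
    exact .of_forall fun y => (hb.2 _).symm
  have ss : ∀ b, Sc N q b → ∀ w ∈ b.target,
      SmM b.symm w := fun b hb w h => by
    refine smM_of_mx (hx _ ⟨b, b.symm w, hb, rfl⟩) ⟨h, mem_ch _⟩
      ((smP_symm (ch_mem (b.symm w)) (pt (b.symm w))).congr ?_)
    exact (ev_pt.1 (b.open_source.mem_nhds (b.map_target h))).mono fun y hy => b.left_inv hy
  obtain ⟨g', h1, h2⟩ := desc hg hN sec sec' key sq ss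
  exact ⟨X, ⟨g', h1⟩, cpt, q, fun _ _ => .rfl, sur, h2⟩

end Vale.Agent.P366D
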