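import Vale.Agent.P366D.Map
import Vale.Agent.P366M.Calc
import Mathlib.Data.Matrix.ColumnRowPartitioned
import Mathlib.Analysis.Matrix.Order

/-!
# P366D: restriction to an immersed submanifold
-/

open MeasureTheory Metric Filter Topology Set Matrix
open scoped ContDiff
open Vale.Agent.P366 Vale.Agent.P366.Stmt Vale.Agent.P366M
open Vale.Agent.P366P (Gam DA Dm)

noncomputable section

namespace Vale.Agent.P366D

/-- rectangular matrices -/
abbrev Rx (p q : ℕ) := Matrix (Fin p) (Fin q) ℝ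

section Alg

variable {k n : ℕ} {B : Rx n k} {G : Rx n n} {γ : Rx k k}

theorem tr_of_posDef (hG : G.PosDef) : Gᵀ = G := by
  have := hG.1
  rwa [Matrix.IsHermitian, Matrix.conjTranspose_eq_transpose_of_trivial] at this

theorem quad_nonneg (hG : G.PosSemidef) (v : Fin n → ℝ) : 0 ≤ v ⬝ᵥ (G *ᵥ v) := by
  simpa using hG.dotProduct_mulVec_nonneg v

/-- the tangential part of a covector is shorter -/
theorem proj_le (hG : G.PosDef) (hγ : γ.PosDef) (e : γ = Bᵀ * G * B) (ξ : Fin n → ℝ) :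
    (Bᵀ *ᵥ ξ) ⬝ᵥ (γ⁻¹ *ᵥ (Bᵀ *ᵥ ξ)) ≤ ξ ⬝ᵥ (G⁻¹ *ᵥ ξ) := by
  have u := (Matrix.isUnit_iff_isUnit_det _).1 hG.isUnit
  have u' := (Matrix.isUnit_iff_isUnit_det _).1 hγ.isUnit
  set w := γ⁻¹ *ᵥ (Bᵀ *ᵥ ξ) with hw
  have h1 : G *ᵥ (G⁻¹ *ᵥ ξ) = ξ := by
    rw [Matrix.mulVec_mulVec, Matrix.mul_nonsing_inv _ u, Matrix.one_mulVec]
  have h2 : (B *ᵥ w) ⬝ᵥ ξ = (Bᵀ *ᵥ ξ) ⬝ᵥ w := by
    rw [Matrix.mulVec_transpose, ← Matrix.dotProduct_mulVec, dotProduct_comm]
  have h3 : (B *ᵥ w) ⬝ᵥ (G *ᵥ (B *ᵥ w)) = (Bᵀ *ᵥ ξ) ⬝ᵥ w := by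
    rw [dotProduct_comm, Matrix.dotProduct_mulVec, ← Matrix.mulVec_transpose, Matrix.mulVec_mulVec,
      Matrix.mulVec_mulVec, ← e, hw, Matrix.mulVec_mulVec, Matrix.mul_nonsing_inv _ u',
      Matrix.one_mulVec]
  have h4 : (G⁻¹ *ᵥ ξ) ⬝ᵥ (G *ᵥ (B *ᵥ w)) = (Bᵀ *ᵥ ξ) ⬝ᵥ w := by
    rw [Matrix.dotProduct_mulVec, ← Matrix.mulVec_transpose, tr_of_posDef hG, h1,
      dotProduct_comm, h2]
  have h5 := quad_nonneg hG.posSemidef (G⁻¹ *ᵥ ξ - B *ᵥ w)
  rw [Matrix.mulVec_sub, h1, sub_dotProduct, dotProduct_sub, dotProduct_sub, h2, h3, h4,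
    dotProduct_comm] at h5
  linarith

/-- the projection to a hyperplane -/
theorem proj_eq {B : Rx (k + 1) k} {G : Rx (k + 1) (k + 1)} (hG : G.PosDef) (hγ : γ.PosDef)
    (e : γ = Bᵀ * G * B) {ν : Fin (k + 1) → ℝ} (h1 : ν ⬝ᵥ (G *ᵥ ν) = 1)
    (h2 : Bᵀ *ᵥ (G *ᵥ ν) = 0) : B * γ⁻¹ * Bᵀ = G⁻¹ - vecMulVec ν ν := by
  have u := (Matrix.isUnit_iff_isUnit_det _).1 hG.isUnit
  have u' := (Matrix.isUnit_iff_isUnit_det _).1 hγ.isUnit
  set N : Matrix (Fin (k + 1)) (Fin 1) ℝ := Matrix.replicateCol (Fin 1) ν with hN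
  have a1 : Bᵀ * G * N = 0 := by
    rw [hN, ← Matrix.replicateCol_mulVec, ← Matrix.mulVec_mulVec, h2]; rfl
  have a2 : Nᵀ * G * B = 0 := by
    have := congrArg Matrix.transpose a1
    rwa [Matrix.transpose_mul, Matrix.transpose_mul, tr_of_posDef hG, Matrix.transpose_transpose,
      ← Matrix.mul_assoc, Matrix.transpose_zero] at this
  have a3 : Nᵀ * G * N = 1 := by
    ext i j
    rw [Matrix.mul_assoc, hN, ← Matrix.replicateCol_mulVec, Subsingleton.elim i j,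
      Matrix.one_apply_eq, ← h1]
    rfl
  have a4 : Matrix.fromRows (γ⁻¹ * Bᵀ * G) (Nᵀ * G) * Matrix.fromCols B N = 1 := by
    rw [Matrix.fromRows_mul_fromCols, a2, a3, Matrix.mul_assoc γ⁻¹, Matrix.mul_assoc γ⁻¹,
      Matrix.mul_assoc γ⁻¹, ← e, a1, Matrix.nonsing_inv_mul _ u', Matrix.mul_zero,
      Matrix.fromBlocks_one]
  have a5 := (Matrix.mul_eq_one_comm_of_equiv finSumFinEquiv).1 a4
  rw [Matrix.fromCols_mul_fromRows] at a5
  have a6 : N * Nᵀ = vecMulVec ν ν := by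
    rw [Matrix.vecMulVec_eq (Fin 1)]; rfl
  rw [eq_sub_iff_add_eq, ← a6]
  refine (Matrix.inv_eq_left_inv ?_).symm
  rw [← a5, Matrix.add_mul]
  simp only [Matrix.mul_assoc]

theorem tr_nonneg {T : Rx k k} (hγ : γ.PosSemidef) (hT : T.PosSemidef) :
    0 ≤ ∑ i, ∑ j, γ i j * T i j := by
  simpa [dotProduct, mulVec] using quad_nonneg (hγ.hadamard hT) fun _ => 1

end Alg

/-! ### entrywise calculus -/

section Entry

variable {k n p q r : ℕ} {A A' : E k → Rx p q} {C : E k → Rx q r} {x : E k}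

/-- entrywise differentiability -/
def DR (A : E k → Rx p q) (x : E k) : Prop := ∀ i j, DifferentiableAt ℝ (fun y => A y i j) x

/-- the entrywise derivative -/
def Dr (l : Fin k) (A : E k → Rx p q) : E k → Rx p q :=
  fun x => Matrix.of fun i j => Stmt.pd l (fun y => A y i j) x

theorem DR.mul (hA : DR A x) (hC : DR C x) : DR (fun y => A y * C y) x := fun i j => by
  simp only [Matrix.mul_apply]
  exact DifferentiableAt.fun_sum fun l _ => (hA i l).mul (hC l j)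

theorem DR.add (hA : DR A x) (hC : DR A' x) : DR (fun y => A y + A' y) x := fun i j =>
  (hA i j).add (hC i j)

theorem DR.sub (hA : DR A x) (hC : DR A' x) : DR (fun y => A y - A' y) x := fun i j =>
  (hA i j).sub (hC i j)

theorem DR.tr (hA : DR A x) : DR (fun y => (A y)ᵀ) x := fun i j => hA j i

theorem Dr_congr (h : A' =ᶠ[𝓝 x] A) (l : Fin k) : Dr l A' x = Dr l A x := by
  ext i j
  exact P366Z.pd_congr (f := fun y => A' y i j) (h := fun y => A y i j) (h.mono fun y hy => by simp only [hy]) l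

theorem Dr_tr (l : Fin k) : Dr l (fun y => (A y)ᵀ) x = (Dr l A x)ᵀ := rfl

theorem Dr_mul (hA : DR A x) (hC : DR C x) (l : Fin k) :
    Dr l (fun y => A y * C y) x = Dr l A x * C x + A x * Dr l C x := by
  ext i j
  rw [Matrix.add_apply, Matrix.mul_apply, Matrix.mul_apply, ← Finset.sum_add_distrib]
  refine (P366Z.pd_sum Finset.univ (F := fun m y => A y i m * C y m j) (x := x)
    (fun m _ => (hA i m).mul (hC m j)) l).trans (Finset.sum_congr rfl fun m _ => ?_)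
  exact P366Z.pd_mul (hA i m) (hC m j) l

theorem Dr_add (hA : DR A x) (hC : DR A' x) (l : Fin k) :
    Dr l (fun y => A y + A' y) x = Dr l A x + Dr l A' x := by
  ext i j
  exact P366Z.pd_add (hA i j) (hC i j) l

theorem Dr_sub (hA : DR A x) (hC : DR A' x) (l : Fin k) :
    Dr l (fun y => A y - A' y) x = Dr l A x - Dr l A' x := by
  ext i j
  exact P366Z.pd_sub (hA i j) (hC i j) l

theorem DR.chain {φ : E k → E n} {A : E n → Rx p q} (hA : DR A (φ x))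
    (hφ : DifferentiableAt ℝ φ x) : DR (fun y => A (φ y)) x := fun i j => (hA i j).comp x hφ

theorem Dr_chain {φ : E k → E n} {A : E n → Rx p q} (hA : DR A (φ x))
    (hφ : DifferentiableAt ℝ φ x) (l : Fin k) :
    Dr l (fun y => A (φ y)) x = ∑ a, jac φ x a l • Dr a A (φ x) := by
  ext i j
  rw [Matrix.sum_apply]
  exact pd_chain (f := fun y => A y i j) (hA i j) hφ l

end Entry

/-! ### immersions of Euclidean spaces -/

section Im

variable {k n : ℕ} {φ : E k → E n} {G T : Field n} {γ : Field k} {y : E k} {Q F : E n → ℝ}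
  {u : E k → ℝ}

/-- the metric `γ` is induced by `φ` near `y` -/
structure Im (φ : E k → E n) (G : Field n) (γ : Field k) (y : E k) : Prop where
  sm : ContDiffAt ℝ 3 φ y
  m : P366Z.Met G
  m' : P366Z.Met γ
  eq : γ =ᶠ[𝓝 y] pb φ G

/-- the symbols of `G` along `φ` -/
def Aφ (φ : E k → E n) (G : Field n) (i : Fin k) : E k → Rx n n :=
  fun y => ∑ a, jac φ y a i • Gam G a (φ y)

/-- the covariant derivative of the tangent frame -/
def Nφ (φ : E k → E n) (G : Field n) (i : Fin k) : E k → Rx n k :=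
  fun y => Dr i (jac φ) y + Aφ φ G i y * jac φ y

/-- the second fundamental form: `II φ G γ i y a j` is the component `a` of `II (e_i, e_j)` -/
def II (φ : E k → E n) (G : Field n) (γ : Field k) (i : Fin k) : E k → Rx n k :=
  fun y => Nφ φ G i y - jac φ y * Gam γ i y

/-- the mean curvature vector -/
def Hv (φ : E k → E n) (G : Field n) (γ : Field k) (y : E k) (a : Fin n) : ℝ :=
  ∑ i, ∑ j, Stmt.up γ i j y * II φ G γ i y a j

theorem Nφ_apply (φ : E k → E n) (G : Field n) (i : Fin k) (y : E k) (a : Fin n) (j : Fin k) :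
    Nφ φ G i y a j = Stmt.pd i (fun z => jac φ z a j) y +
      ∑ b, ∑ c, jac φ y b i * jac φ y c j * Stmt.chr G a b c (φ y) := by
  unfold Nφ Aφ
  rw [Matrix.add_apply, Matrix.mul_apply, Finset.sum_comm]
  congr 1
  refine Finset.sum_congr rfl fun c _ => ?_
  rw [Matrix.sum_apply, Finset.sum_mul]
  refine Finset.sum_congr rfl fun b _ => ?_
  show jac φ y b i * Stmt.chr G a b c (φ y) * jac φ y c j = _
  ring

namespace Im

variable (h : Im φ G γ y)
include h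

theorem diff : DifferentiableAt ℝ φ y := h.sm.differentiableAt (by norm_num)

theorem ev : ∀ᶠ z in 𝓝 y, Im φ G γ z := by
  filter_upwards [h.sm.eventually (by norm_num), h.eq.eventuallyEq_nhds] with z a b
  exact ⟨a, h.m, h.m', b⟩

theorem smB (a : Fin n) (i : Fin k) : ContDiffAt ℝ 2 (fun z => jac φ z a i) y :=
  P366Z.contDiffAt_pd (cd_coord h.sm a) (by norm_num) i

theorem daB : DR (jac φ) y := fun a i => P366Z.diff2 (h.smB a i)

theorem mat_eq : Stmt.mat γ y = (jac φ y)ᵀ * Stmt.mat G (φ y) * jac φ y :=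
  h.eq.self_of_nhds.trans (mat_pb φ G y)

theorem N_sy (i : Fin k) (a : Fin n) (j : Fin k) : Nφ φ G i y a j = Nφ φ G j y a i := by
  rw [Nφ_apply, Nφ_apply, Finset.sum_comm]
  congr 1
  · exact P366Z.pd_comm (f := fun z => φ z a) ((cd_coord h.sm a).of_le (by norm_num)) i j
  · exact Finset.sum_congr rfl fun b _ => Finset.sum_congr rfl fun c _ => by
      rw [h.m.chr_sy a c b]; ring

theorem II_sy (i : Fin k) (a : Fin n) (j : Fin k) : II φ G γ i y a j = II φ G γ j y a i := by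
  unfold II
  rw [Matrix.sub_apply, Matrix.sub_apply, h.N_sy, Matrix.mul_apply, Matrix.mul_apply]
  congr 1
  exact Finset.sum_congr rfl fun m _ => congrArg _ (h.m'.chr_sy m i j y)

theorem Dr_G (l : Fin k) : Dr l (fun z => Stmt.mat G (φ z)) y =
    (Aφ φ G l y)ᵀ * Stmt.mat G (φ y) + Stmt.mat G (φ y) * Aφ φ G l y := by
  rw [Dr_chain (A := Stmt.mat G) (h.m.da _) h.diff, Aφ, Matrix.transpose_sum, Matrix.sum_mul,
    Matrix.mul_sum, ← Finset.sum_add_distrib]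
  refine Finset.sum_congr rfl fun a _ => ?_
  rw [show Dr a (Stmt.mat G) (φ y) = _ from h.m.Dm_mat a (φ y), Matrix.transpose_smul,
    Matrix.smul_mul, Matrix.mul_smul, smul_add]

/-- **the second fundamental form is normal** -/
theorem normal (i : Fin k) : (jac φ y)ᵀ * Stmt.mat G (φ y) * II φ G γ i y = 0 := by
  set L : Fin k → Rx k k := fun i => (jac φ y)ᵀ * Stmt.mat G (φ y) * Nφ φ G i y with hL
  have h0 : DR (fun z => Stmt.mat G (φ z)) y := DR.chain (A := Stmt.mat G) (h.m.da _) h.diff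
  have h1 : ∀ l, Dr l (Stmt.mat γ) y = (L l)ᵀ + L l := fun l => by
    rw [Dr_congr (A' := Stmt.mat γ) (h.ev.mono fun z hz => hz.mat_eq),
      Dr_mul (h.daB.tr.mul h0) h.daB, Dr_mul h.daB.tr h0, Dr_tr, h.Dr_G]
    simp only [hL, Nφ, Matrix.transpose_mul, Matrix.transpose_add, Matrix.transpose_transpose,
      h.m.mat_tr, Matrix.mul_add, Matrix.add_mul, Matrix.mul_assoc]
    abel
  have h2 : ∀ i l j, L i l j = L j l i := fun i l j => by
    simp only [hL]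
    rw [Matrix.mul_apply, Matrix.mul_apply]
    exact Finset.sum_congr rfl fun a _ => by rw [h.N_sy]
  have h3 : Stmt.mat γ y * Gam γ i y = L i := by
    ext l j
    have e : ∀ a b c, Stmt.pd a (fun z => γ z b c) y = L a c b + L a b c := fun a b c =>
      congrFun (congrFun (h1 a) b) c
    refine (h.m'.g_chr l i j y).trans ?_
    rw [e, e, e, h2 j l i, h2 i j l, h2 j i l]
    ring
  rw [II, Matrix.mul_sub, ← Matrix.mul_assoc, ← h.mat_eq, h3, sub_self]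

theorem pd_eq (hQ : DifferentiableAt ℝ Q (φ y)) (e : u =ᶠ[𝓝 y] fun z => Q (φ z)) (i : Fin k) :
    Stmt.pd i u y = ∑ a, jac φ y a i * Stmt.pd a Q (φ y) := by
  rw [P366Z.pd_congr e, pd_chain hQ h.diff]

/-- the Hessian of a restriction -/
theorem hess (hQ : ContDiffAt ℝ 2 Q (φ y)) (e : u =ᶠ[𝓝 y] fun z => Q (φ z)) (i j : Fin k) :
    Stmt.hess γ u y i j = pb φ (Stmt.hess G Q) y i j +
      ∑ a, Stmt.pd a Q (φ y) * II φ G γ i y a j := by
  have h1 : ∀ b, DifferentiableAt ℝ (fun z => Stmt.pd b Q (φ z)) y := fun b =>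
    (P366Z.diffAt_pd hQ b).comp y h.diff
  have h2 : Stmt.pd j u =ᶠ[𝓝 y] fun z => ∑ b, jac φ z b j * Stmt.pd b Q (φ z) := by
    filter_upwards [h.ev, h.diff.continuousAt.eventually (P366Z.ev_diff hQ), e.eventuallyEq_nhds]
      with z a b c using a.pd_eq b c j
  have h3 : ∀ b, Stmt.pd i (fun z => jac φ z b j * Stmt.pd b Q (φ z)) y =
      Stmt.pd i (fun z => jac φ z b j) y * Stmt.pd b Q (φ y) +
        jac φ y b j * ∑ a, jac φ y a i * Stmt.pd a (Stmt.pd b Q) (φ y) := fun b => by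
    rw [P366Z.pd_mul (h.daB b j) (h1 b), pd_chain (P366Z.diffAt_pd hQ b) h.diff]
  unfold Stmt.hess pb II
  rw [P366Z.pd_congr h2, P366Z.pd_sum Finset.univ
    (F := fun b z => jac φ z b j * Stmt.pd b Q (φ z)) fun b _ => (h.daB b j).fun_mul (h1 b)]
  simp only [h3, h.pd_eq (P366Z.diff2 hQ) e, Matrix.sub_apply, Nφ_apply, Matrix.mul_apply, mul_sub,
    mul_add, Finset.sum_sub_distrib, Finset.sum_add_distrib, Finset.mul_sum]
  have e1 : ∑ b, ∑ a, jac φ y b j * (jac φ y a i * Stmt.pd a (Stmt.pd b Q) (φ y)) =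
      ∑ a, ∑ b, jac φ y a i * jac φ y b j * Stmt.pd a (Stmt.pd b Q) (φ y) :=
    Finset.sum_comm.trans (Finset.sum_congr rfl fun a _ => Finset.sum_congr rfl fun b _ => by ring)
  have e2 : ∑ a, ∑ b, ∑ c, jac φ y a i * jac φ y b j * (Stmt.chr G c a b (φ y) * Stmt.pd c Q (φ y)) =
      ∑ c, ∑ a, ∑ b, Stmt.pd c Q (φ y) * (jac φ y a i * jac φ y b j * Stmt.chr G c a b (φ y)) := by
    refine (Finset.sum_congr rfl fun a _ => Finset.sum_comm).trans (Finset.sum_comm.trans ?_)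
    exact Finset.sum_congr rfl fun c _ => Finset.sum_congr rfl fun a _ =>
      Finset.sum_congr rfl fun b _ => by ring
  have e3 : ∑ m, ∑ a, Stmt.chr γ m i j y * (jac φ y a m * Stmt.pd a Q (φ y)) =
      ∑ a, ∑ m, Stmt.pd a Q (φ y) * (jac φ y a m * Gam γ i y m j) :=
    Finset.sum_comm.trans (Finset.sum_congr rfl fun a _ => Finset.sum_congr rfl fun m _ => by
      show _ = _ * (_ * Stmt.chr γ m i j y); ring)
  have e4 : ∑ b, Stmt.pd i (fun z => jac φ z b j) y * Stmt.pd b Q (φ y) =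
      ∑ b, Stmt.pd b Q (φ y) * Stmt.pd i (fun z => jac φ z b j) y :=
    Finset.sum_congr rfl fun b _ => mul_comm _ _
  rw [e1, e2, e3, e4]
  ring

/-- the Laplacian of a restriction -/
theorem lap (hQ : ContDiffAt ℝ 2 Q (φ y)) (e : u =ᶠ[𝓝 y] fun z => Q (φ z)) :
    P366Z.lap γ u y = Stmt.tr γ (pb φ (Stmt.hess G Q)) y +
      ∑ a, Stmt.pd a Q (φ y) * Hv φ G γ y a := by
  rw [h.m'.lap_eq_tr ((hQ.comp y (h.sm.of_le (by norm_num))).congr_of_eventuallyEq e)]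
  unfold Stmt.tr Hv
  simp only [h.hess hQ e, mul_add, Finset.sum_add_distrib, Finset.mul_sum]
  congr 1
  refine (Finset.sum_congr rfl fun i _ => Finset.sum_comm).trans (Finset.sum_comm.trans ?_)
  exact Finset.sum_congr rfl fun a _ => Finset.sum_congr rfl fun i _ =>
    Finset.sum_congr rfl fun j _ => by ring

theorem normal_Hv : (jac φ y)ᵀ *ᵥ (Stmt.mat G (φ y) *ᵥ Hv φ G γ y) = 0 := by
  have : Hv φ G γ y = ∑ i, II φ G γ i y *ᵥ fun j => Stmt.up γ i j y := by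
    funext a
    simp only [Hv, Finset.sum_apply, mulVec, dotProduct, mul_comm]
  rw [this, Matrix.mulVec_mulVec, Matrix.mulVec_sum]
  exact Finset.sum_eq_zero fun i _ => by rw [Matrix.mulVec_mulVec, h.normal, Matrix.zero_mulVec]

theorem ip_le (hQ : DifferentiableAt ℝ Q (φ y)) (e : u =ᶠ[𝓝 y] fun z => Q (φ z)) :
    P366Z.ip γ u u y ≤ P366Z.ip G Q Q (φ y) := by
  have := proj_le (h.m.pos _) (h.m'.pos y) h.mat_eq fun a => Stmt.pd a Q (φ y)
  rw [← quad_dot, ← quad_dot] at this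
  unfold P366Z.ip
  simp only [h.pd_eq hQ e]
  exact this

omit h in
theorem tr_pb (T : Field n) : Stmt.tr γ (pb φ T) y =
    ∑ a, ∑ b, (jac φ y * (Stmt.mat γ y)⁻¹ * (jac φ y)ᵀ) a b * T (φ y) a b := by
  have h1 := pair_eq (Stmt.mat γ y)⁻¹ (Stmt.mat (pb φ T) y)
  have h2 := pair_eq (jac φ y * (Stmt.mat γ y)⁻¹ * (jac φ y)ᵀ) (Stmt.mat T (φ y))
  refine h1.trans (Eq.trans ?_ h2.symm)
  rw [mat_pb, Matrix.transpose_mul, Matrix.transpose_mul, Matrix.transpose_transpose,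
    ← Matrix.mul_assoc, ← Matrix.mul_assoc, Matrix.trace_mul_comm]
  simp only [Matrix.mul_assoc]

end Im

/-! ### hypersurfaces -/

namespace Im

variable {φ : E k → E (k + 1)} {G T : Stmt.Field (k + 1)} {Q F : E (k + 1) → ℝ} {c : ℝ}
  (h : Im φ G γ y)
include h

omit h in
theorem nrm_eq (G : Field n) (F : E n → ℝ) (x : E n) : (fun a => Stmt.nrm G F a x) =
    (P366Z.gn G F x)⁻¹ • ((Stmt.mat G x)⁻¹ *ᵥ fun a => Stmt.pd a F x) := by
  funext a
  exact div_eq_inv_mul _ _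

omit h in
theorem low_nrm {G : Field n} (hG : P366Z.Met G) (F : E n → ℝ) (x : E n) :
    Stmt.mat G x *ᵥ (fun a => Stmt.nrm G F a x) = (P366Z.gn G F x)⁻¹ • fun a => Stmt.pd a F x := by
  rw [nrm_eq, Matrix.mulVec_smul, Matrix.mulVec_mulVec,
    Matrix.mul_nonsing_inv _ (hG.det_pos x).ne'.isUnit, Matrix.one_mulVec]

omit h in
theorem nrm_dot (G : Field n) (F Q : E n → ℝ) (x : E n) :
    ∑ a, Stmt.pd a Q x * Stmt.nrm G F a x = P366Z.ip G Q F x / P366Z.gn G F x := by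
  unfold Stmt.nrm P366Z.ip
  simp only [← mul_div_assoc, ← Finset.sum_div, Finset.mul_sum]
  congr 1
  exact Finset.sum_congr rfl fun a _ => Finset.sum_congr rfl fun b _ => by ring

/-- the projection to the tangent space of a level set -/
theorem proj (hF : DifferentiableAt ℝ F (φ y)) (h0 : P366Z.gn G F (φ y) ≠ 0)
    (e : ∀ᶠ z in 𝓝 y, F (φ z) = c) : jac φ y * (Stmt.mat γ y)⁻¹ * (jac φ y)ᵀ =
      (Stmt.mat G (φ y))⁻¹ - vecMulVec (fun a => Stmt.nrm G F a (φ y)) fun a => Stmt.nrm G F a (φ y) := by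
  refine proj_eq (h.m.pos _) (h.m'.pos y) h.mat_eq ?_ ?_
  · rw [low_nrm h.m, dotProduct_smul, dotProduct_comm]
    have := nrm_dot G F F (φ y)
    rw [← h.m.gn_sq] at this
    rw [dotProduct, this, smul_eq_mul]
    field_simp
  · rw [low_nrm h.m, Matrix.mulVec_smul]
    have : (jac φ y)ᵀ *ᵥ (fun a => Stmt.pd a F (φ y)) = 0 := funext fun i =>
      (h.pd_eq hF (u := fun _ => c) (e.mono fun z hz => hz.symm) i).symm.trans (P366Z.pd_const c i y)
    rw [this, smul_zero]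

theorem tr_eq (hF : DifferentiableAt ℝ F (φ y)) (h0 : P366Z.gn G F (φ y) ≠ 0)
    (e : ∀ᶠ z in 𝓝 y, F (φ z) = c) (T : Stmt.Field (k + 1)) :
    Stmt.tr γ (pb φ T) y = Stmt.trS G T F (φ y) := by
  rw [tr_pb, h.proj hF h0 e]
  unfold Stmt.trS Stmt.tr
  simp only [Matrix.sub_apply, vecMulVec_apply, sub_mul, Finset.sum_sub_distrib]
  congr 1
  exact Finset.sum_congr rfl fun a _ => Finset.sum_congr rfl fun b _ => by ring

/-- normal vectors are multiples of the unit normal -/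
theorem eq_nrm (hF : DifferentiableAt ℝ F (φ y)) (h0 : P366Z.gn G F (φ y) ≠ 0)
    (e : ∀ᶠ z in 𝓝 y, F (φ z) = c) {w : Fin (k + 1) → ℝ}
    (hw : (jac φ y)ᵀ *ᵥ (Stmt.mat G (φ y) *ᵥ w) = 0) (a : Fin (k + 1)) :
    w a = (∑ b, Stmt.pd b F (φ y) * w b) / P366Z.gn G F (φ y) * Stmt.nrm G F a (φ y) := by
  have h1 := congrArg (fun A => A *ᵥ (Stmt.mat G (φ y) *ᵥ w)) (h.proj hF h0 e)
  simp only [← Matrix.mulVec_mulVec, hw, Matrix.mulVec_zero, Matrix.sub_mulVec] at h1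
  rw [Matrix.mulVec_mulVec, Matrix.nonsing_inv_mul _ (h.m.det_pos _).ne'.isUnit, Matrix.one_mulVec,
    Matrix.vecMulVec_mulVec, Matrix.dotProduct_mulVec, ← Matrix.mulVec_transpose, h.m.mat_tr,
    low_nrm h.m, smul_dotProduct, eq_comm, sub_eq_zero] at h1
  refine (congrFun h1 a).trans ?_
  simp only [Pi.smul_apply, smul_eq_mul, MulOpposite.smul_eq_mul_unop, MulOpposite.unop_op]
  rw [div_eq_inv_mul, mul_comm]
  rfl

/-- the mean curvature vector of a level set -/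
theorem Hv_eq (hF : ContDiffAt ℝ 2 F (φ y)) (h0 : P366Z.gn G F (φ y) ≠ 0)
    (e : ∀ᶠ z in 𝓝 y, F (φ z) = c) (a : Fin (k + 1)) : Hv φ G γ y a =
      -(Stmt.trS G (Stmt.hess G F) F (φ y) / P366Z.gn G F (φ y)) * Stmt.nrm G F a (φ y) := by
  have h1 := h.lap hF (u := fun _ => c) (e.mono fun z hz => hz.symm)
  rw [P366Z.lap_const, h.tr_eq (P366Z.diff2 hF) h0 e] at h1
  rw [h.eq_nrm (P366Z.diff2 hF) h0 e h.normal_Hv a, ← neg_div, eq_neg_of_add_eq_zero_right h1.symm]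

/-- the Laplacian on a level set -/
theorem lap_lev (hF : ContDiffAt ℝ 2 F (φ y)) (h0 : P366Z.gn G F (φ y) ≠ 0)
    (e : ∀ᶠ z in 𝓝 y, F (φ z) = c) (hQ : ContDiffAt ℝ 2 Q (φ y))
    (e' : u =ᶠ[𝓝 y] fun z => Q (φ z)) : P366Z.lap γ u y = Stmt.tr γ (pb φ (Stmt.hess G Q)) y -
      Stmt.trS G (Stmt.hess G F) F (φ y) / P366Z.gn G F (φ y) *
        (P366Z.ip G Q F (φ y) / P366Z.gn G F (φ y)) := by
  rw [h.lap hQ e', ← nrm_dot, Finset.mul_sum, sub_eq_add_neg, ← Finset.sum_neg_distrib]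
  congr 1
  exact Finset.sum_congr rfl fun a _ => by rw [h.Hv_eq hF h0 e]; ring

end Im

end Im

/-! ### manifolds -/

section Mf

variable {k n : ℕ} {M : Type} [Mf0 n M] {Z : Type} [Mf0 k Z] {ι : Z → M} {z : Z} {g T : Fld n M}
  {γ : Fld k Z} {Q F : M → ℝ} {u : Z → ℝ}

/-- the map `ι` in the preferred charts -/
def cm (ι : Z → M) (z : Z) : E k → E n := fun y => ch (ι z) (ι ((ch z).symm y))

theorem cm_pt (ι : Z → M) (z : Z) : cm ι z (pt z) = pt (ι z) := by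
  unfold cm; rw [symm_pt]; rfl

/-- the metric `γ` is induced by `ι` near `z` -/
structure ImM (ι : Z → M) (g : Fld n M) (γ : Fld k Z) (z : Z) : Prop where
  sm : ∀ᶠ w in 𝓝 z, SmM ι w
  m : Met g
  m' : Met γ
  eq : γ =ᶠ[𝓝 z] pull ι g

theorem Sub.imM {B : Set M} (h : Sub ι B) (hg : Met g) (z : Z) : ImM ι g (pull ι g) z :=
  ⟨.of_forall h.sm, hg, h.met hg, .rfl⟩

theorem rep_pull_ev (h : ∀ᶠ w in 𝓝 z, SmM ι w) (T : Fld n M) :
    rep (ch z) (pull ι T) =ᶠ[𝓝 (pt z)] pb (cm ι z) (rep (ch (ι z)) T) :=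
  EventuallyEq.trans ((ev_pt.1 h).mono fun _ hz => rep_pull (ch_mem z) hz T)
    (SmP.pl_ev h.self_of_nhds (ch_mem (ι z)) (by rw [loc_pt]; exact mem_ch _) T)

theorem SmM.loc_ev {α : Type} (h : SmM ι z) (Q : M → α) :
    loc (ch z) (fun w => Q (ι w)) =ᶠ[𝓝 (pt z)] fun y => loc (ch (ι z)) Q (cm ι z y) :=
  (ev_pt.1 (h.ct.eventually ((ch (ι z)).open_source.mem_nhds (mem_ch _)))).mono fun y hy => by
    simp only [loc, cm, (ch (ι z)).left_inv hy]

namespace ImM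

variable (h : ImM ι g γ z)
include h

theorem ev : ∀ᶠ w in 𝓝 z, ImM ι g γ w := by
  filter_upwards [h.sm.eventually_nhds, h.eq.eventuallyEq_nhds] with z a b using ⟨a, h.m, h.m', b⟩

theorem im : Im (cm ι z) (rep (ch (ι z)) g) (rep (ch z) γ) (pt z) :=
  ⟨(SmP.cd h.sm.self_of_nhds (ch_mem (ι z)) (by rw [loc_pt]; exact mem_ch _)).of_le
    (by norm_cast), h.m.loc' _, h.m'.loc' _, (rep_congr_pt h.eq).trans (rep_pull_ev h.sm g)⟩

theorem lc (e : u =ᶠ[𝓝 z] fun w => Q (ι w)) :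
    loc (ch z) u =ᶠ[𝓝 (pt z)] fun y => loc (ch (ι z)) Q (cm ι z y) :=
  (loc_congr e).trans (h.sm.self_of_nhds.loc_ev Q)

theorem ip_le (hQ : DAt Q (ι z)) (e : u =ᶠ[𝓝 z] fun w => Q (ι w)) :
    ip γ u u z ≤ ip g Q Q (ι z) := by
  have := h.im.ip_le (Q := loc (ch (ι z)) Q) (by rwa [cm_pt]) (h.lc e)
  rwa [cm_pt, ip_pt, ip_pt] at this

theorem gn_le (hQ : DAt Q (ι z)) (e : u =ᶠ[𝓝 z] fun w => Q (ι w)) :
    gn γ u z ≤ gn g Q (ι z) := Real.sqrt_le_sqrt (h.ip_le hQ e)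

theorem tr_self : tr γ (pull ι g) z = k := by
  unfold P366M.tr
  rw [← h.eq.self_of_nhds]
  have : ∀ i, ∑ j, up γ i j z * γ z i j = 1 := fun i => by
    simp only [h.m'.sy z i, h.m'.up_mul, if_true]
  simp [this]

theorem tr_nonneg (hT : (mat T (ι z)).PosSemidef) : 0 ≤ tr γ (pull ι T) z := by
  refine P366D.tr_nonneg (h.m'.inv_pos z).posSemidef (T := mat (pull ι T) z) ?_
  rw [mat_pull]
  exact hT.conjTranspose_mul_mul_same _

theorem tr_pb {T' : Field n} (e : T' (pt (ι z)) = T (ι z)) :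
    Stmt.tr (rep (ch z) γ) (pb (cm ι z) T') (pt z) = tr γ (pull ι T) z := by
  rw [← tr_pt]
  unfold Stmt.tr
  rw [(rep_pull_ev h.sm T).self_of_nhds, pb_congr (G' := rep (ch (ι z)) T) .rfl
    (by rw [cm_pt, e, rep_pt])]

end ImM

variable {M : Type} [Mf0 (k + 1) M] {ι : Z → M} {g T : Fld (k + 1) M} {Q F : M → ℝ} {c : ℝ}

theorem trS_pt (g : Fld (k + 1) M) {T' : Stmt.Field (k + 1)} {x : M} (e : T' (pt x) = T x) (F : M → ℝ) :
    Stmt.trS (rep (ch x) g) T' (loc (ch x) F) (pt x) = trS g T F x := by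
  unfold Stmt.trS Stmt.tr P366M.trS P366M.tr
  simp only [up_pt, nrm_pt, e]

theorem ImM.lev (h : ImM ι g γ z) (e : ∀ᶠ w in 𝓝 z, F (ι w) = c) :
    ∀ᶠ y in 𝓝 (pt z), loc (ch (ι z)) F (cm ι z y) = c :=
  (h.lc (u := fun _ => c) (e.mono fun _ hw => hw.symm)).mono fun _ hy => hy.symm

theorem ImM.tr_eq (h : ImM ι g γ z) (hF : DAt F (ι z)) (h0 : gn g F (ι z) ≠ 0)
    (e : ∀ᶠ w in 𝓝 z, F (ι w) = c) (T : Fld (k + 1) M) :
    tr γ (pull ι T) z = trS g T F (ι z) := by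
  have := h.im.tr_eq (F := loc (ch (ι z)) F) (by rwa [cm_pt]) (by rwa [cm_pt, gn_pt]) (h.lev e)
    (rep (ch (ι z)) T)
  rwa [h.tr_pb (rep_pt T _), cm_pt, trS_pt g (rep_pt T _)] at this

/-- the Laplacian on a level set -/
theorem ImM.lap_lev (h : ImM ι g γ z) (hF : CAt 2 F (ι z)) (h0 : gn g F (ι z) ≠ 0)
    (e : ∀ᶠ w in 𝓝 z, F (ι w) = c) (hQ : CAt 2 Q (ι z)) (e' : u =ᶠ[𝓝 z] fun w => Q (ι w)) :
    lap γ u z = tr γ (pull ι (hess g Q)) z -
      trS g (hess g F) F (ι z) / gn g F (ι z) * (ip g Q F (ι z) / gn g F (ι z)) := by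
  have := h.im.lap_lev (F := loc (ch (ι z)) F) (Q := loc (ch (ι z)) Q) (by rwa [cm_pt])
    (by rwa [cm_pt, gn_pt]) (h.lev e) (by rwa [cm_pt]) (h.lc e')
  rwa [h.tr_pb (hess_pt g Q _), cm_pt, trS_pt g (hess_pt g F _), gn_pt, ip_pt] at this

/-- **the bound for the mean curvature** from local defining functions -/
theorem mc_of {B : Set M} {Λ : ℝ} (h : Sub ι B) (hg : Met g) (H : ∀ z, ∃ F : M → ℝ,
    CAt 2 F (ι z) ∧ gn g F (ι z) ≠ 0 ∧ (∀ᶠ w in 𝓝 z, F (ι w) = 0) ∧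
      |trS g (hess g F) F (ι z) / gn g F (ι z)| ≤ Λ) : Mc g ι Λ := fun Q hQ z => by
  obtain ⟨F, h1, h2, h3, h4⟩ := H z
  rw [(h.imM hg z).lap_lev h1 h2 h3 (hQ.c2 _) .rfl, sub_sub_cancel_left, abs_neg, abs_mul]
  refine mul_le_mul h4 ?_ (abs_nonneg _) ((abs_nonneg _).trans h4)
  have h5 := lt_of_le_of_ne (gn_nonneg g F _) h2.symm
  rw [abs_div, abs_of_pos h5, div_le_iff₀ h5]
  exact hg.abs_ip_le _ _ _

end Mf

end Vale.Agent.P366D
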